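import Vale.Agent.P256.Kernel

namespace Vale.Agent.P256

open Filter Topology
open scoped BigOperators MatrixOrder

variable {α β : Type*}

/-- A finite rank kernel which is uniformly bounded by `ε`, through its factors. -/
def Bdd (A : Set α) (B : Set β) (ε : ℝ) (T : α → β → ℝ) : Prop :=
  ∃ (r : ℕ) (f : Fin r → α → ℝ) (g : Fin r → β → ℝ) (c d : Fin r → ℝ),
    (∀ j, 0 ≤ c j) ∧ (∀ j, 0 ≤ d j) ∧
    (∀ a ∈ A, ∀ j, |f j a| ≤ c j) ∧ (∀ b ∈ B, ∀ j, |g j b| ≤ d j) ∧
    ∑ j, c j * d j ≤ ε ∧ ∀ a b, T a b = ∑ j, f j a * g j b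

variable {A : Set α} {B : Set β}

lemma Bdd.finRank {ε : ℝ} {T : α → β → ℝ} (h : Bdd A B ε T) : FinRank T := by
  obtain ⟨r, f, g, _, _, _, _, _, _, _, hT⟩ := h
  exact ⟨r, f, g, hT⟩

lemma bdd_congr {ε : ℝ} {S T : α → β → ℝ} (h : Bdd A B ε S) (e : ∀ a b, T a b = S a b) :
    Bdd A B ε T := by
  obtain ⟨r, f, g, c, d, h1, h2, h3, h4, h5, hT⟩ := h
  exact ⟨r, f, g, c, d, h1, h2, h3, h4, h5, fun a b => by rw [e, hT]⟩

lemma Bdd.mono {ε ε' : ℝ} {T : α → β → ℝ} (h : Bdd A B ε T) (he : ε ≤ ε') : Bdd A B ε' T := by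
  obtain ⟨r, f, g, c, d, h1, h2, h3, h4, h5, hT⟩ := h
  exact ⟨r, f, g, c, d, h1, h2, h3, h4, h5.trans he, hT⟩

lemma bdd_prod (f : α → ℝ) (g : β → ℝ) {c d : ℝ} (hc : 0 ≤ c) (hd : 0 ≤ d)
    (hf : ∀ a ∈ A, |f a| ≤ c) (hg : ∀ b ∈ B, |g b| ≤ d) :
    Bdd A B (c * d) (fun a b => f a * g b) :=
  ⟨1, fun _ => f, fun _ => g, fun _ => c, fun _ => d, fun _ => hc, fun _ => hd,
    fun a ha _ => hf a ha, fun b hb _ => hg b hb, by simp, fun a b => by simp⟩

lemma bdd_fintype {ι : Type*} [Fintype ι] (f : ι → α → ℝ) (g : ι → β → ℝ) (c d : ι → ℝ)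
    (hc : ∀ j, 0 ≤ c j) (hd : ∀ j, 0 ≤ d j) (hf : ∀ a ∈ A, ∀ j, |f j a| ≤ c j)
    (hg : ∀ b ∈ B, ∀ j, |g j b| ≤ d j) :
    Bdd A B (∑ j, c j * d j) (fun a b => ∑ j, f j a * g j b) :=
  ⟨Fintype.card ι, fun j => f ((Fintype.equivFin ι).symm j),
    fun j => g ((Fintype.equivFin ι).symm j), fun j => c ((Fintype.equivFin ι).symm j),
    fun j => d ((Fintype.equivFin ι).symm j), fun _ => hc _, fun _ => hd _,
    fun a ha _ => hf a ha _, fun b hb _ => hg b hb _,
    ((Fintype.equivFin ι).symm.sum_comp (fun j => c j * d j)).le,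
    fun a b => ((Fintype.equivFin ι).symm.sum_comp (fun j => f j a * g j b)).symm⟩

lemma Bdd.add {ε ε' : ℝ} {S T : α → β → ℝ} (hS : Bdd A B ε S) (hT : Bdd A B ε' T) :
    Bdd A B (ε + ε') (fun a b => S a b + T a b) := by
  obtain ⟨r, f, g, c, d, h1, h2, h3, h4, h5, hS⟩ := hS
  obtain ⟨s, f', g', c', d', h1', h2', h3', h4', h5', hT⟩ := hT
  refine bdd_congr ((bdd_fintype (Sum.elim f f') (Sum.elim g g') (Sum.elim c c') (Sum.elim d d')
    (fun j => by cases j <;> simp [h1, h1']) (fun j => by cases j <;> simp [h2, h2'])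
    (fun a ha j => by cases j <;> simp [h3 a ha, h3' a ha])
    (fun b hb j => by cases j <;> simp [h4 b hb, h4' b hb])).mono ?_) fun a b => ?_
  · simp only [Fintype.sum_sum_type, Sum.elim_inl, Sum.elim_inr]
    linarith
  · simp [hS, hT, Fintype.sum_sum_type]

/-- A symmetric matrix kernel, positive definite up to a small perturbation, gives squares. -/
lemma sosOn_quadForm {ι : Type*} [Fintype ι] [DecidableEq ι] (v : ι → α → β → ℝ)
    (hv : ∀ i, FinRank (v i)) (C : β → Matrix ι ι ℝ) (η : ℝ)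
    (hsym : ∀ b ∈ B, (C b).IsSymm)
    (hC : ∀ b ∈ B, ∀ ξ : ι → ℝ, η * ∑ i, ξ i ^ 2 ≤ ∑ i, ∑ j, C b i j * ξ i * ξ j)
    (T : ι → ι → α → β → ℝ) {ε : ℝ} (hT : ∀ i j, Bdd A B ε (T i j))
    (hsmall : Fintype.card ι * ε ≤ η) :
    SOSOn A B (fun a b => ∑ i, ∑ j, (C b i j + T i j a b) * v i a b * v j a b) := by
  classical
  -- the square root of the part depending on the second variable
  have hsq : ∀ b ∈ B, ∃ R : Matrix ι ι ℝ, ∀ ξ : ι → ℝ,
      ∑ k, (∑ i, R k i * ξ i) ^ 2 = (∑ i, ∑ j, C b i j * ξ i * ξ j) - η * ∑ i, ξ i ^ 2 := by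
    intro b hb
    have hpsd : (C b - η • (1 : Matrix ι ι ℝ)).PosSemidef := by
      refine Matrix.PosSemidef.of_dotProduct_mulVec_nonneg ?_ fun ξ => ?_
      · rw [Matrix.IsHermitian, Matrix.conjTranspose_eq_transpose_of_trivial]
        exact (hsym b hb).sub (Matrix.isSymm_one.smul η)
      · have := hC b hb ξ
        simp only [star_trivial, dotProduct, Matrix.mulVec, Matrix.sub_apply, Matrix.smul_apply,
          Matrix.one_apply, smul_eq_mul, sub_mul, Finset.sum_sub_distrib, Finset.mul_sum, mul_ite,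
          ite_mul, mul_one, mul_zero, zero_mul, Finset.sum_ite_eq, Finset.mem_univ, if_true,
          mul_sub]
        have e1 : ∑ i, ∑ j, ξ i * (C b i j * ξ j) = ∑ i, ∑ j, C b i j * ξ i * ξ j :=
          Finset.sum_congr rfl fun i _ => Finset.sum_congr rfl fun j _ => by ring
        have e2 : ∑ i, ξ i * (η * ξ i) = η * ∑ i, ξ i ^ 2 := by
          rw [Finset.mul_sum]; exact Finset.sum_congr rfl fun i _ => by ring
        linarith
    obtain ⟨R, hR⟩ := CStarAlgebra.nonneg_iff_eq_star_mul_self.1 hpsd.nonneg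
    refine ⟨R, fun ξ => ?_⟩
    have h1 : ∀ i j, C b i j - (if i = j then η else 0) = ∑ k, R k i * R k j := by
      intro i j
      have := congrFun (congrFun hR i) j
      simpa [Matrix.mul_apply, Matrix.one_apply] using this
    have h2 : ∑ k, (∑ i, R k i * ξ i) ^ 2 =
        ∑ i, ∑ j, (∑ k, R k i * R k j) * ξ i * ξ j := by
      simp_rw [sq, Finset.sum_mul_sum, Finset.sum_mul]
      rw [Finset.sum_comm]
      refine Finset.sum_congr rfl fun i _ => ?_
      rw [Finset.sum_comm]
      exact Finset.sum_congr rfl fun j _ => Finset.sum_congr rfl fun k _ => by ring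
    rw [h2]
    simp_rw [← h1, sub_mul, Finset.sum_sub_distrib, ite_mul, zero_mul, Finset.sum_ite_eq,
      Finset.mem_univ, if_true, Finset.mul_sum]
    congr 1
    exact Finset.sum_congr rfl fun i _ => by ring
  choose! R hR using hsq
  have hlin : ∀ k, FinRank (fun a b => ∑ i, R b k i * v i a b) := by
    intro k
    induction (Finset.univ : Finset ι) using Finset.induction_on with
    | empty => exact finRank_congr (finRank_left (fun _ => (0 : ℝ))) (by simp)
    | insert i s hi ih =>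
      exact finRank_congr (((finRank_right (fun b => R b k i)).mul (hv i)).add ih)
        fun a b => by rw [Finset.sum_insert hi]
  have hpair : ∀ i j, SOSOn A B
      (fun a b => ε / 2 * (v i a b ^ 2 + v j a b ^ 2) + T i j a b * v i a b * v j a b) := by
    intro i j
    obtain ⟨r, f, g, c, d, h1, h2, h3, h4, h5, hTe⟩ := hT i j
    have hp : SOSOn A B (fun a b => ε + T i j a b) ∧ SOSOn A B (fun a b => ε - T i j a b) := by
      constructor
      all_goals
        refine sosOn_congr ((sosOn_const (c := ε - ∑ l, c l * d l) (by linarith)).add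
          (sosOn_sum Finset.univ (S := fun l a b => c l * d l + (?_ : ℝ) * (f l a * g l b)) ?_)) ?_
      · exact 1
      · intro l _
        refine sosOn_congr ((sosOn_prod (fun a => (c l + f l a) / 2) (fun b => d l + g l b)
          (fun a ha => by have := abs_le.1 (h3 a ha l); linarith)
          (fun b hb => by have := abs_le.1 (h4 b hb l); linarith)).add
          (sosOn_prod (fun a => (c l - f l a) / 2) (fun b => d l - g l b)
          (fun a ha => by have := abs_le.1 (h3 a ha l); linarith)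
          (fun b hb => by have := abs_le.1 (h4 b hb l); linarith))) fun a _ b _ => by ring
      · intro a _ b _
        simp only [one_mul, hTe, Finset.sum_add_distrib]
        ring
      · exact -1
      · intro l _
        refine sosOn_congr ((sosOn_prod (fun a => (c l - f l a) / 2) (fun b => d l + g l b)
          (fun a ha => by have := abs_le.1 (h3 a ha l); linarith)
          (fun b hb => by have := abs_le.1 (h4 b hb l); linarith)).add
          (sosOn_prod (fun a => (c l + f l a) / 2) (fun b => d l - g l b)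
          (fun a ha => by have := abs_le.1 (h3 a ha l); linarith)
          (fun b hb => by have := abs_le.1 (h4 b hb l); linarith))) fun a _ b _ => by ring
      · intro a _ b _
        simp only [neg_one_mul, hTe, Finset.sum_add_distrib, Finset.sum_neg_distrib]
        ring
    refine sosOn_congr (((sosOn_const (c := (1 / 4 : ℝ)) (by norm_num)).mul
      ((hp.1.mul (sosOn_sq ((hv i).add (hv j)))).add
        (hp.2.mul (sosOn_sq ((hv i).sub (hv j))))))) fun a _ b _ => by ring
  refine sosOn_congr (((sosOn_sum Finset.univ fun k _ => sosOn_sq (hlin k)).add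
    ((sosOn_const (c := η - Fintype.card ι * ε) (by linarith)).mul
      (sosOn_sum Finset.univ fun i _ => sosOn_sq (hv i)))).add
    (sosOn_sum Finset.univ fun i _ => sosOn_sum Finset.univ fun j _ => hpair i j)) fun a _ b hb => ?_
  rw [hR b hb]
  simp only [add_mul, Finset.sum_add_distrib, mul_add, ← Finset.mul_sum, Finset.sum_const,
    Finset.card_univ, nsmul_eq_mul]
  ring

section Topo

variable [TopologicalSpace α]

/-- Compactness in an auxiliary space on the second side. -/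
lemma sosOn_of_local_right {γ : Type*} [TopologicalSpace γ] {a₀ : α} {S : α → β → ℝ} {C : Set γ}
    (hC : IsCompact C) (φ : β → γ) (hφ : ∀ b ∈ B, φ b ∈ C)
    (h : ∀ c ∈ C, ∃ U ∈ 𝓝 a₀, ∃ V ∈ 𝓝 c, SOSOn (U ∩ A) (B ∩ φ ⁻¹' V) S) :
    ∃ U ∈ 𝓝 a₀, SOSOn (U ∩ A) B S := by
  classical
  choose! U hU V hV hUV using h
  obtain ⟨t, ht, hcov⟩ := hC.elim_nhds_subcover V hV
  refine ⟨⋂ c ∈ t, U c, (biInter_finset_mem t).2 fun c hc => hU c (ht c hc), ?_⟩
  refine sosOn_glue (fun _ : t => (⋂ c ∈ t, U c) ∩ A) (fun c : t => B ∩ φ ⁻¹' V c.1) ?_ ?_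
  · intro a ha b hb
    have := hcov (hφ b hb)
    simp only [Set.mem_iUnion] at this
    obtain ⟨c, hc, hmem⟩ := this
    exact ⟨⟨c, hc⟩, ha, hb, hmem⟩
  · intro c
    exact sosOn_mono (hUV c.1 (ht c.1 c.2))
      (Set.inter_subset_inter_left _ (Set.biInter_subset_of_mem c.2)) Set.Subset.rfl

end Topo

end Vale.Agent.P256
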