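import Vale.Agent.P256.CubicCone
import Vale.Agent.P256.Near

namespace Vale.Agent.P256

open Filter Topology
open scoped BigOperators

variable {n : ℕ}

/-- A bilinear form is the sum over the coordinates. -/
lemma bilin_eq_sum (B : Vec n →ₗ[ℝ] Vec n →ₗ[ℝ] ℝ) (u w : Vec n) :
    B u w = ∑ i, ∑ j, B (Pi.single i 1) (Pi.single j 1) * u i * w j := by
  conv_lhs => rw [pi_eq_sum_univ' u, pi_eq_sum_univ' w]
  simp only [map_sum, map_smul, LinearMap.sum_apply, LinearMap.smul_apply, smul_eq_mul,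
    Finset.mul_sum]
  rw [Finset.sum_comm]
  exact Finset.sum_congr rfl fun i _ => Finset.sum_congr rfl fun j _ => by ring

/-- A linear functional is the sum over the coordinates. -/
lemma lin_eq_sum (L : Vec n →ₗ[ℝ] ℝ) (u : Vec n) : L u = ∑ i, u i * L (Pi.single i 1) := by
  conv_lhs => rw [pi_eq_sum_univ' u]
  simp

lemma sum_sq_le_norm (v : Vec n) : ∑ i, v i ^ 2 ≤ n * ‖v‖ ^ 2 := by
  calc ∑ i, v i ^ 2 ≤ ∑ _i : Fin n, ‖v‖ ^ 2 := Finset.sum_le_sum fun i _ => by
          have := norm_le_pi_norm v i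
          rw [Real.norm_eq_abs] at this
          exact sq_le_sq' (abs_le.1 this).1 (abs_le.1 this).2
    _ = n * ‖v‖ ^ 2 := by simp

lemma norm_sq_le_sum (v : Vec n) : ‖v‖ ^ 2 ≤ ∑ i, v i ^ 2 := by
  have h : ‖v‖ ≤ Real.sqrt (∑ i, v i ^ 2) := (pi_norm_le_iff_of_nonneg (Real.sqrt_nonneg _)).2
    fun i => by
      rw [Real.norm_eq_abs, ← Real.sqrt_sq_eq_abs]
      exact Real.sqrt_le_sqrt (Finset.single_le_sum (f := fun i => v i ^ 2)
        (fun i _ => sq_nonneg _) (Finset.mem_univ i))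
  nlinarith [Real.sq_sqrt (Finset.sum_nonneg fun i (_ : i ∈ Finset.univ) => sq_nonneg (v i)),
    norm_nonneg v, Real.sqrt_nonneg (∑ i, v i ^ 2)]

lemma single_norm_le (i : Fin n) : ‖(Pi.single i 1 : Vec n)‖ ≤ 1 :=
  (pi_norm_le_iff_of_nonneg zero_le_one).2 fun j => by
    by_cases h : j = i <;> simp [h]

namespace HCubic

variable (H : HCubic n)

/-- A bound for the trilinear form. -/
noncomputable def bound : ℝ :=
  1 + ∑ i, ∑ j, ∑ k, |H.M (Pi.single i 1) (Pi.single j 1) (Pi.single k 1)|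

lemma bound_pos : 0 < H.bound := by
  have : 0 ≤ ∑ i, ∑ j, ∑ k, |H.M (Pi.single i 1) (Pi.single j 1) (Pi.single k 1)| :=
    Finset.sum_nonneg fun i _ => Finset.sum_nonneg fun j _ => Finset.sum_nonneg fun k _ =>
      abs_nonneg _
  rw [bound]; linarith

lemma abs_M_le (u v w : Vec n) : |H.M u v w| ≤ H.bound * ‖u‖ * ‖v‖ * ‖w‖ := by
  have hc : ∀ (z : Vec n) i, |z i| ≤ ‖z‖ := fun z i => by
    simpa [Real.norm_eq_abs] using norm_le_pi_norm z i
  have e : H.M u v w = ∑ i, ∑ j, ∑ k,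
      u i * v j * w k * H.M (Pi.single i 1) (Pi.single j 1) (Pi.single k 1) := by
    rw [show H.M u v w = (H.M.flip v).flip w u from rfl, lin_eq_sum _ u]
    refine Finset.sum_congr rfl fun i _ => ?_
    rw [show (H.M.flip v).flip w (Pi.single i 1) = H.M (Pi.single i 1) v w from rfl,
      bilin_eq_sum (H.M (Pi.single i 1)) v w, Finset.mul_sum]
    refine Finset.sum_congr rfl fun j _ => ?_
    rw [Finset.mul_sum]
    exact Finset.sum_congr rfl fun k _ => by ring
  rw [e]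
  have step : |∑ i, ∑ j, ∑ k, u i * v j * w k *
      H.M (Pi.single i 1) (Pi.single j 1) (Pi.single k 1)| ≤
      ∑ i, ∑ j, ∑ k, ‖u‖ * ‖v‖ * ‖w‖ *
        |H.M (Pi.single i 1) (Pi.single j 1) (Pi.single k 1)| := by
    refine (Finset.abs_sum_le_sum_abs _ _).trans (Finset.sum_le_sum fun i _ => ?_)
    refine (Finset.abs_sum_le_sum_abs _ _).trans (Finset.sum_le_sum fun j _ => ?_)
    refine (Finset.abs_sum_le_sum_abs _ _).trans (Finset.sum_le_sum fun k _ => ?_)
    rw [abs_mul, abs_mul, abs_mul]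
    gcongr <;> apply hc
  refine step.trans ?_
  simp only [← Finset.mul_sum]
  rw [bound]
  nlinarith [mul_nonneg (mul_nonneg (norm_nonneg u) (norm_nonneg v)) (norm_nonneg w)]

end HCubic

/-- A positive homogeneous quadratic function on a closed cone of vectors is bounded below. -/
lemma exists_quad_bound (φ : Vec n → ℝ) (hφ : Continuous φ)
    (hh : ∀ (t : ℝ) v, φ (t • v) = t ^ 2 * φ v) (W : Submodule ℝ (Vec n))
    (hpos : ∀ v ∈ W, v ≠ 0 → 0 < φ v) :
    ∃ η, 0 < η ∧ ∀ v ∈ W, η * ‖v‖ ^ 2 ≤ φ v := by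
  have hc : IsCompact ((W : Set (Vec n)) ∩ Metric.sphere 0 1) :=
    (isCompact_sphere _ _).inter_left W.closed_of_finiteDimensional
  rcases ((W : Set (Vec n)) ∩ Metric.sphere 0 1).eq_empty_or_nonempty with he | hne
  · refine ⟨1, one_pos, fun v hv => ?_⟩
    by_cases h0 : v = 0
    · subst h0
      have := hh 0 0
      simp at this
      simp [this]
    · exfalso
      have : ‖v‖⁻¹ • v ∈ ((W : Set (Vec n)) ∩ Metric.sphere 0 1) :=
        ⟨W.smul_mem _ hv, by simp [norm_smul, h0]⟩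
      rw [he] at this
      exact this
  · obtain ⟨v₀, hv₀, hmin⟩ := hc.exists_isMinOn hne hφ.continuousOn
    have hv₀0 : v₀ ≠ 0 := by
      intro h; simp [h] at hv₀
    refine ⟨φ v₀, hpos v₀ hv₀.1 hv₀0, fun v hv => ?_⟩
    by_cases h0 : v = 0
    · subst h0
      have := hh 0 0
      simp at this
      simp [this]
    · have hmem : ‖v‖⁻¹ • v ∈ ((W : Set (Vec n)) ∩ Metric.sphere 0 1) :=
        ⟨W.smul_mem _ hv, by simp [norm_smul, h0]⟩
      have := hmin hmem
      simp only [Set.mem_ofPred_eq, hh] at this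
      have hn : 0 < ‖v‖ := norm_pos_iff.2 h0
      calc φ v₀ * ‖v‖ ^ 2 ≤ (‖v‖⁻¹ ^ 2 * φ v) * ‖v‖ ^ 2 :=
            mul_le_mul_of_nonneg_right this (sq_nonneg _)
        _ = φ v := by field_simp

end Vale.Agent.P256
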