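import Vale.Agent.P256.Node

namespace Vale.Agent.P256

open Filter Topology
open scoped BigOperators

variable {n : ℕ}

namespace HCubic

variable (H : HCubic n)

/-- The normalised boundary of the cone. -/
def bdry : Set (Vec n) := {a | a ∈ H.cone ∧ H.M H.e H.e a = 1 ∧ H.M a a a = 0}

/-- Its smooth points. -/
def smoothPts : Set (Vec n) := {x | x ∈ H.bdry ∧ 0 < H.M H.e x x}

lemma smoothPts_subset : H.smoothPts ⊆ H.bdry := fun _ h => h.1

lemma isCompact_bdry (hP : H.Pointed) : IsCompact H.bdry := by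
  obtain ⟨μ, hμ, hb⟩ := exists_quad_bound (fun v => -H.M H.e v v)
    (H.continuous_M continuous_const continuous_id continuous_id).neg
    (fun t v => by simp; ring) (LinearMap.ker (H.M H.e H.e))
    (fun v hv hv0 => by
      have := H.traceless v hv
      rcases eq_or_lt_of_le this with h | h
      · exact absurd (hP v hv h) hv0
      · linarith)
  have hclosed : IsClosed H.bdry := by
    have e : H.bdry = H.cone ∩ ({a | H.M H.e H.e a = 1} ∩ {a | H.M a a a = 0}) := rfl
    rw [e]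
    exact H.isClosed_cone.inter ((isClosed_eq
      (H.continuous_M continuous_const continuous_const continuous_id) continuous_const).inter
      (isClosed_eq (H.continuous_M continuous_id continuous_id continuous_id) continuous_const))
  refine (isCompact_closedBall H.e (Real.sqrt (1 / μ))).of_isClosed_subset hclosed ?_
  rintro a ⟨hc, ha, -⟩
  rw [Metric.mem_closedBall, dist_eq_norm]
  refine Real.le_sqrt_of_sq_le ?_
  rw [le_div_iff₀' hμ]
  have hw := hb (a - H.e) (by simp [ha, H.norm])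
  simp only [map_sub, LinearMap.sub_apply, H.norm, H.swap₂₃ H.e a H.e, ha] at hw
  linarith [hc.2.1]

end HCubic

/-- A symmetric matrix kernel that is close to a definite form on a subspace. -/
lemma sosOn_near {A B : Set (Vec n)} (Φ : Vec n →ₗ[ℝ] Vec n →ₗ[ℝ] ℝ) (P : Vec n →ₗ[ℝ] Vec n)
    (hsym : ∀ u v, Φ u v = Φ v u) {η : ℝ} (hη : 0 < η)
    (hΦ : ∀ v, η * ‖P v‖ ^ 2 ≤ Φ (P v) (P v))
    (w : Fin n → Vec n → Vec n → ℝ) (hw : ∀ i, FinRank (w i))
    (hPw : ∀ a ∈ A, ∀ b ∈ B, P (fun i => w i a b) = fun i => w i a b)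
    (T : Fin n → Fin n → Vec n → Vec n → ℝ) {ε : ℝ} (hT : ∀ i j, Bdd A B ε (T i j))
    (hsmall : n * ε ≤ min η 1 / (2 * (n + 1))) :
    SOSOn A B (fun a b => Φ (fun i => w i a b) (fun i => w i a b) +
      ∑ i, ∑ j, T i j a b * w i a b * w j a b) := by
  set η' : ℝ := min η 1 / (2 * (n + 1)) with hη'
  have hη'pos : 0 < η' := div_pos (lt_min hη one_pos) (by positivity)
  let C : Matrix (Fin n) (Fin n) ℝ := fun i j =>
    Φ (P (Pi.single i 1)) (P (Pi.single j 1)) +
      ∑ k, (Pi.single i (1 : ℝ) - P (Pi.single i 1) : Vec n) k *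
        (Pi.single j (1 : ℝ) - P (Pi.single j 1) : Vec n) k
  have hCq : ∀ ξ : Fin n → ℝ, ∑ i, ∑ j, C i j * ξ i * ξ j =
      Φ (P ξ) (P ξ) + ∑ k, (ξ - P ξ) k ^ 2 := by
    intro ξ
    have e1 : ∑ i, ∑ j, Φ (P (Pi.single i 1)) (P (Pi.single j 1)) * ξ i * ξ j = Φ (P ξ) (P ξ) :=
      (bilin_eq_sum (Φ.compl₁₂ P P) ξ ξ).symm
    have e2 : ∀ k, (ξ - P ξ) k =
        ∑ i, ξ i * (Pi.single i (1 : ℝ) - P (Pi.single i 1) : Vec n) k := fun k =>
      lin_eq_sum ((LinearMap.proj k).comp (LinearMap.id - P)) ξ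
    have e3 : ∀ k, (ξ - P ξ) k ^ 2 = ∑ i, ∑ j,
        (ξ i * (Pi.single i (1 : ℝ) - P (Pi.single i 1) : Vec n) k) *
          (ξ j * (Pi.single j (1 : ℝ) - P (Pi.single j 1) : Vec n) k) := fun k => by
      rw [e2, sq, Finset.sum_mul_sum]
    simp only [C, add_mul, Finset.sum_add_distrib, e3, Finset.sum_mul, e1]
    congr 1
    conv_rhs => rw [Finset.sum_comm]
    refine Finset.sum_congr rfl fun i _ => ?_
    conv_rhs => rw [Finset.sum_comm]
    exact Finset.sum_congr rfl fun j _ => Finset.sum_congr rfl fun k _ => by ring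
  have hlow : ∀ ξ : Fin n → ℝ, η' * ∑ i, ξ i ^ 2 ≤ ∑ i, ∑ j, C i j * ξ i * ξ j := by
    intro ξ
    rw [hCq]
    have h1 := hΦ ξ
    set Q := P ξ
    have h2 : ∑ i, ξ i ^ 2 ≤ 2 * ∑ i, Q i ^ 2 + 2 * ∑ i, (ξ - Q) i ^ 2 := by
      rw [Finset.mul_sum, Finset.mul_sum, ← Finset.sum_add_distrib]
      refine Finset.sum_le_sum fun i _ => ?_
      have : ξ i = Q i + (ξ - Q) i := by simp
      rw [this]
      nlinarith [sq_nonneg (Q i - (ξ - Q) i)]
    have h3 := sum_sq_le_norm Q
    have hm1 := min_le_left η 1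
    have hm2 := min_le_right η 1
    have e : η' * (2 * (n + 1)) = min η 1 := by rw [hη']; field_simp
    have hn0 : (0 : ℝ) ≤ n := Nat.cast_nonneg n
    have hW : 0 ≤ ∑ i, (ξ - Q) i ^ 2 := Finset.sum_nonneg fun i _ => sq_nonneg _
    have b0 : η' * (2 * n) ≤ η := by nlinarith
    have b1 : η' * (2 * ∑ i, Q i ^ 2) ≤ η * ‖Q‖ ^ 2 := by
      nlinarith [mul_le_mul_of_nonneg_left h3 hη'pos.le,
        mul_le_mul_of_nonneg_right b0 (sq_nonneg ‖Q‖)]
    have b2 : η' * (2 * ∑ i, (ξ - Q) i ^ 2) ≤ ∑ i, (ξ - Q) i ^ 2 := by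
      have : 2 * η' ≤ 1 := by nlinarith
      nlinarith [mul_le_mul_of_nonneg_right this hW]
    nlinarith [mul_le_mul_of_nonneg_left h2 hη'pos.le]
  have hsymm : C.IsSymm := Matrix.IsSymm.ext fun i j => by
    simp only [C]
    rw [hsym]
    congr 1
    exact Finset.sum_congr rfl fun k _ => mul_comm _ _
  refine sosOn_congr (sosOn_quadForm w hw (fun _ => C) η' (fun _ _ => hsymm) (fun _ _ => hlow) T hT
    (by rwa [Fintype.card_fin])) fun a ha b hb => ?_
  simp only [add_mul, Finset.sum_add_distrib, hCq, hPw a ha b hb, sub_self]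
  simp

/-- A scalar kernel which is close to a positive function of the second variable. -/
lemma sosOn_scalar {α β : Type*} {A : Set α} {B : Set β} (g : β → ℝ) (T : α → β → ℝ) {ε : ℝ}
    (hg : ∀ b ∈ B, ε ≤ g b) (hT : Bdd A B ε T) : SOSOn A B (fun a b => g b + T a b) := by
  refine sosOn_congr (sosOn_quadForm (ι := Unit) (fun _ _ _ => (1 : ℝ))
    (fun _ => finRank_left _) (fun b => fun _ _ => g b) ε
    (fun b _ => Matrix.IsSymm.ext fun _ _ => rfl)
    (fun b hb ξ => ?_) (fun _ _ => T) (fun _ _ => hT) (by simp)) fun a _ b _ => by simp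
  simp only [Finset.univ_unique, Finset.sum_singleton]
  nlinarith [mul_le_mul_of_nonneg_right (hg b hb) (sq_nonneg (ξ default))]

namespace HCubic

variable (H : HCubic n)

/-- The diagonal cell at a smooth point without flat directions. -/
lemma strict_cell (hP : H.Pointed) {x₀ : Vec n} (hx₀ : x₀ ∈ H.smoothPts)
    (hflat : ∀ w, H.M H.e H.e w = 0 → H.M w x₀ x₀ = 0 → H.M x₀ w w = 0 → w = 0) :
    ∃ U ∈ 𝓝 x₀, SOSOn (U ∩ H.bdry) (U ∩ H.smoothPts) (fun a x => H.M a x x) := by
  obtain ⟨⟨hc, ha1, hp0⟩, hb0⟩ := hx₀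
  set ω : Vec n →ₗ[ℝ] ℝ := H.M x₀ H.e with hω
  set b₀ := H.M H.e x₀ x₀ with hb₀
  have hωx : ω x₀ = b₀ := by rw [hω, hb₀, H.swap₁₂ x₀ H.e x₀]
  have hee : H.M x₀ H.e H.e = 1 := by rw [H.rot]; exact ha1
  have hωe : ω H.e = 1 := hee
  have neg : ∀ v, ω v = 0 → H.M x₀ v v ≤ 0 := fun v hv => by
    have := H.revCS hc v
    rw [hee, show H.M x₀ H.e v = 0 from hv] at this
    linarith
  have posdef : ∀ v ∈ LinearMap.ker ω, v ≠ 0 → 0 < -H.M x₀ v v := by
    intro v hv hv0
    rw [LinearMap.mem_ker] at hv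
    by_contra hcon
    have h0 : H.M x₀ v v = 0 := le_antisymm (neg v hv) (by linarith)
    set u := x₀ - b₀ • H.e with hu
    have huω : ω u = 0 := by simp [hu, hωx, hωe]
    have hvu : H.M x₀ v u = 0 := by
      set q := H.M x₀ u u
      set m := H.M x₀ v u with hm
      have hq : q ≤ 0 := neg u huω
      have h1 : (0 : ℝ) < 1 - q := by linarith
      have := neg (v + (m / (1 - q)) • u) (by simp [hv, huω])
      rw [H.sq_add, h0, ← hm] at this
      field_simp at this
      nlinarith [sq_nonneg m]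
    have hve : H.M x₀ v H.e = 0 := by rw [H.swap₂₃]; exact hv
    have hvx : H.M x₀ v x₀ = 0 := by
      rw [hu] at hvu
      simpa [hve] using hvu
    set l := H.M H.e H.e v with hl
    have hvxx : H.M v x₀ x₀ = 0 := by rw [H.swap₁₂ v x₀ x₀]; exact hvx
    have := hflat (v + (-l) • x₀) (by simp [← hl, ha1])
      (by simp [hvxx, hp0]) (by
        rw [H.sq_add, h0, hvx, hp0]; ring)
    have hv' : v = l • x₀ := by
      rw [neg_smul, ← sub_eq_add_neg, sub_eq_zero] at this
      exact this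
    rw [hv', map_smul, hωx, smul_eq_mul] at hv
    rcases mul_eq_zero.1 hv with h | h
    · exact hv0 (by rw [hv', h, zero_smul])
    · linarith
  obtain ⟨η, hη, hbd⟩ := exists_quad_bound (fun v => -H.M x₀ v v)
    (H.continuous_M continuous_const continuous_id continuous_id).neg
    (fun t v => by simp; ring) (LinearMap.ker ω) posdef
  set P : Vec n →ₗ[ℝ] Vec n := LinearMap.id - ω.smulRight ((b₀)⁻¹ • x₀) with hPdef
  have hPker : ∀ v, ω (P v) = 0 := fun v => by
    simp [hPdef, hωx, inv_mul_cancel₀ hb0.ne']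
  have hPid : ∀ v, ω v = 0 → P v = v := fun v hv => by simp [hPdef, hv]
  set ε : ℝ := min η 1 / (2 * (n + 1)) / ((n + 1) * (n * H.bound + 1)) with hε
  have hBp := H.bound_pos
  have hεpos : 0 < ε := by
    have : 0 < min η 1 := lt_min hη one_pos
    positivity
  have hU : ∀ᶠ y in 𝓝 x₀, ‖y - x₀‖ ≤ ε ∧ 0 < ω y := by
    refine Filter.Eventually.and ?_ ?_
    · filter_upwards [Metric.closedBall_mem_nhds x₀ hεpos] with y hy
      simpa [dist_eq_norm] using hy
    · exact (LinearMap.continuous_of_finiteDimensional ω).continuousAt.eventually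
        (lt_mem_nhds (by rw [hωx]; exact hb0))
  refine ⟨_, hU, ?_⟩
  set U : Set (Vec n) := {y | ‖y - x₀‖ ≤ ε ∧ 0 < ω y}
  let w : Fin n → Vec n → Vec n → ℝ := fun i a x => ω x * a i - ω a * x i
  have hw : ∀ i, FinRank (w i) := fun i =>
    (finRank_congr (finRank_prod (fun a => a i) (fun x => ω x)) fun a x => mul_comm _ _).sub
      (finRank_prod (fun a => ω a) (fun x => x i))
  have hwv : ∀ a x, (fun i => w i a x) = ω x • a - ω a • x := fun a x => by
    funext i; simp [w]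
  have hPw : ∀ a ∈ U ∩ H.bdry, ∀ x ∈ U ∩ H.smoothPts,
      P (fun i => w i a x) = fun i => w i a x := fun a _ x _ => hPid _ (by
    rw [hwv]; simp [mul_comm])
  have hb3 : ∀ i j k, |H.M (Pi.single k 1) (Pi.single i 1) (Pi.single j 1)| ≤ H.bound := by
    intro i j k
    refine (H.abs_M_le _ _ _).trans ?_
    calc H.bound * ‖(Pi.single k 1 : Vec n)‖ * ‖(Pi.single i 1 : Vec n)‖ *
          ‖(Pi.single j 1 : Vec n)‖ ≤ H.bound * 1 * 1 * 1 := by
            gcongr <;> apply single_norm_le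
      _ = H.bound := by ring
  have hlin : ∀ (y : Vec n) i j, -H.M (y - x₀) (Pi.single i 1) (Pi.single j 1) =
      ∑ k : Fin n, -((y - x₀) k) * H.M (Pi.single k 1) (Pi.single i 1) (Pi.single j 1) := by
    intro y i j
    rw [show H.M (y - x₀) (Pi.single i 1) (Pi.single j 1) =
      (H.M.flip (Pi.single i 1)).flip (Pi.single j 1) (y - x₀) from rfl, lin_eq_sum _ (y - x₀),
      ← Finset.sum_neg_distrib]
    refine Finset.sum_congr rfl fun k _ => ?_
    rw [neg_mul]
    rfl
  have hclose : ∀ y ∈ U, ∀ k, |-(y - x₀) k| ≤ ε := fun y hy k => by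
    have := norm_le_pi_norm (y - x₀) k
    rw [Real.norm_eq_abs] at this
    rw [abs_neg]
    exact this.trans hy.1
  have hTa : ∀ i j, Bdd (U ∩ H.bdry) (U ∩ H.smoothPts) (n * (ε * H.bound))
      (fun a _ => -H.M (a - x₀) (Pi.single i 1) (Pi.single j 1)) := fun i j => by
    refine (bdd_congr (bdd_fintype (fun k a => -((a - x₀) k))
      (fun k (_ : Vec n) => H.M (Pi.single k 1) (Pi.single i 1) (Pi.single j 1))
      (fun _ => ε) (fun _ => H.bound) (fun _ => hεpos.le) (fun _ => hBp.le)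
      (fun a ha k => hclose a ha.1 k) (fun x _ k => hb3 i j k)) fun a x => hlin a i j).mono
      (by simp)
  have hTx : ∀ i j, Bdd (U ∩ H.bdry) (U ∩ H.smoothPts) (n * (H.bound * ε))
      (fun _ x => -H.M (x - x₀) (Pi.single i 1) (Pi.single j 1)) := fun i j => by
    refine (bdd_congr (bdd_fintype
      (fun k (_ : Vec n) => H.M (Pi.single k 1) (Pi.single i 1) (Pi.single j 1))
      (fun k x => -((x - x₀) k))
      (fun _ => H.bound) (fun _ => ε) (fun _ => hBp.le) (fun _ => hεpos.le)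
      (fun a _ k => hb3 i j k) (fun x hx k => hclose x hx.1 k)) fun a x => ?_).mono (by simp)
    rw [hlin]
    exact Finset.sum_congr rfl fun k _ => mul_comm _ _
  have hsmall : (n : ℝ) * (n * (ε * H.bound)) ≤ min η 1 / (2 * (n + 1)) := by
    have e : ε * ((n + 1) * (n * H.bound + 1)) = min η 1 / (2 * (n + 1)) := by
      rw [hε]; field_simp
    rw [← e]
    nlinarith [Nat.cast_nonneg (α := ℝ) n, mul_nonneg (Nat.cast_nonneg (α := ℝ) n) hBp.le]
  have hΦ : ∀ v, η * ‖P v‖ ^ 2 ≤ (-(H.M x₀)) (P v) (P v) := fun v => hbd (P v) (hPker v)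
  have hsym : ∀ u v, (-(H.M x₀)) u v = (-(H.M x₀)) v u := fun u v => by
    simp [H.swap₂₃ x₀ u v]
  have N1 := sosOn_near (-(H.M x₀)) P hsym hη hΦ w hw hPw _ hTx
    (by rw [mul_comm H.bound ε]; exact hsmall)
  have N2 := sosOn_near (-(H.M x₀)) P hsym hη hΦ w hw hPw _ hTa hsmall
  have key := (N1.scale (fun a => 2 / (3 * ω a)) (fun x => 1 / ω x)
      (fun a ha => (div_pos two_pos (mul_pos three_pos ha.1.2)).le)
      (fun x hx => (one_div_pos.2 hx.1.2).le)).add
    (N2.scale (fun a => 1 / (3 * ω a ^ 2)) (fun _ => 1)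
      (fun a _ => by positivity) (fun _ _ => zero_le_one))
  refine sosOn_congr key fun a ha x hx => ?_
  have e1 : ∀ y : Vec n, (-(H.M x₀)) (fun i => w i a x) (fun i => w i a x) +
      ∑ i, ∑ j, -H.M (y - x₀) (Pi.single i 1) (Pi.single j 1) * w i a x * w j a x =
      -H.M y (fun i => w i a x) (fun i => w i a x) := by
    intro y
    have := bilin_eq_sum (H.M (y - x₀)) (fun i => w i a x) (fun i => w i a x)
    simp only [neg_mul, Finset.sum_neg_distrib, ← this]
    simp only [map_sub, LinearMap.sub_apply, LinearMap.neg_apply]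
    ring
  beta_reduce
  rw [e1 x, e1 a, hwv]
  have px : H.M x x x = 0 := hx.2.1.2.2
  have pa : H.M a a a = 0 := ha.2.2.2
  have hα := hx.1.2.ne'
  have hβ := ha.1.2.ne'
  simp only [map_sub, map_smul, LinearMap.sub_apply, LinearMap.smul_apply, smul_eq_mul, px, pa]
  rw [H.swap₁₂ x a x, H.swap₂₃ a x a, H.swap₂₃ x x a, H.swap₁₂ x a x, H.swap₂₃ a a x,
    H.swap₁₂ a x a, H.swap₂₃ x a a]
  field_simp
  ring

end HCubic

end Vale.Agent.P256
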