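import Vale.Agent.P256.CubicRoots

namespace Vale.Agent.P256

open Filter Topology

/-- Vectors. -/
abbrev Vec (n : ℕ) := Fin n → ℝ

/-- A cubic form, as a symmetric trilinear form, which is hyperbolic in direction `e`. -/
structure HCubic (n : ℕ) where
  e : Vec n
  M : Vec n →ₗ[ℝ] Vec n →ₗ[ℝ] Vec n →ₗ[ℝ] ℝ
  swap₁₂ : ∀ u v w, M u v w = M v u w
  swap₂₃ : ∀ u v w, M u v w = M u w v
  norm : M e e e = 1
  hyp : ∀ x (z : ℂ), z ^ 3 + 3 * (M e e x : ℂ) * z ^ 2 + 3 * (M e x x : ℂ) * z + (M x x x : ℂ) = 0 →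
    z.im = 0

namespace HCubic

variable {n : ℕ} (H : HCubic n)

lemma rot (u v w : Vec n) : H.M u v w = H.M v w u := by
  rw [H.swap₁₂ u v w, H.swap₂₃ v u w]

lemma swap₁₃ (u v w : Vec n) : H.M u v w = H.M w v u := by
  rw [H.rot u v w, H.swap₁₂ v w u, H.swap₂₃ w v u]

lemma sq_add (u x y : Vec n) (t : ℝ) : H.M u (x + t • y) (x + t • y) =
    H.M u x x + 2 * t * H.M u x y + t ^ 2 * H.M u y y := by
  simp only [map_add, map_smul, LinearMap.add_apply, LinearMap.smul_apply, smul_eq_mul]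
  rw [H.swap₂₃ u y x]
  ring

lemma cube_add (x y : Vec n) (t : ℝ) : H.M (x + t • y) (x + t • y) (x + t • y) =
    H.M x x x + 3 * t * H.M y x x + 3 * t ^ 2 * H.M x y y + t ^ 3 * H.M y y y := by
  simp only [map_add, map_smul, LinearMap.add_apply, LinearMap.smul_apply, smul_eq_mul]
  rw [H.swap₁₂ x y x, ← H.swap₁₃ y x x, H.swap₂₃ y x x, H.swap₂₃ y y x, H.swap₁₂ y x y]
  ring

/-- The closed cone, by the signs of the coefficients. -/
def cone : Set (Vec n) := {x | 0 ≤ H.M H.e H.e x ∧ 0 ≤ H.M H.e x x ∧ 0 ≤ H.M x x x}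

/-- Its interior. -/
def core : Set (Vec n) := {x | 0 < H.M H.e H.e x ∧ 0 < H.M H.e x x ∧ 0 < H.M x x x}

/-- No lineality. -/
def Pointed : Prop := ∀ x, H.M H.e H.e x = 0 → H.M H.e x x = 0 → x = 0

/-- At singular points of the cone the second derivative is degenerate only along the ray. -/
def Nodal : Prop := ∀ b ∈ H.cone, b ≠ 0 → H.M H.e b b = 0 →
  ∀ v, (∀ w, H.M b v w = 0) → ∃ c : ℝ, v = c • b

lemma roots (x : Vec n) : ∃ r₀ r₁ r₂ : ℝ, 3 * H.M H.e H.e x = -(r₀ + r₁ + r₂) ∧
    3 * H.M H.e x x = r₀ * r₁ + r₀ * r₂ + r₁ * r₂ ∧ H.M x x x = -(r₀ * r₁ * r₂) :=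
  cubicR_split _ _ _ (H.hyp x)

lemma b_le_sq (x : Vec n) : H.M H.e x x ≤ H.M H.e H.e x ^ 2 := by
  obtain ⟨r₀, r₁, r₂, h1, h2, h3⟩ := H.roots x
  have ha : H.M H.e H.e x = -(r₀ + r₁ + r₂) / 3 := by linarith
  rw [ha]
  nlinarith [sq_nonneg (r₀ - r₁), sq_nonneg (r₀ - r₂), sq_nonneg (r₁ - r₂)]

/-- Traceless vectors of zero energy are lineality vectors. -/
lemma traceless (x : Vec n) (ha : H.M H.e H.e x = 0) : H.M H.e x x ≤ 0 := by
  simpa [ha] using H.b_le_sq x

lemma eq_zero_of (hP : H.Pointed) {x : Vec n} (ha : H.M H.e H.e x = 0) (hb : 0 ≤ H.M H.e x x) :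
    x = 0 :=
  hP x ha (le_antisymm (H.traceless x ha) hb)

lemma core_subset : H.core ⊆ H.cone := fun _ hx => ⟨hx.1.le, hx.2.1.le, hx.2.2.le⟩

lemma e_mem_core : H.e ∈ H.core := by simp [core, H.norm]

lemma shift (x : Vec n) (t : ℝ) :
    H.M H.e H.e (x + t • H.e) = H.M H.e H.e x + t ∧
    H.M H.e (x + t • H.e) (x + t • H.e) = H.M H.e x x + 2 * t * H.M H.e H.e x + t ^ 2 ∧
    H.M (x + t • H.e) (x + t • H.e) (x + t • H.e) =
      H.M x x x + 3 * t * H.M H.e x x + 3 * t ^ 2 * H.M H.e H.e x + t ^ 3 := by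
  refine ⟨?_, ?_, ?_⟩
  · simp [H.norm]
  · rw [H.sq_add, H.norm, H.swap₂₃ H.e x H.e]; ring
  · rw [H.cube_add, H.norm, H.rot x H.e H.e]; ring

lemma shift_core {x : Vec n} (hx : x ∈ H.cone) {t : ℝ} (ht : 0 < t) : x + t • H.e ∈ H.core := by
  obtain ⟨h1, h2, h3⟩ := H.shift x t
  obtain ⟨a, b, c⟩ := hx
  refine ⟨by rw [h1]; linarith, ?_, ?_⟩
  · rw [h2]; nlinarith [mul_nonneg ht.le a, mul_pos ht ht]
  · rw [h3]; nlinarith [mul_nonneg ht.le b, mul_nonneg (sq_nonneg t) a, pow_pos ht 3]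

@[fun_prop] lemma continuous_M {X : Type*} [TopologicalSpace X] {f g h : X → Vec n}
    (hf : Continuous f) (hg : Continuous g) (hh : Continuous h) :
    Continuous (fun x => H.M (f x) (g x) (h x)) := by
  have l1 : ∀ (T : Vec n →ₗ[ℝ] ℝ) (u : Vec n), T u = ∑ i, u i * T (Pi.single i 1) :=
    fun T u => by
      conv_lhs => rw [pi_eq_sum_univ' u]
      simp
  have key : ∀ x, H.M (f x) (g x) (h x) = ∑ k, h x k * ∑ j, g x j * ∑ i, f x i *
      H.M (Pi.single i 1) (Pi.single j 1) (Pi.single k 1) := by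
    intro x
    rw [l1 (H.M (f x) (g x)) (h x)]
    refine Finset.sum_congr rfl fun k _ => congrArg _ ?_
    rw [show H.M (f x) (g x) (Pi.single k 1) = ((H.M (f x)).flip (Pi.single k 1)) (g x) from rfl,
      l1 ((H.M (f x)).flip (Pi.single k 1)) (g x)]
    refine Finset.sum_congr rfl fun j _ => congrArg _ ?_
    rw [show ((H.M (f x)).flip (Pi.single k 1)) (Pi.single j 1) =
      ((H.M.flip (Pi.single j 1)).flip (Pi.single k 1)) (f x) from rfl,
      l1 ((H.M.flip (Pi.single j 1)).flip (Pi.single k 1)) (f x)]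
    rfl
  simp_rw [key]
  exact continuous_finsetSum _ fun k _ => ((continuous_apply k).comp hh).mul
    (continuous_finsetSum _ fun j _ => ((continuous_apply j).comp hg).mul
      (continuous_finsetSum _ fun i _ => ((continuous_apply i).comp hf).mul continuous_const))

lemma isOpen_core : IsOpen H.core := by
  have e : H.core = {x | 0 < H.M H.e H.e x} ∩
      ({x | 0 < H.M H.e x x} ∩ {x | 0 < H.M x x x}) := rfl
  rw [e]
  exact (isOpen_lt continuous_const (H.continuous_M continuous_const continuous_const continuous_id)).inter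
    ((isOpen_lt continuous_const (H.continuous_M continuous_const continuous_id continuous_id)).inter
      (isOpen_lt continuous_const (H.continuous_M continuous_id continuous_id continuous_id)))

lemma isClosed_cone : IsClosed H.cone := by
  have e : H.cone = {x | 0 ≤ H.M H.e H.e x} ∩
      ({x | 0 ≤ H.M H.e x x} ∩ {x | 0 ≤ H.M x x x}) := rfl
  rw [e]
  exact (isClosed_le continuous_const (H.continuous_M continuous_const continuous_const continuous_id)).inter
    ((isClosed_le continuous_const (H.continuous_M continuous_const continuous_id continuous_id)).inter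
      (isClosed_le continuous_const (H.continuous_M continuous_id continuous_id continuous_id)))

/-- The segment from `e` to an interior point. -/
def seg (c : Vec n) (s : ℝ) : Vec n := (1 - s) • H.e + s • c

lemma seg_core {c : Vec n} (hc : c ∈ H.core) {s : ℝ} (hs : s ∈ Set.Icc (0 : ℝ) 1) :
    H.seg c s ∈ H.core := by
  rcases eq_or_lt_of_le hs.2 with h | h
  · subst h; simpa [seg] using hc
  have hmem : s • c ∈ H.cone := by
    obtain ⟨a, b, p⟩ := hc
    refine ⟨?_, ?_, ?_⟩ <;>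
      simp only [map_smul, LinearMap.smul_apply, smul_eq_mul] <;>
      · have := hs.1
        positivity
  have := H.shift_core hmem (t := 1 - s) (by linarith)
  rwa [seg, add_comm]

/-- The perturbed cubic in the homotopy variable. -/
noncomputable def G (y c : Vec n) (α : ℝ) (z : ℂ) : ℂ :=
  (H.M c c c : ℂ) * z ^ 3 + 3 * ((H.M y c c : ℂ) + Complex.I * α * H.M H.e c c) * z ^ 2 +
    3 * ((H.M y y c : ℂ) + 2 * Complex.I * α * H.M y H.e c - (α : ℂ) ^ 2 * H.M H.e H.e c) * z +
    ((H.M y y y : ℂ) + 3 * Complex.I * α * H.M y y H.e - 3 * (α : ℂ) ^ 2 * H.M y H.e H.e -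
      Complex.I * (α : ℂ) ^ 3)

lemma G_real_ne (y c : Vec n) {α : ℝ} (hα : α ≠ 0) (τ : ℝ) : H.G y c α τ ≠ 0 := by
  intro h
  apply hα
  have := H.hyp (y + τ • c) (Complex.I * α) (by
    rw [G] at h
    rw [H.sq_add, H.cube_add, H.swap₁₃ c y y, H.rot H.e y c, H.swap₂₃ y c H.e]
    simp only [map_add, map_smul, smul_eq_mul]
    rw [H.rot H.e H.e y, H.rot H.e y y] at *
    push_cast
    rw [H.rot H.e y H.e] at *
    linear_combination h + (Complex.I * (α : ℂ) ^ 3 + 3 * (α : ℂ) ^ 2 *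
      ((H.M y H.e H.e : ℂ) + (τ : ℂ) * H.M H.e H.e c)) * Complex.I_sq)
  simpa using this

lemma G_continuous {y : Vec n} {α : ℝ} {c : ℝ → Vec n} (hc : Continuous c) :
    Continuous (fun p : ℝ × ℂ => H.G y (c p.1) α p.2) := by
  unfold G
  fun_prop

/-- All roots of the perturbed cubic lie in the open lower half plane. -/
lemma G_lower (y : Vec n) {c : Vec n} (hc : c ∈ H.core) {α : ℝ} (hα : 0 < α) :
    ∀ z : ℂ, H.G y c α z = 0 → z.im < 0 := by
  have hcont : Continuous (H.seg c) := by unfold seg; fun_prop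
  set good : Set ℝ := {s | s ∈ Set.Icc (0 : ℝ) 1 ∧
    ∀ z : ℂ, H.G y (H.seg c s) α z = 0 → z.im < 0} with hgood
  set bad : Set ℝ := {s | s ∈ Set.Icc (0 : ℝ) 1 ∧
    ∃ z : ℂ, H.G y (H.seg c s) α z = 0 ∧ 0 ≤ z.im} with hbad
  have good_eq : good = Set.Icc (0 : ℝ) 1 ∩ ⋂ (z : ℂ) (_ : 0 < z.im), {s |
      H.M (H.seg c s) (H.seg c s) (H.seg c s) * z.im ^ 3 ≤ ‖H.G y (H.seg c s) α z‖} := by
    ext s
    simp only [hgood, Set.mem_inter_iff, Set.mem_iInter, Set.mem_ofPred_eq]
    constructor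
    · rintro ⟨hs, h⟩
      refine ⟨hs, fun z hz => ?_⟩
      have hA := (H.seg_core hc hs).2.2
      obtain ⟨r, hr⟩ := cubicC_factor (H.M (H.seg c s) (H.seg c s) (H.seg c s) : ℂ) _ _ _
        (by exact_mod_cast hA.ne')
      have hG : ∀ w, H.G y (H.seg c s) α w = _ := hr
      rw [hG]
      refine le_trans (le_of_eq ?_) (lower_bound hz fun j => (h _ ?_).le)
      · simp [abs_of_pos hA]
      · rw [hG]; fin_cases j <;> simp
    · rintro ⟨hs, h⟩
      refine ⟨hs, fun z hz => ?_⟩
      by_contra hc'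
      rcases eq_or_lt_of_le (not_lt.1 hc') with h0 | h0
      · exact H.G_real_ne y _ hα.ne' z.re (by
          have : (z.re : ℂ) = z := Complex.ext (by simp) (by simp [← h0])
          rw [this, hz])
      · have := h z h0
        rw [hz, norm_zero] at this
        nlinarith [mul_pos (H.seg_core hc hs).2.2 (pow_pos h0 3)]
  have good_closed : IsClosed good := by
    rw [good_eq]
    refine isClosed_Icc.inter (isClosed_iInter fun z => isClosed_iInter fun _ => ?_)
    exact isClosed_le (by fun_prop)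
      ((H.G_continuous hcont).comp (continuous_id.prodMk continuous_const)).norm
  have bad_closed : IsClosed bad := by
    set Bf : ℝ → ℝ := fun s =>
      1 + (3 * (|H.M y (H.seg c s) (H.seg c s)| + |α| * |H.M H.e (H.seg c s) (H.seg c s)|) +
        3 * (|H.M y y (H.seg c s)| + 2 * |α| * |H.M y H.e (H.seg c s)| +
          α ^ 2 * |H.M H.e H.e (H.seg c s)|) +
        (|H.M y y y| + 3 * |α| * |H.M y y H.e| + 3 * α ^ 2 * |H.M y H.e H.e| + |α| ^ 3)) /
        H.M (H.seg c s) (H.seg c s) (H.seg c s) with hBf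
    have hBc : ContinuousOn Bf (Set.Icc (0 : ℝ) 1) := by
      refine continuousOn_const.add (ContinuousOn.div ?_ ?_ fun s hs => (H.seg_core hc hs).2.2.ne') <;>
        exact (by fun_prop : Continuous _).continuousOn
    obtain ⟨R, hR⟩ := (isCompact_Icc.bddAbove_image hBc)
    set T : Set (ℝ × ℂ) := (Set.Icc (0 : ℝ) 1 ×ˢ Metric.closedBall (0 : ℂ) R) ∩
      ({p | H.G y (H.seg c p.1) α p.2 = 0} ∩ {p | 0 ≤ p.2.im}) with hT
    have hTc : IsCompact T := (isCompact_Icc.prod (isCompact_closedBall _ _)).inter_right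
      ((isClosed_eq (H.G_continuous hcont) continuous_const).inter
        (isClosed_le continuous_const (by fun_prop)))
    have : bad = Prod.fst '' T := by
      ext s
      constructor
      · rintro ⟨hs, z, hz, hzi⟩
        refine ⟨(s, z), ⟨⟨hs, ?_⟩, hz, hzi⟩, rfl⟩
        have hA := (H.seg_core hc hs).2.2
        have hle : Bf s ≤ R := hR ⟨s, hs, rfl⟩
        rw [Metric.mem_closedBall, dist_zero_right]
        refine le_trans ?_ hle
        rcases le_or_gt ‖z‖ 1 with h1 | h1
        · refine h1.trans ?_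
          rw [hBf]
          have : ∀ u : ℝ, 0 ≤ u → (1 : ℝ) ≤ 1 + u / H.M (H.seg c s) (H.seg c s) (H.seg c s) :=
            fun u hu => le_add_of_nonneg_right (div_nonneg hu hA.le)
          exact this _ (by positivity)
        · have e : (H.M (H.seg c s) (H.seg c s) (H.seg c s) : ℂ) * z ^ 3 =
              -(3 * ((H.M y (H.seg c s) (H.seg c s) : ℂ) +
                Complex.I * α * H.M H.e (H.seg c s) (H.seg c s)) * z ^ 2 +
              3 * ((H.M y y (H.seg c s) : ℂ) + 2 * Complex.I * α * H.M y H.e (H.seg c s) -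
                (α : ℂ) ^ 2 * H.M H.e H.e (H.seg c s)) * z +
              ((H.M y y y : ℂ) + 3 * Complex.I * α * H.M y y H.e -
                3 * (α : ℂ) ^ 2 * H.M y H.e H.e - Complex.I * (α : ℂ) ^ 3)) := by
            rw [G] at hz; linear_combination hz
          set A := H.M (H.seg c s) (H.seg c s) (H.seg c s)
          set c₂ := (H.M y (H.seg c s) (H.seg c s) : ℂ) +
            Complex.I * α * H.M H.e (H.seg c s) (H.seg c s) with hc₂
          set c₁ := (H.M y y (H.seg c s) : ℂ) + 2 * Complex.I * α * H.M y H.e (H.seg c s) -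
            (α : ℂ) ^ 2 * H.M H.e H.e (H.seg c s) with hc₁
          set c₀ := (H.M y y y : ℂ) + 3 * Complex.I * α * H.M y y H.e -
            3 * (α : ℂ) ^ 2 * H.M y H.e H.e - Complex.I * (α : ℂ) ^ 3 with hc₀
          have n2 : ‖c₂‖ ≤ |H.M y (H.seg c s) (H.seg c s)| +
              |α| * |H.M H.e (H.seg c s) (H.seg c s)| := by
            rw [hc₂]; refine (norm_add_le _ _).trans (le_of_eq ?_); simp
          have n1 : ‖c₁‖ ≤ |H.M y y (H.seg c s)| + 2 * |α| * |H.M y H.e (H.seg c s)| +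
              α ^ 2 * |H.M H.e H.e (H.seg c s)| := by
            rw [hc₁]; refine (norm_sub_le _ _).trans ?_
            refine (add_le_add (norm_add_le _ _) le_rfl).trans (le_of_eq ?_); simp
          have n0 : ‖c₀‖ ≤ |H.M y y y| + 3 * |α| * |H.M y y H.e| +
              3 * α ^ 2 * |H.M y H.e H.e| + |α| ^ 3 := by
            rw [hc₀]; refine (norm_sub_le _ _).trans ?_
            refine (add_le_add ((norm_sub_le _ _).trans (add_le_add (norm_add_le _ _) le_rfl))
              le_rfl).trans (le_of_eq ?_)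
            simp
          have hn := congrArg (fun w : ℂ => ‖w‖) e
          simp only [norm_neg, norm_mul, norm_pow, Complex.norm_real, Real.norm_eq_abs, abs_of_pos hA] at hn
          have h4 : A * ‖z‖ ^ 3 ≤ (3 * ‖c₂‖ + 3 * ‖c₁‖ + ‖c₀‖) * ‖z‖ ^ 2 := by
            rw [hn]
            refine (norm_add_le _ _).trans ?_
            refine (add_le_add (norm_add_le _ _) le_rfl).trans ?_
            simp only [norm_mul, norm_pow, Complex.norm_ofNat]
            nlinarith [norm_nonneg c₁, norm_nonneg c₀, mul_le_mul_of_nonneg_left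
              (le_self_pow₀ h1.le two_ne_zero) (norm_nonneg c₁), one_le_pow₀ (n := 2) h1.le,
              mul_le_mul_of_nonneg_left (one_le_pow₀ (n := 2) h1.le) (norm_nonneg c₀)]
          have h5 : A * ‖z‖ ≤ 3 * ‖c₂‖ + 3 * ‖c₁‖ + ‖c₀‖ := by
            have : 0 < ‖z‖ ^ 2 := by positivity
            nlinarith
          rw [hBf]
          refine le_add_of_nonneg_of_le zero_le_one ?_
          rw [le_div_iff₀ hA]
          linarith
      · rintro ⟨⟨s', z⟩, ⟨⟨hs, _⟩, hz, hzi⟩, rfl⟩
        exact ⟨hs, z, hz, hzi⟩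
    rw [this]
    exact (hTc.image continuous_fst).isClosed
  have h0 : (0 : ℝ) ∈ good := by
    refine ⟨by simp, fun z hz => ?_⟩
    have := H.hyp y (z + Complex.I * α) (by
      have e0 : H.seg c 0 = H.e := by simp [seg]
      rw [e0, G, H.norm] at hz
      have e1 : H.M H.e H.e y = H.M y H.e H.e := by rw [H.rot y H.e H.e]
      have e2 : H.M H.e y y = H.M y y H.e := by rw [H.rot H.e y y]
      rw [e1, e2]
      push_cast at hz ⊢
      linear_combination hz + (3 * (α : ℂ) ^ 2 * z + Complex.I * (α : ℂ) ^ 3 +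
        3 * (α : ℂ) ^ 2 * H.M y H.e H.e) * Complex.I_sq)
    simp at this
    linarith
  intro z hz
  by_contra hneg
  have h1bad : (1 : ℝ) ∈ bad := ⟨by simp, z, by simpa [seg] using hz, not_lt.1 hneg⟩
  have := isPreconnected_closed_iff.1 isPreconnected_Icc good bad good_closed bad_closed
    (fun s hs => by
      by_cases h : ∀ z : ℂ, H.G y (H.seg c s) α z = 0 → z.im < 0
      · exact Or.inl ⟨hs, h⟩
      · push Not at h
        exact Or.inr ⟨hs, h⟩)
    ⟨0, by simp, h0⟩ ⟨1, by simp, h1bad⟩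
  obtain ⟨s, _, hg, hb, z', hz', hzi'⟩ := this
  exact absurd (hg.2 z' hz') (not_lt.2 hzi')

/-- Gårding's theorem for the cubic: every interior point is a direction of hyperbolicity. -/
lemma garding (y : Vec n) {c : Vec n} (hc : c ∈ H.core) (z : ℂ)
    (hz : (H.M c c c : ℂ) * z ^ 3 + 3 * (H.M y c c : ℂ) * z ^ 2 + 3 * (H.M y y c : ℂ) * z +
      (H.M y y y : ℂ) = 0) : z.im = 0 := by
  have upper : ∀ w : ℂ, (H.M c c c : ℂ) * w ^ 3 + 3 * (H.M y c c : ℂ) * w ^ 2 +
      3 * (H.M y y c : ℂ) * w + (H.M y y y : ℂ) = 0 → w.im ≤ 0 := by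
    intro w hw
    by_contra hpos
    push Not at hpos
    have hA := hc.2.2
    have key : ∀ α ∈ Set.Ioi (0 : ℝ), H.M c c c * w.im ^ 3 ≤ ‖H.G y c α w‖ := by
      intro α hα
      obtain ⟨r, hr⟩ := cubicC_factor (H.M c c c : ℂ) _ _ _ (by exact_mod_cast hA.ne')
      have hG : ∀ v, H.G y c α v = _ := hr
      rw [hG]
      refine le_trans (le_of_eq ?_) (lower_bound hpos fun j => (H.G_lower y hc hα _ ?_).le)
      · simp [abs_of_pos hA]
      · rw [hG]; fin_cases j <;> simp
    have hlim : Tendsto (fun α : ℝ => ‖H.G y c α w‖) (𝓝[>] 0) (𝓝 ‖H.G y c 0 w‖) :=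
      ((by unfold G; fun_prop : Continuous fun α : ℝ => ‖H.G y c α w‖).tendsto 0).mono_left
        nhdsWithin_le_nhds
    have := ge_of_tendsto hlim (eventually_nhdsWithin_of_forall key)
    have e0 : H.G y c 0 w = 0 := by rw [G]; simpa using hw
    rw [e0, norm_zero] at this
    nlinarith [mul_pos hA (pow_pos hpos 3)]
  refine le_antisymm (upper z hz) ?_
  have := upper (starRingEnd ℂ z) (by
    have := congrArg (starRingEnd ℂ) hz
    simpa [map_add, map_mul, map_pow, Complex.conj_ofReal, Complex.conj_ofNat] using this)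
  simpa using this

end HCubic

end Vale.Agent.P256
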