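import Vale.Agent.P256.Cubic

namespace Vale.Agent.P256

open Filter Topology

namespace HCubic

variable {n : ℕ} (H : HCubic n)

/-- Mixed values at interior points are positive. -/
lemma mixed_pos {x c : Vec n} (hx : x ∈ H.core) (hc : c ∈ H.core) :
    0 < H.M c c x ∧ 0 < H.M c x x := by
  have hcont : Continuous (H.seg c) := by unfold seg; fun_prop
  have key : ∀ s ∈ Set.Icc (0 : ℝ) 1, 0 ≤ H.M (H.seg c s) (H.seg c s) x →
      0 ≤ H.M (H.seg c s) x x → 0 < H.M (H.seg c s) (H.seg c s) x ∧ 0 < H.M (H.seg c s) x x := by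
    intro s hs h1 h2
    have hd := H.seg_core hc hs
    set d := H.seg c s
    have hA := hd.2.2
    set A := H.M d d d with hAd
    have hroots := cubicR_split (H.M x d d / A) (H.M x x d / A) (H.M x x x / A) fun z hz =>
      H.garding x hd z (by
        have hA' : (H.M d d d : ℂ) ≠ 0 := by exact_mod_cast hA.ne'
        rw [hAd] at hz
        push_cast at hz
        field_simp at hz
        linear_combination hz)
    obtain ⟨r₀, r₁, r₂, e1, e2, e3⟩ := hroots
    have q1 : H.M x d d = H.M d d x := H.rot x d d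
    have q2 : H.M x x d = H.M d x x := (H.rot d x x).symm
    obtain ⟨s0, s1, s2⟩ := roots_nonpos (div_nonneg (q1 ▸ h1) hA.le) (div_nonneg (q2 ▸ h2) hA.le)
      (div_nonneg hx.2.2.le hA.le) e1 e2 e3
    have hp : 0 < H.M x x x / A := div_pos hx.2.2 hA
    rw [e3] at hp
    have t0 : r₀ < 0 := lt_of_le_of_ne s0 (by rintro rfl; simp at hp)
    have t1 : r₁ < 0 := lt_of_le_of_ne s1 (by rintro rfl; simp at hp)
    have t2 : r₂ < 0 := lt_of_le_of_ne s2 (by rintro rfl; simp at hp)
    constructor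
    · rw [← q1]
      have : 0 < H.M x d d / A := by linarith
      exact (div_pos_iff_of_pos_right hA).1 this
    · rw [← q2]
      have : 0 < H.M x x d / A := by nlinarith
      exact (div_pos_iff_of_pos_right hA).1 this
  by_contra hcon
  set P : Set ℝ := {s | 0 ≤ H.M (H.seg c s) (H.seg c s) x ∧ 0 ≤ H.M (H.seg c s) x x} with hP
  set Q : Set ℝ := {s | H.M (H.seg c s) (H.seg c s) x ≤ 0 ∨ H.M (H.seg c s) x x ≤ 0} with hQ
  have hPc : IsClosed P := (isClosed_le continuous_const
    (H.continuous_M hcont hcont continuous_const)).inter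
      (isClosed_le continuous_const (H.continuous_M hcont continuous_const continuous_const))
  have hQc : IsClosed Q := (isClosed_le (H.continuous_M hcont hcont continuous_const)
    continuous_const).union
      (isClosed_le (H.continuous_M hcont continuous_const continuous_const) continuous_const)
  have := isPreconnected_closed_iff.1 (isPreconnected_Icc (a := (0 : ℝ)) (b := 1)) P Q hPc hQc
    (fun s _ => by
      by_cases h : 0 ≤ H.M (H.seg c s) (H.seg c s) x ∧ 0 ≤ H.M (H.seg c s) x x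
      · exact Or.inl h
      · exact Or.inr ((not_and_or.1 h).imp (fun h => (not_le.1 h).le) (fun h => (not_le.1 h).le)))
    ⟨0, by simp, by simpa [hP, seg] using ⟨hx.1.le, hx.2.1.le⟩⟩
    ⟨1, by simp, by
      have : H.seg c 1 = c := by simp [seg]
      simp only [hQ, Set.mem_ofPred_eq, this]
      exact (not_and_or.1 hcon).imp not_lt.1 not_lt.1⟩
  obtain ⟨s, hs, ⟨h1, h2⟩, h3⟩ := this
  obtain ⟨k1, k2⟩ := key s hs h1 h2
  rcases h3 with h3 | h3 <;> linarith

lemma cone_limit {x : Vec n} (hx : x ∈ H.cone) :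
    ∀ᶠ t in 𝓝[>] (0 : ℝ), x + t • H.e ∈ H.core :=
  eventually_nhdsWithin_of_forall fun _ ht => H.shift_core hx ht

lemma psi_nonneg {a x : Vec n} (ha : a ∈ H.cone) (hx : x ∈ H.cone) : 0 ≤ H.M a x x := by
  have hlim : Tendsto (fun t : ℝ => H.M (a + t • H.e) (x + t • H.e) (x + t • H.e)) (𝓝[>] 0)
      (𝓝 (H.M (a + (0 : ℝ) • H.e) (x + (0 : ℝ) • H.e) (x + (0 : ℝ) • H.e))) :=
    ((H.continuous_M (by fun_prop) (by fun_prop) (by fun_prop) :
      Continuous fun t : ℝ => H.M (a + t • H.e) (x + t • H.e) (x + t • H.e)).tendsto 0).mono_left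
        nhdsWithin_le_nhds
  simp only [zero_smul, add_zero] at hlim
  exact ge_of_tendsto hlim ((H.cone_limit ha).and (H.cone_limit hx) |>.mono
    fun t ht => (H.mixed_pos ht.2 ht.1).2.le)

/-- Interior points have room in every direction. -/
lemma core_room {x : Vec n} (hx : x ∈ H.core) (v : Vec n) :
    ∃ ε : ℝ, 0 < ε ∧ x + ε • v ∈ H.core ∧ x - ε • v ∈ H.core := by
  have h1 : ∀ᶠ t in 𝓝 (0 : ℝ), x + t • v ∈ H.core :=
    (by fun_prop : Continuous fun t : ℝ => x + t • v).continuousAt.eventually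
      (H.isOpen_core.mem_nhds (by simpa using hx))
  have h2 : ∀ᶠ t in 𝓝 (0 : ℝ), x - t • v ∈ H.core :=
    (by fun_prop : Continuous fun t : ℝ => x - t • v).continuousAt.eventually
      (H.isOpen_core.mem_nhds (by simpa using hx))
  obtain ⟨ε, hh, hε⟩ := (((h1.and h2).filter_mono nhdsWithin_le_nhds).and
    (self_mem_nhdsWithin (s := Set.Ioi (0 : ℝ)))).exists
  exact ⟨ε, hε, hh⟩

lemma psi_pos {a x : Vec n} (ha : a ∈ H.core) (hx : x ∈ H.cone) (hb : 0 < H.M H.e x x) :
    0 < H.M a x x := by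
  obtain ⟨ε, hε, _, h⟩ := H.core_room ha H.e
  have := H.psi_nonneg (H.core_subset h) hx
  simp only [map_sub, map_smul, LinearMap.sub_apply, LinearMap.smul_apply, smul_eq_mul] at this
  nlinarith [mul_pos hε hb]

lemma singular_zero {x : Vec n} (hx : x ∈ H.cone) (hb : H.M H.e x x = 0) (v : Vec n) :
    H.M v x x = 0 := by
  obtain ⟨ε, hε, h1, h2⟩ := H.core_room H.e_mem_core v
  have k1 := H.psi_nonneg (H.core_subset h1) hx
  have k2 := H.psi_nonneg (H.core_subset h2) hx
  simp only [map_add, map_sub, map_smul, LinearMap.add_apply, LinearMap.sub_apply,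
    LinearMap.smul_apply, smul_eq_mul, hb] at k1 k2
  have : ε * H.M v x x = 0 := by linarith
  rcases mul_eq_zero.1 this with h | h
  · linarith
  · exact h

lemma core_of_pos {x : Vec n} (hx : x ∈ H.cone) (hp : 0 < H.M x x x) : x ∈ H.core := by
  have hb : 0 < H.M H.e x x := by
    refine lt_of_le_of_ne hx.2.1 fun h => ?_
    linarith [H.singular_zero hx h.symm x]
  refine ⟨?_, hb, hp⟩
  nlinarith [H.b_le_sq x, hx.1]

lemma smul_mem {x : Vec n} (hx : x ∈ H.cone) {t : ℝ} (ht : 0 ≤ t) : t • x ∈ H.cone := by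
  obtain ⟨a, b, p⟩ := hx
  refine ⟨?_, ?_, ?_⟩ <;> simp only [map_smul, LinearMap.smul_apply, smul_eq_mul] <;> positivity

lemma e_uv_nonneg (hP : H.Pointed) {u v : Vec n} (hu : u ∈ H.cone) (hv : v ∈ H.cone) :
    0 ≤ H.M H.e u v := by
  rcases eq_or_lt_of_le hu.1 with h | h
  · simp [H.eq_zero_of hP h.symm hu.2.1]
  rcases eq_or_lt_of_le hv.1 with h' | h'
  · simp [H.eq_zero_of hP h'.symm hv.2.1]
  set α := H.M H.e H.e u with hα
  set β := H.M H.e H.e v with hβ
  have ha : H.M H.e H.e (β • u + (-α) • v) = 0 := by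
    simp [← hα, ← hβ]; ring
  have := H.traceless _ ha
  rw [H.sq_add] at this
  simp only [map_smul, LinearMap.smul_apply, smul_eq_mul] at this
  nlinarith [mul_pos h h', mul_nonneg (sq_nonneg β) hu.2.1, mul_nonneg (sq_nonneg α) hv.2.1]

lemma add_mem (hP : H.Pointed) {u v : Vec n} (hu : u ∈ H.cone) (hv : v ∈ H.cone) :
    u + v ∈ H.cone := by
  have := H.e_uv_nonneg hP hu hv
  have := H.psi_nonneg hu hv
  have := H.psi_nonneg hv hu
  obtain ⟨a, b, p⟩ := hu
  obtain ⟨a', b', p'⟩ := hv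
  refine ⟨by simp only [map_add]; linarith, ?_, ?_⟩
  · have e := H.sq_add H.e u v 1
    rw [one_smul] at e
    rw [e]; linarith
  · have e := H.cube_add u v 1
    rw [one_smul] at e
    rw [e]; linarith

/-- Reversed Cauchy–Schwarz inequality. -/
lemma revCS {x : Vec n} (hx : x ∈ H.cone) (u : Vec n) :
    H.M x H.e H.e * H.M x u u ≤ H.M x H.e u ^ 2 := by
  have main : ∀ y ∈ H.core, H.M y H.e H.e * H.M y u u ≤ H.M y H.e u ^ 2 := by
    intro y hy
    by_contra hcon
    push Not at hcon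
    set A := H.M y H.e H.e with hA
    have hApos : 0 < A := by rw [hA, H.rot]; exact hy.1
    set B := H.M y H.e u with hB
    set C := H.M y u u with hC
    set α := Real.sqrt ((A * C - B ^ 2)) / A with hα
    have hαpos : 0 < α := div_pos (Real.sqrt_pos.2 (by linarith)) hApos
    have hα2 : α ^ 2 * A ^ 2 = A * C - B ^ 2 := by
      rw [hα, div_pow, Real.sq_sqrt (by linarith)]; field_simp
    set z := u + (-B / A) • H.e with hz
    have c2 : H.M z z y = α ^ 2 * A := by
      rw [← H.rot y z z, hz, H.sq_add, ← hA, ← hC, H.swap₂₃ y u H.e, ← hB]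
      field_simp
      linarith
    have c1 : H.M z H.e y = 0 := by
      rw [← H.rot y z H.e, hz, H.swap₂₃ y _ H.e]
      simp only [map_add, map_smul, smul_eq_mul, ← hA, ← hB]
      field_simp; ring
    obtain ⟨r, hr⟩ := cubicC_factor (H.M y y y : ℂ) _ _ _ (by exact_mod_cast hy.2.2.ne')
    have hG : ∀ v, H.G z y α v = _ := hr
    have low : ∀ j, (r j).im < 0 := fun j => H.G_lower z hy hαpos _ (by
      rw [hG]; fin_cases j <;> simp)
    have hne : ∀ j, r j ≠ 0 := fun j h => by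
      have := low j
      rw [h] at this; simp at this
    have hzero : (r 0 * r 1 + r 0 * r 2 + r 1 * r 2) = 0 := by
      have hC0 : 3 * ((H.M z z y : ℂ) + 2 * Complex.I * α * H.M z H.e y -
          (α : ℂ) ^ 2 * H.M H.e H.e y) = 0 := by
        rw [c2, c1, H.rot H.e H.e y, H.rot H.e y H.e, ← hA]; push_cast; ring
      have h1 := hr 1
      have h2 := hr (-1)
      rw [hC0] at h1 h2
      have : (H.M y y y : ℂ) * (r 0 * r 1 + r 0 * r 2 + r 1 * r 2) = 0 := by
        linear_combination (h2 - h1) / 2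
      rcases mul_eq_zero.1 this with h | h
      · exact absurd h (by exact_mod_cast hy.2.2.ne')
      · exact h
    have hsum : (r 0)⁻¹ + (r 1)⁻¹ + (r 2)⁻¹ = 0 := by
      have := hne 0
      have := hne 1
      have := hne 2
      field_simp
      linear_combination hzero
    have him : ∀ j, 0 < ((r j)⁻¹).im := fun j => by
      rw [Complex.inv_im]
      exact div_pos (neg_pos.2 (low j)) (Complex.normSq_pos.2 (hne j))
    have := congrArg Complex.im hsum
    simp only [Complex.add_im, Complex.zero_im] at this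
    linarith [him 0, him 1, him 2]
  have hlim : Tendsto (fun t : ℝ => H.M (x + t • H.e) H.e u ^ 2 -
      H.M (x + t • H.e) H.e H.e * H.M (x + t • H.e) u u) (𝓝[>] 0)
      (𝓝 (H.M (x + (0 : ℝ) • H.e) H.e u ^ 2 -
      H.M (x + (0 : ℝ) • H.e) H.e H.e * H.M (x + (0 : ℝ) • H.e) u u)) := by
    refine (Continuous.tendsto ?_ 0).mono_left nhdsWithin_le_nhds
    fun_prop
  simp only [zero_smul, add_zero] at hlim
  have := ge_of_tendsto hlim ((H.cone_limit hx).mono fun t ht => sub_nonneg.2 (main _ ht))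
  linarith

/-- Splitting off the largest multiple of `e`. -/
lemma decompose {a : Vec n} (ha : a ∈ H.cone) :
    ∃ t : ℝ, 0 ≤ t ∧ ∃ b ∈ H.cone, H.M b b b = 0 ∧ a = b + t • H.e := by
  obtain ⟨r₀, r₁, r₂, e1, e2, e3⟩ := H.roots a
  obtain ⟨s0, s1, s2⟩ := roots_nonpos ha.1 ha.2.1 ha.2.2 e1 e2 e3
  set m := max r₀ (max r₁ r₂) with hm
  have m0 : r₀ ≤ m := le_max_left _ _
  have m1 : r₁ ≤ m := le_max_of_le_right (le_max_left _ _)
  have m2 : r₂ ≤ m := le_max_of_le_right (le_max_right _ _)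
  have mle : m ≤ 0 := max_le s0 (max_le s1 s2)
  have hz : (m - r₀) * (m - r₁) * (m - r₂) = 0 := by
    rcases max_choice r₀ (max r₁ r₂) with h | h
    · rw [hm, h]; ring
    · rcases max_choice r₁ r₂ with h' | h' <;> rw [hm, h, h'] <;> ring
  obtain ⟨k1, k2, k3⟩ := H.shift a m
  have hp : H.M (a + m • H.e) (a + m • H.e) (a + m • H.e) = 0 := by
    rw [k3]; linear_combination hz + m * e2 + m ^ 2 * e1 + e3
  refine ⟨-m, by linarith, a + m • H.e, ⟨?_, ?_, hp.ge⟩, hp, by module⟩
  · rw [k1]; linarith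
  · rw [k2]
    nlinarith [mul_nonneg (sub_nonneg.2 m0) (sub_nonneg.2 m1),
      mul_nonneg (sub_nonneg.2 m0) (sub_nonneg.2 m2),
      mul_nonneg (sub_nonneg.2 m1) (sub_nonneg.2 m2)]

/-- A point of the derivative cone outside the cone is cut off by a tangent functional. -/
lemma escape {a : Vec n} (ha : 0 ≤ H.M H.e H.e a) (hb : 0 ≤ H.M H.e a a)
    (hp : H.M a a a < 0) :
    ∃ x ∈ H.cone, H.M x x x = 0 ∧ 0 < H.M H.e x x ∧ H.M a x x < 0 := by
  set T := -H.M a a a + 1 with hT
  have hT1 : 1 ≤ T := by linarith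
  have hcont : ContinuousOn (fun t : ℝ => H.M (a + t • H.e) (a + t • H.e) (a + t • H.e))
      (Set.Icc 0 T) :=
    (H.continuous_M (by fun_prop) (by fun_prop) (by fun_prop)).continuousOn
  have hTpos : 0 ≤ H.M (a + T • H.e) (a + T • H.e) (a + T • H.e) := by
    rw [(H.shift a T).2.2]
    nlinarith [mul_nonneg (by linarith : (0 : ℝ) ≤ T) hb, mul_nonneg (sq_nonneg T) ha,
      mul_le_mul hT1 hT1 zero_le_one (by linarith), one_le_pow₀ (n := 2) hT1]
  obtain ⟨τ, hτ, hroot⟩ := intermediate_value_Icc (by linarith : (0 : ℝ) ≤ T) hcont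
    (show (0 : ℝ) ∈ Set.Icc _ _ from ⟨by simpa using hp.le, hTpos⟩)
  simp only at hroot
  have hτpos : 0 < τ := by
    refine lt_of_le_of_ne hτ.1 fun h => ?_
    rw [← h, zero_smul, add_zero] at hroot
    linarith
  obtain ⟨k1, k2, k3⟩ := H.shift a τ
  set x := a + τ • H.e with hx
  have hbx : 0 < H.M H.e x x := by
    rw [k2]; nlinarith [mul_nonneg hτpos.le ha, mul_pos hτpos hτpos]
  refine ⟨x, ⟨by rw [k1]; linarith, hbx.le, hroot.ge⟩, hroot, hbx, ?_⟩
  have : H.M x x x = H.M a x x + τ * H.M H.e x x := by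
    conv_lhs => arg 1; arg 1; rw [hx]
    simp
  nlinarith [mul_pos hτpos hbx]

/-- A singular point of the cone in the normalised slice. -/
def Sing (s : Vec n) : Prop := s ∈ H.cone ∧ H.M H.e H.e s = 1 ∧ H.M H.e s s = 0

/-- A zero of the tangent kernel at two boundary points spans a flat segment. -/
lemma flat_of_zero (hP : H.Pointed) {a x : Vec n} (ha : a ∈ H.cone) (hx : x ∈ H.cone)
    (hpa : H.M a a a = 0) (hpx : H.M x x x = 0) (hb : 0 < H.M H.e x x) (h : H.M a x x = 0) :
    H.M x a a = 0 := by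
  have hy := H.add_mem hP hx ha
  have e := H.cube_add x a 1
  rw [one_smul] at e
  by_contra hne
  have hpos : 0 < H.M x a a := lt_of_le_of_ne (H.psi_nonneg hx ha) (Ne.symm hne)
  have hc := H.core_of_pos hy (by rw [e, hpa, hpx, h]; linarith)
  have := H.psi_pos hc hx hb
  simp only [map_add, LinearMap.add_apply] at this
  linarith

/-- A flat direction at a smooth boundary point: an edge between two singular points. -/
lemma edge (hP : H.Pointed) {x w : Vec n} (hx : x ∈ H.cone) (ha : H.M H.e H.e x = 1)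
    (hpx : H.M x x x = 0) (hb : 0 < H.M H.e x x) (hw0 : w ≠ 0) (haw : H.M H.e H.e w = 0)
    (h1 : H.M w x x = 0) (h2 : H.M x w w = 0) :
    ∃ t₁ t₂ : ℝ, t₁ < 0 ∧ 0 < t₂ ∧ H.Sing (x + t₁ • w) ∧ H.Sing (x + t₂ • w) ∧
      ∀ t, x + t • w ∈ H.cone → t₁ ≤ t ∧ t ≤ t₂ ∧
        (0 < H.M H.e (x + t • w) (x + t • w) → t₁ < t ∧ t < t₂) := by
  have hn : H.M H.e w w < 0 := lt_of_le_of_ne (H.traceless w haw) fun h => hw0 (hP w haw h)
  set n' := H.M H.e w w with hn'
  set m := H.M H.e x w with hm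
  set b := H.M H.e x x with hb'
  have hf : ∀ t : ℝ, H.M H.e (x + t • w) (x + t • w) = b + 2 * t * m + t ^ 2 * n' := fun t => by
    rw [H.sq_add]
  have hpw : H.M w w w = 0 := by
    by_contra hne
    have hsmall : ∀ᶠ t in 𝓝 (0 : ℝ), 0 < b + 2 * t * m + t ^ 2 * n' :=
      (by fun_prop : Continuous fun t : ℝ => b + 2 * t * m + t ^ 2 * n').continuousAt.eventually
        (lt_mem_nhds (by simpa using hb))
    obtain ⟨δ, hδ, hball⟩ := Metric.eventually_nhds_iff.1 hsmall
    obtain ⟨t, ht, htc⟩ : ∃ t, dist t 0 < δ ∧ 0 < t ^ 3 * H.M w w w := by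
      rcases lt_or_gt_of_ne hne with h | h
      · refine ⟨-(δ / 2), by simp [abs_of_pos hδ]; linarith, ?_⟩
        nlinarith [pow_pos (half_pos hδ) 3]
      · exact ⟨δ / 2, by simp [abs_of_pos hδ]; linarith, mul_pos (pow_pos (half_pos hδ) 3) h⟩
    have hc : x + t • w ∈ H.core := by
      refine ⟨by simp [ha, haw], by rw [hf]; exact hball ht, ?_⟩
      rw [H.cube_add, hpx, h1, h2]
      linarith
    have := H.psi_pos hc hx hb
    simp [hpx, h1] at this
  set D := Real.sqrt (m ^ 2 - b * n') with hD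
  have hdisc : m ^ 2 < m ^ 2 - b * n' := by nlinarith [mul_pos hb (neg_pos.2 hn)]
  have hDm : |m| < D := Real.lt_sqrt (abs_nonneg m) |>.2 (by rw [sq_abs]; exact hdisc)
  obtain ⟨hDl, hDr⟩ := abs_lt.1 hDm
  have hD2 : D ^ 2 = m ^ 2 - b * n' := Real.sq_sqrt (by linarith [sq_nonneg m])
  set t₁ := (-m + D) / n' with ht₁
  set t₂ := (-m - D) / n' with ht₂
  have hfac : ∀ t, b + 2 * t * m + t ^ 2 * n' = n' * (t - t₁) * (t - t₂) := fun t => by
    have hn0 : n' ≠ 0 := hn.ne
    rw [ht₁, ht₂]; field_simp; linear_combination hD2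
  have n₁ : t₁ < 0 := div_neg_of_pos_of_neg (by linarith) hn
  have n₂ : 0 < t₂ := div_pos_of_neg_of_neg (by linarith) hn
  have hsing : ∀ t, t = t₁ ∨ t = t₂ → H.Sing (x + t • w) := by
    intro t ht
    have f0 : H.M H.e (x + t • w) (x + t • w) = 0 := by
      rw [hf, hfac]; rcases ht with h | h <;> rw [h] <;> ring
    have p0 : H.M (x + t • w) (x + t • w) (x + t • w) = 0 := by
      rw [H.cube_add, hpx, h1, h2, hpw]; ring
    exact ⟨⟨by simp [ha, haw], f0.ge, p0.ge⟩, by simp [ha, haw], f0⟩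
  refine ⟨t₁, t₂, n₁, n₂, hsing _ (Or.inl rfl), hsing _ (Or.inr rfl), fun t ht => ?_⟩
  have h0 := ht.2.1
  rw [hf, hfac] at h0
  have hprod : (t - t₁) * (t - t₂) ≤ 0 := by nlinarith
  refine ⟨?_, ?_, fun hp => ?_⟩
  · by_contra h; push Not at h
    nlinarith [mul_pos (sub_pos.2 h) (sub_pos.2 (h.trans (n₁.trans n₂)))]
  · by_contra h; push Not at h
    nlinarith [mul_pos (sub_pos.2 h) (sub_pos.2 ((n₁.trans n₂).trans h))]
  · rw [hf, hfac] at hp
    have : (t - t₁) * (t - t₂) < 0 := by nlinarith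
    constructor <;> by_contra h <;> push Not at h <;> nlinarith

end HCubic

end Vale.Agent.P256
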