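import Vale.Agent.P256.Reduce

namespace Vale.Agent.P256

open scoped BigOperators

variable {n : ℕ}

/-- The trilinear form of an array. -/
def triForm (T : Fin n → Fin n → Fin n → ℝ) : Vec n →ₗ[ℝ] Vec n →ₗ[ℝ] Vec n →ₗ[ℝ] ℝ :=
  ∑ i, ∑ j, ∑ k, T i j k •
    (LinearMap.proj i : Vec n →ₗ[ℝ] ℝ).smulRight
      ((LinearMap.proj j : Vec n →ₗ[ℝ] ℝ).smulRight (LinearMap.proj k : Vec n →ₗ[ℝ] ℝ))

lemma triForm_apply (T : Fin n → Fin n → Fin n → ℝ) (u v w : Vec n) :
    triForm T u v w = ∑ i, ∑ j, ∑ k, T i j k * u i * v j * w k := by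
  simp [triForm, mul_assoc]

lemma exists_array {p : MvPolynomial (Fin n) ℝ} (hp : p.IsHomogeneous 3) :
    ∃ T : Fin n → Fin n → Fin n → ℝ, (∀ i j k, T i j k = T j i k) ∧
      (∀ i j k, T i j k = T i k j) ∧ ∀ x, MvPolynomial.eval x p = triForm T x x x := by
  classical
  have hd : ∀ d ∈ p.support, ∃ q : Fin n × Fin n × Fin n, ∀ x : Vec n,
      ∏ i ∈ d.support, x i ^ d i = x q.1 * x q.2.1 * x q.2.2 := by
    intro d hd
    have hc : Multiset.card (Finsupp.toMultiset d) = 3 := by
      rw [Finsupp.card_toMultiset]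
      have := hp (MvPolynomial.mem_support_iff.1 hd)
      rw [Finsupp.weight_apply] at this
      simpa [Finsupp.sum] using this
    obtain ⟨i, j, k, h⟩ := Multiset.card_eq_three.1 hc
    refine ⟨(i, j, k), fun x => ?_⟩
    have e : Multiset.prod (Multiset.map x (Finsupp.toMultiset d)) = ∏ l ∈ d.support, x l ^ d l := by
      rw [Finsupp.toMultiset_map, Finsupp.prod_toMultiset, Finsupp.prod_mapDomain_index] <;>
        simp [Finsupp.prod, pow_add]
    rw [← e, h]
    simp [mul_assoc]
  choose q hq using hd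
  let T₀ : Fin n → Fin n → Fin n → ℝ := fun i j k =>
    ∑ d ∈ p.support.attach, if q d.1 d.2 = (i, j, k) then p.coeff d.1 else 0
  have h0 : ∀ x : Vec n, MvPolynomial.eval x p = ∑ i, ∑ j, ∑ k, T₀ i j k * x i * x j * x k := by
    intro x
    rw [MvPolynomial.eval_eq, ← Finset.sum_attach]
    have : ∀ d ∈ p.support.attach, p.coeff d.1 * ∏ i ∈ d.1.support, x i ^ d.1 i =
        ∑ i, ∑ j, ∑ k, (if q d.1 d.2 = (i, j, k) then p.coeff d.1 else 0) * x i * x j * x k := by
      rintro ⟨d, hd⟩ -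
      rw [hq d hd x]
      obtain ⟨a, b, c⟩ := q d hd
      simp only [Prod.mk.injEq, ite_and, ite_mul, zero_mul, Finset.sum_ite_irrel,
        Finset.sum_const_zero, Finset.sum_ite_eq, Finset.mem_univ, if_true]
      ring
    rw [Finset.sum_congr rfl this, Finset.sum_comm]
    refine Finset.sum_congr rfl fun i _ => ?_
    rw [Finset.sum_comm]
    refine Finset.sum_congr rfl fun j _ => ?_
    rw [Finset.sum_comm]
    refine Finset.sum_congr rfl fun k _ => ?_
    simp only [T₀, Finset.sum_mul]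
  let T : Fin n → Fin n → Fin n → ℝ := fun i j k =>
    (T₀ i j k + T₀ i k j + T₀ j i k + T₀ j k i + T₀ k i j + T₀ k j i) / 6
  refine ⟨T, fun i j k => ?_, fun i j k => ?_, fun x => ?_⟩
  · simp only [T]; ring
  · simp only [T]; ring
  rw [triForm_apply, h0]
  set f := fun i j k => T₀ i j k * x i * x j * x k with hf
  have p1 : ∑ i, ∑ j, ∑ k, f i k j = ∑ i, ∑ j, ∑ k, f i j k :=
    Finset.sum_congr rfl fun i _ => Finset.sum_comm
  have p2 : ∑ i, ∑ j, ∑ k, f j i k = ∑ i, ∑ j, ∑ k, f i j k := Finset.sum_comm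
  have p3 : ∑ i, ∑ j, ∑ k, f j k i = ∑ i, ∑ j, ∑ k, f i j k := Finset.sum_comm_cycle.symm
  have p4 : ∑ i, ∑ j, ∑ k, f k i j = ∑ i, ∑ j, ∑ k, f i j k := by
    rw [Finset.sum_comm_cycle]
  have p5 : ∑ i, ∑ j, ∑ k, f k j i = ∑ i, ∑ j, ∑ k, f i j k := by
    rw [← p3]
    exact Finset.sum_congr rfl fun i _ => Finset.sum_comm
  have : ∑ i, ∑ j, ∑ k, T i j k * x i * x j * x k = (∑ i, ∑ j, ∑ k, f i j k +
      ∑ i, ∑ j, ∑ k, f i k j + ∑ i, ∑ j, ∑ k, f j i k + ∑ i, ∑ j, ∑ k, f j k i +
      ∑ i, ∑ j, ∑ k, f k i j + ∑ i, ∑ j, ∑ k, f k j i) / 6 := by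
    simp only [← Finset.sum_add_distrib, Finset.sum_div]
    exact Finset.sum_congr rfl fun i _ => Finset.sum_congr rfl fun j _ =>
      Finset.sum_congr rfl fun k _ => by simp only [T, hf]; ring
  rw [this, p1, p2, p3, p4, p5]
  simp only [hf]
  ring

section

variable (T : Fin n → Fin n → Fin n → ℝ)

/-- The polynomial of an array. -/
noncomputable def triPoly : MvPolynomial (Fin n) ℝ :=
  ∑ i, ∑ j, ∑ k,
    MvPolynomial.C (T i j k) * (MvPolynomial.X i * MvPolynomial.X j * MvPolynomial.X k)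

lemma eval_triPoly (x : Vec n) : MvPolynomial.eval x (triPoly T) = triForm T x x x := by
  simp [triPoly, triForm_apply, mul_assoc]

lemma aeval_triPoly (e x : Vec n) (z : ℂ) (h₁₂ : ∀ i j k, T i j k = T j i k)
    (h₂₃ : ∀ i j k, T i j k = T i k j) :
    MvPolynomial.aeval (fun i => z * (e i : ℂ) + (x i : ℂ)) (triPoly T) =
      (triForm T e e e : ℂ) * z ^ 3 + 3 * (triForm T e e x : ℂ) * z ^ 2 +
        3 * (triForm T e x x : ℂ) * z + (triForm T x x x : ℂ) := by
  have s1 : ∑ i, ∑ j, ∑ k, T i j k * e i * x j * e k = triForm T e e x := by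
    rw [triForm_apply]
    refine Finset.sum_congr rfl fun i _ => ?_
    rw [Finset.sum_comm]
    exact Finset.sum_congr rfl fun j _ => Finset.sum_congr rfl fun k _ => by rw [h₂₃]; ring
  have s2 : ∑ i, ∑ j, ∑ k, T i j k * x i * e j * e k = triForm T e e x := by
    rw [← s1, Finset.sum_comm]
    exact Finset.sum_congr rfl fun i _ => Finset.sum_congr rfl fun j _ =>
      Finset.sum_congr rfl fun k _ => by rw [h₁₂]; ring
  have s4 : ∑ i, ∑ j, ∑ k, T i j k * x i * e j * x k = triForm T e x x := by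
    rw [triForm_apply, Finset.sum_comm]
    exact Finset.sum_congr rfl fun i _ => Finset.sum_congr rfl fun j _ =>
      Finset.sum_congr rfl fun k _ => by rw [h₁₂]; ring
  have s5 : ∑ i, ∑ j, ∑ k, T i j k * x i * x j * e k = triForm T e x x := by
    rw [← s4]
    refine Finset.sum_congr rfl fun i _ => ?_
    rw [Finset.sum_comm]
    exact Finset.sum_congr rfl fun j _ => Finset.sum_congr rfl fun k _ => by rw [h₂₃]; ring
  have expand : MvPolynomial.aeval (fun i => z * (e i : ℂ) + (x i : ℂ)) (triPoly T) =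
      z ^ 3 * ((∑ i, ∑ j, ∑ k, T i j k * e i * e j * e k : ℝ) : ℂ) +
      z ^ 2 * (((∑ i, ∑ j, ∑ k, T i j k * e i * e j * x k : ℝ) : ℂ) +
        ((∑ i, ∑ j, ∑ k, T i j k * e i * x j * e k : ℝ) : ℂ) +
        ((∑ i, ∑ j, ∑ k, T i j k * x i * e j * e k : ℝ) : ℂ)) +
      z * (((∑ i, ∑ j, ∑ k, T i j k * e i * x j * x k : ℝ) : ℂ) +
        ((∑ i, ∑ j, ∑ k, T i j k * x i * e j * x k : ℝ) : ℂ) +
        ((∑ i, ∑ j, ∑ k, T i j k * x i * x j * e k : ℝ) : ℂ)) +
      ((∑ i, ∑ j, ∑ k, T i j k * x i * x j * x k : ℝ) : ℂ) := by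
    simp only [triPoly, map_sum, map_mul, MvPolynomial.aeval_C, MvPolynomial.aeval_X,
      Complex.coe_algebraMap, Complex.ofReal_sum, Complex.ofReal_mul, Finset.mul_sum,
      ← Finset.sum_add_distrib, mul_add]
    exact Finset.sum_congr rfl fun i _ => Finset.sum_congr rfl fun j _ =>
      Finset.sum_congr rfl fun k _ => by ring
  rw [expand, s1, s2, s4, s5, ← triForm_apply, ← triForm_apply, ← triForm_apply, ← triForm_apply]
  ring

lemma eval_pderiv_triPoly (h₁₂ : ∀ i j k, T i j k = T j i k) (h₂₃ : ∀ i j k, T i j k = T i k j)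
    (b : Vec n) (l : Fin n) :
    MvPolynomial.eval b (MvPolynomial.pderiv l (triPoly T)) =
      3 * triForm T (Pi.single l 1) b b := by
  have hl : ∀ i, MvPolynomial.eval b (MvPolynomial.pderiv l (MvPolynomial.X i)) =
      (Pi.single l 1 : Vec n) i := fun i => by
    by_cases h : i = l <;> simp [MvPolynomial.pderiv_X, h]
  simp only [triPoly, map_sum, MvPolynomial.pderiv_mul, MvPolynomial.pderiv_C, zero_mul, zero_add,
    map_mul, map_add, MvPolynomial.eval_C, MvPolynomial.eval_X, hl, mul_add, add_mul,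
    Finset.sum_add_distrib]
  set d : Vec n := Pi.single l 1 with hd
  have e1 : ∑ i, ∑ j, ∑ k, T i j k * (d i * b j * b k) = triForm T d b b := by
    rw [triForm_apply]
    exact Finset.sum_congr rfl fun i _ => Finset.sum_congr rfl fun j _ =>
      Finset.sum_congr rfl fun k _ => by ring
  have e2 : ∑ i, ∑ j, ∑ k, T i j k * (b i * d j * b k) = triForm T d b b := by
    rw [← e1, Finset.sum_comm]
    exact Finset.sum_congr rfl fun i _ => Finset.sum_congr rfl fun j _ =>
      Finset.sum_congr rfl fun k _ => by rw [h₁₂]; ring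
  have e3 : ∑ i, ∑ j, ∑ k, T i j k * (b i * b j * d k) = triForm T d b b := by
    rw [← e2]
    refine Finset.sum_congr rfl fun i _ => ?_
    rw [Finset.sum_comm]
    exact Finset.sum_congr rfl fun j _ => Finset.sum_congr rfl fun k _ => by rw [h₂₃]; ring
  rw [e1, e2, e3]; ring

lemma eval_pderiv_pderiv_triPoly (h₁₂ : ∀ i j k, T i j k = T j i k)
    (h₂₃ : ∀ i j k, T i j k = T i k j) (b : Vec n) (l m : Fin n) :
    MvPolynomial.eval b (MvPolynomial.pderiv l (MvPolynomial.pderiv m (triPoly T))) =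
      6 * triForm T (Pi.single m 1) (Pi.single l 1) b := by
  have hl : ∀ r i : Fin n, MvPolynomial.pderiv r (MvPolynomial.X i : MvPolynomial (Fin n) ℝ) =
      MvPolynomial.C ((Pi.single r 1 : Vec n) i) := fun r i => by
    by_cases h : i = r <;> simp [MvPolynomial.pderiv_X, h]
  simp only [triPoly, map_sum, MvPolynomial.pderiv_mul, MvPolynomial.pderiv_C, hl, zero_mul,
    mul_zero, add_zero, zero_add, map_mul, map_add, MvPolynomial.eval_C, MvPolynomial.eval_X,
    mul_add, add_mul, Finset.sum_add_distrib]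
  set d : Vec n := Pi.single m 1
  set c : Vec n := Pi.single l 1
  have e1 : ∑ i, ∑ j, ∑ k, T i j k * (d i * c j * b k) = triForm T d c b := by
    rw [triForm_apply]
    exact Finset.sum_congr rfl fun i _ => Finset.sum_congr rfl fun j _ =>
      Finset.sum_congr rfl fun k _ => by ring
  have e2 : ∑ i, ∑ j, ∑ k, T i j k * (d i * b j * c k) = triForm T d c b := by
    rw [← e1]
    refine Finset.sum_congr rfl fun i _ => ?_
    rw [Finset.sum_comm]
    exact Finset.sum_congr rfl fun j _ => Finset.sum_congr rfl fun k _ => by rw [h₂₃]; ring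
  have e3 : ∑ i, ∑ j, ∑ k, T i j k * (c i * d j * b k) = triForm T d c b := by
    rw [← e1, Finset.sum_comm]
    exact Finset.sum_congr rfl fun i _ => Finset.sum_congr rfl fun j _ =>
      Finset.sum_congr rfl fun k _ => by rw [h₁₂]; ring
  have e4 : ∑ i, ∑ j, ∑ k, T i j k * (b i * d j * c k) = triForm T d c b := by
    rw [← e2, Finset.sum_comm]
    exact Finset.sum_congr rfl fun i _ => Finset.sum_congr rfl fun j _ =>
      Finset.sum_congr rfl fun k _ => by rw [h₁₂]; ring
  have e5 : ∑ i, ∑ j, ∑ k, T i j k * (c i * b j * d k) = triForm T d c b := by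
    rw [← e3]
    refine Finset.sum_congr rfl fun i _ => ?_
    rw [Finset.sum_comm]
    exact Finset.sum_congr rfl fun j _ => Finset.sum_congr rfl fun k _ => by rw [h₂₃]; ring
  have e6 : ∑ i, ∑ j, ∑ k, T i j k * (b i * c j * d k) = triForm T d c b := by
    rw [← e4]
    refine Finset.sum_congr rfl fun i _ => ?_
    rw [Finset.sum_comm]
    exact Finset.sum_congr rfl fun j _ => Finset.sum_congr rfl fun k _ => by rw [h₂₃]; ring
  simp only [← mul_assoc] at e1 e2 e3 e4 e5 e6 ⊢
  rw [e1, e2, e3, e4, e5, e6]; ring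

end

/-- Cubic cones with nondegenerate singular rays are shadows. -/
theorem cubic_shadow (p : MvPolynomial (Fin n) ℝ) (e : Fin n → ℝ) (hdeg : p.IsHomogeneous 3)
    (hhyp : IsHyperbolic p e) (hnd : NondegenerateSingularRays p e) :
    IsSpectrahedralShadow (hypCone p e) := by
  classical
  obtain ⟨T, h₁₂, h₂₃, hT⟩ := exists_array hdeg
  have hp : p = triPoly T := MvPolynomial.funext fun x => by rw [hT, eval_triPoly]
  set c := triForm T e e e with hc
  have hcpos : 0 < c := by rw [hc, ← hT]; exact hhyp.1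
  have s12 : ∀ u v w : Vec n, triForm T u v w = triForm T v u w := fun u v w => by
    rw [triForm_apply, triForm_apply, Finset.sum_comm]
    exact Finset.sum_congr rfl fun i _ => Finset.sum_congr rfl fun j _ =>
      Finset.sum_congr rfl fun k _ => by rw [h₁₂]; ring
  have s23 : ∀ u v w : Vec n, triForm T u v w = triForm T u w v := fun u v w => by
    rw [triForm_apply, triForm_apply]
    refine Finset.sum_congr rfl fun i _ => ?_
    rw [Finset.sum_comm]
    exact Finset.sum_congr rfl fun j _ => Finset.sum_congr rfl fun k _ => by rw [h₂₃]; ring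
  let H : HCubic n :=
    { e := e
      M := c⁻¹ • triForm T
      swap₁₂ := fun u v w => by simp [s12 u v w]
      swap₂₃ := fun u v w => by simp [s23 u v w]
      norm := by simp [← hc, inv_mul_cancel₀ hcpos.ne']
      hyp := fun x z hz => hhyp.2 (-x) z (by
        have e0 : (fun i => z * (e i : ℂ) - (((-x) i : ℝ) : ℂ)) =
            fun i => z * (e i : ℂ) + (x i : ℂ) := by
          funext i; simp
        rw [e0, hp, aeval_triPoly T e x z h₁₂ h₂₃]
        have hcne : (c : ℂ) ≠ 0 := by exact_mod_cast hcpos.ne'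
        simp only [LinearMap.smul_apply, smul_eq_mul, Complex.ofReal_mul, Complex.ofReal_inv] at hz
        field_simp at hz
        rw [← hc]
        linear_combination hz) }
  have hM : ∀ u v w, triForm T u v w = c * H.M u v w := fun u v w => by
    show _ = c * (c⁻¹ • triForm T) u v w
    simp [mul_inv_cancel_left₀ hcpos.ne']
  have heval : ∀ x (t : ℝ), MvPolynomial.eval (t • e - x) p =
      c * (t ^ 3 - 3 * t ^ 2 * H.M H.e H.e x + 3 * t * H.M H.e x x - H.M x x x) := by
    intro x t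
    rw [hT, hM, show t • e - x = -x + t • H.e by simp [sub_eq_neg_add]; rfl]
    rw [(H.shift (-x) t).2.2]
    simp only [map_neg, LinearMap.neg_apply]
    ring
  have hcone : hypCone p e = H.cone := by
    ext x
    simp only [hypCone, Set.mem_ofPred_eq, heval, mul_eq_zero, hcpos.ne', false_or]
    obtain ⟨r₀, r₁, r₂, e1, e2, e3⟩ := H.roots x
    constructor
    · intro h
      have a0 := h (-r₀) (by rw [e3]; linear_combination (-r₀ ^ 2) * e1 - r₀ * e2)
      have a1 := h (-r₁) (by rw [e3]; linear_combination (-r₁ ^ 2) * e1 - r₁ * e2)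
      have a2 := h (-r₂) (by rw [e3]; linear_combination (-r₂ ^ 2) * e1 - r₂ * e2)
      refine ⟨by linarith, by nlinarith, ?_⟩
      rw [e3]
      nlinarith [mul_nonneg (mul_nonneg a0 a1) a2]
    · intro hx t ht
      by_contra hneg
      push Not at hneg
      nlinarith [mul_nonneg (sq_nonneg t) hx.1, mul_nonneg (neg_nonneg.2 hneg.le) hx.2.1, hx.2.2,
        pow_pos (neg_pos.2 hneg) 3]
  rw [hcone]
  refine H.shadow fun b hb hnb hsing v hv => ?_
  have hz := H.singular_zero hb hsing
  obtain ⟨q, hq1, hq2⟩ := hnd b (hcone ▸ hb) (hcone ▸ hnb) (fun i => by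
      rw [hp, eval_pderiv_triPoly T h₁₂ h₂₃, hM, hz]; ring) v (fun i => by
      have : ∀ j, MvPolynomial.eval b (MvPolynomial.pderiv i (MvPolynomial.pderiv j p)) * v j =
          6 * c * (v j * H.M b (Pi.single i 1) (Pi.single j 1)) := fun j => by
        rw [hp, eval_pderiv_pderiv_triPoly T h₁₂ h₂₃, hM, H.swap₁₃ (Pi.single j 1)]
        ring
      rw [Finset.sum_congr rfl fun j _ => this j, ← Finset.mul_sum, ← lin_eq_sum,
        H.swap₂₃, hv]
      ring)
  rw [hcone] at hq1 hq2
  exact ⟨q, H.mem_lineality_of_cone hq1 hq2⟩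

end Vale.Agent.P256
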