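import Mathlib

namespace Vale.Agent.P256

open Filter Topology

/-- A complex cubic with non-zero leading coefficient splits into linear factors. -/
lemma cubicC_factor (A B C D : ℂ) (hA : A ≠ 0) : ∃ r : Fin 3 → ℂ,
    ∀ z : ℂ, A * z ^ 3 + B * z ^ 2 + C * z + D = A * ((z - r 0) * (z - r 1) * (z - r 2)) := by
  obtain ⟨r₀, h₀⟩ := IsAlgClosed.exists_root
    (Polynomial.C A * Polynomial.X ^ 3 + Polynomial.C B * Polynomial.X ^ 2 +
      Polynomial.C C * Polynomial.X + Polynomial.C D)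
    (by rw [Polynomial.degree_cubic hA]; decide)
  simp only [Polynomial.IsRoot.def, Polynomial.eval_add, Polynomial.eval_mul, Polynomial.eval_C,
    Polynomial.eval_pow, Polynomial.eval_X] at h₀
  set B' := B / A + r₀ with hB
  set C' := C / A + r₀ * B' with hC
  obtain ⟨r₁, h₁⟩ := IsAlgClosed.exists_root
    (Polynomial.C (1 : ℂ) * Polynomial.X ^ 2 + Polynomial.C B' * Polynomial.X + Polynomial.C C')
    (by rw [Polynomial.degree_quadratic one_ne_zero]; decide)
  simp only [Polynomial.IsRoot.def, Polynomial.eval_add, Polynomial.eval_mul, Polynomial.eval_C,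
    Polynomial.eval_pow, Polynomial.eval_X] at h₁
  refine ⟨![r₀, r₁, -B' - r₁], fun z => ?_⟩
  simp only [Matrix.cons_val_zero, Matrix.cons_val_one, Matrix.cons_val]
  have hB2 : B = A * (B' - r₀) := by rw [hB]; field_simp; ring
  have hC2 : C = A * (C' - r₀ * B') := by rw [hC]; field_simp; ring
  clear_value B' C'
  rw [hB2, hC2] at h₀ ⊢
  linear_combination h₀ + A * (z - r₀) * h₁

/-- A real monic cubic all of whose complex roots are real has three real roots. -/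
lemma cubicR_split (a b c : ℝ)
    (h : ∀ z : ℂ, z ^ 3 + 3 * (a : ℂ) * z ^ 2 + 3 * (b : ℂ) * z + (c : ℂ) = 0 → z.im = 0) :
    ∃ r₀ r₁ r₂ : ℝ, 3 * a = -(r₀ + r₁ + r₂) ∧ 3 * b = r₀ * r₁ + r₀ * r₂ + r₁ * r₂ ∧
      c = -(r₀ * r₁ * r₂) := by
  obtain ⟨r, hr⟩ := cubicC_factor 1 (3 * (a : ℂ)) (3 * (b : ℂ)) (c : ℂ) one_ne_zero
  have him : ∀ j, ((r j).re : ℂ) = r j := fun j => by
    have : (r j).im = 0 := h (r j) <| by
      have := hr (r j)
      fin_cases j <;> simpa [one_mul] using this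
    exact Complex.ext (by simp) (by simp [this])
  refine ⟨(r 0).re, (r 1).re, (r 2).re, ?_⟩
  have h0 := hr 0
  have h1 := hr 1
  have h2 := hr (-1)
  have e0 : (c : ℂ) = -(r 0 * r 1 * r 2) := by linear_combination h0
  have eb : (3 * b : ℂ) = r 0 * r 1 + r 0 * r 2 + r 1 * r 2 := by
    linear_combination (h1 - h2) / 2
  have ea : (3 * a : ℂ) = -(r 0 + r 1 + r 2) := by
    linear_combination (h1 + h2) / 2 - h0
  rw [← him 0, ← him 1, ← him 2] at e0 eb ea
  exact ⟨by exact_mod_cast ea, by exact_mod_cast eb, by exact_mod_cast e0⟩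

/-- A positive real root cannot occur when all coefficients are nonnegative. -/
lemma roots_nonpos {a b c r₀ r₁ r₂ : ℝ} (ha : 0 ≤ a) (hb : 0 ≤ b) (hc : 0 ≤ c)
    (e1 : 3 * a = -(r₀ + r₁ + r₂)) (e2 : 3 * b = r₀ * r₁ + r₀ * r₂ + r₁ * r₂)
    (e3 : c = -(r₀ * r₁ * r₂)) : r₀ ≤ 0 ∧ r₁ ≤ 0 ∧ r₂ ≤ 0 := by
  have key : ∀ r : ℝ, r ^ 3 + 3 * a * r ^ 2 + 3 * b * r + c = 0 → r ≤ 0 := by
    intro r hr
    by_contra hpos
    push Not at hpos
    nlinarith [pow_pos hpos 3, mul_nonneg ha (sq_nonneg r), mul_nonneg hb hpos.le]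
  refine ⟨key _ ?_, key _ ?_, key _ ?_⟩ <;> rw [e1, e2, e3] <;> ring

/-- The lower half plane bound for a product of three factors. -/
lemma lower_bound {A z : ℂ} {r : Fin 3 → ℂ} (hz : 0 < z.im) (hr : ∀ j, (r j).im ≤ 0) :
    ‖A‖ * z.im ^ 3 ≤ ‖A * ((z - r 0) * (z - r 1) * (z - r 2))‖ := by
  have h : ∀ j, z.im ≤ ‖z - r j‖ := fun j => by
    refine le_trans ?_ ((le_abs_self _).trans (Complex.abs_im_le_norm _))
    simpa using hr j
  rw [norm_mul, norm_mul, norm_mul, show z.im ^ 3 = z.im * z.im * z.im by ring]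
  exact mul_le_mul_of_nonneg_left (mul_le_mul (mul_le_mul (h 0) (h 1) hz.le (norm_nonneg _))
    (h 2) hz.le (by positivity)) (norm_nonneg _)

end Vale.Agent.P256
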