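import Mathlib

namespace Vale.Agent.P256

open scoped BigOperators

/-- A finite linear image of a spectrahedron: `{x | ∃ u, A₀ + ∑ xᵢAᵢ + ∑ uⱼBⱼ ⪰ 0}` with real
symmetric matrices of one finite size. -/
def IsSpectrahedralShadow {n : ℕ} (K : Set (Fin n → ℝ)) : Prop :=
  ∃ (N a : ℕ) (A₀ : Matrix (Fin N) (Fin N) ℝ) (A : Fin n → Matrix (Fin N) (Fin N) ℝ)
    (B : Fin a → Matrix (Fin N) (Fin N) ℝ),
    A₀.IsSymm ∧ (∀ i, (A i).IsSymm) ∧ (∀ j, (B j).IsSymm) ∧
      K = {x | ∃ u : Fin a → ℝ, (A₀ + ∑ i, x i • A i + ∑ j, u j • B j).PosSemidef}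

/-- `p` is hyperbolic with respect to `e`. -/
def IsHyperbolic {n : ℕ} (p : MvPolynomial (Fin n) ℝ) (e : Fin n → ℝ) : Prop :=
  0 < MvPolynomial.eval e p ∧
    ∀ (x : Fin n → ℝ) (z : ℂ),
      MvPolynomial.aeval (fun i => z * (e i : ℂ) - (x i : ℂ)) p = 0 → z.im = 0

/-- The closed hyperbolicity cone: every root of `t ↦ p (te - x)` is nonnegative. -/
def hypCone {n : ℕ} (p : MvPolynomial (Fin n) ℝ) (e : Fin n → ℝ) : Set (Fin n → ℝ) :=
  {x | ∀ t : ℝ, MvPolynomial.eval (t • e - x) p = 0 → 0 ≤ t}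

/-- The cone has only nondegenerate singular rays: if a point `b` of the cone outside its
lineality space is a singular point of `p`, then the kernel of the Hessian of `p` at `b` lies in
`ℝ b` plus the lineality space of the cone. -/
def NondegenerateSingularRays {n : ℕ} (p : MvPolynomial (Fin n) ℝ) (e : Fin n → ℝ) : Prop :=
  ∀ b ∈ hypCone p e, -b ∉ hypCone p e →
    (∀ i, MvPolynomial.eval b (MvPolynomial.pderiv i p) = 0) →
    ∀ v : Fin n → ℝ,
      (∀ i, ∑ j, MvPolynomial.eval b (MvPolynomial.pderiv i (MvPolynomial.pderiv j p)) * v j = 0) →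
      ∃ c : ℝ, v - c • b ∈ hypCone p e ∧ -(v - c • b) ∈ hypCone p e

end Vale.Agent.P256
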