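import Vale.Agent.P256.Cells

namespace Vale.Agent.P256

open Filter Topology
open scoped BigOperators

variable {n : ℕ}

lemma curvature_bound {μ C S t w K Φτ Φv G F : ℝ} (hμ : 0 < μ) (hC : 0 < C) (hS : 0 < S)
    (ht : 0 < t) (hK : 0 ≤ K) (hF : μ / 2 * t ^ 2 ≤ F) (hτ : Φτ ≤ F + C * t ^ 3) (hv0 : 0 ≤ Φv)
    (hv : Φv ≤ 3 * C * S * w ^ 2) (hG : G ^ 2 ≤ 4 * Φτ * Φv + K * t ^ 3 * w ^ 2) :
    G * G / (4 * F) ≤ Φv + (6 * C ^ 2 * S / μ + K / (2 * μ)) * t * w ^ 2 := by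
  have hFpos : 0 < F := lt_of_lt_of_le (by positivity) hF
  rw [div_le_iff₀ (by positivity)]
  have q1 : 4 * Φτ * Φv ≤ 4 * F * Φv + 4 * (C * t ^ 3) * (3 * C * S * w ^ 2) := by
    have a := mul_le_mul_of_nonneg_right hτ hv0
    have b := mul_le_mul_of_nonneg_left hv (show (0 : ℝ) ≤ C * t ^ 3 by positivity)
    linarith
  have q2 : (12 * C ^ 2 * S + K) * t ^ 3 * w ^ 2 ≤
      (6 * C ^ 2 * S / μ + K / (2 * μ)) * t * w ^ 2 * (4 * F) := by
    have hk : 0 ≤ (6 * C ^ 2 * S / μ + K / (2 * μ)) * t * w ^ 2 := by positivity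
    have hFt : 2 * μ * t ^ 2 ≤ 4 * F := by linarith
    calc (12 * C ^ 2 * S + K) * t ^ 3 * w ^ 2
        = (6 * C ^ 2 * S / μ + K / (2 * μ)) * t * w ^ 2 * (2 * μ * t ^ 2) := by
          field_simp; ring
      _ ≤ _ := mul_le_mul_of_nonneg_left hFt hk
  linarith

namespace Chart

variable {H : HCubic n} (c : Chart H)

lemma A_pos (hN : H.Nodal) {v : Vec n} (h1 : c.σ v = 0) (h2 : c.ℓ v = 0) (hv : v ≠ 0) :
    0 < -H.M c.s v v := by
  by_contra hcon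
  obtain ⟨t, ht⟩ := c.radical hN h2 (by linarith)
  rw [ht, map_smul, c.σ_s, smul_eq_mul, mul_one] at h1
  exact hv (by rw [ht, h1, zero_smul])

/-- The difference space of the chart. -/
def space : Submodule ℝ (Vec n) := LinearMap.ker c.σ ⊓ LinearMap.ker c.ℓ

lemma mem_space {v : Vec n} : v ∈ c.space ↔ c.σ v = 0 ∧ c.ℓ v = 0 := by simp [space]

lemma exists_A_bound (hN : H.Nodal) :
    ∃ η, 0 < η ∧ ∀ v, c.σ v = 0 → c.ℓ v = 0 → η * ‖v‖ ^ 2 ≤ -3 * H.M c.s v v := by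
  obtain ⟨η, hη, h⟩ := exists_quad_bound (fun v => -3 * H.M c.s v v)
    ((H.continuous_M continuous_const continuous_id continuous_id).const_mul (-3 : ℝ))
    (fun t v => by simp; ring) c.space (fun v hv hv0 => by
      have := c.A_pos hN (c.mem_space.1 hv).1 (c.mem_space.1 hv).2 hv0
      linarith)
  exact ⟨η, hη, fun v h1 h2 => h v (c.mem_space.2 ⟨h1, h2⟩)⟩

lemma continuousAt_dir {y : Vec n} (hy : c.ℓ y ≠ 0) : ContinuousAt c.dir y := by
  have hℓ : Continuous c.ℓ := LinearMap.continuous_of_finiteDimensional _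
  have hσ : Continuous c.σ := LinearMap.continuous_of_finiteDimensional _
  have : ContinuousAt (fun z => (c.ℓ z)⁻¹ • (z - c.σ z • c.s)) y :=
    (hℓ.continuousAt.inv₀ hy).smul (by fun_prop)
  refine this.congr ?_
  filter_upwards [hℓ.continuousAt.eventually (isOpen_ne.mem_nhds hy)] with z hz
  exact (if_neg hz).symm

lemma A_dir_nonneg (hP : H.Pointed) (hN : H.Nodal) {x : Vec n} (hx : x ∈ H.cone)
    (hℓ : 0 < c.ℓ x) : 0 ≤ H.M c.s (c.dir x) (c.dir x) := by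
  have h := H.psi_nonneg c.sing.1 hx
  rw [c.eq_dir hP hN hx] at h
  have q1 : H.M c.s c.s (c.dir x) = 0 := by rw [← H.rot (c.dir x) c.s c.s]; exact c.M_ss _
  have q2 : H.M c.s (c.dir x) c.s = 0 := by rw [H.swap₂₃]; exact q1
  simp only [map_add, map_smul, LinearMap.add_apply, LinearMap.smul_apply, smul_eq_mul, c.M_ss, q1,
    q2, mul_zero, zero_add] at h
  nlinarith [mul_pos hℓ hℓ]

lemma smooth_ℓ_pos (hP : H.Pointed) (hN : H.Nodal) {x : Vec n} (hx : x ∈ H.smoothPts) :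
    0 < c.ℓ x := by
  refine lt_of_le_of_ne (c.ℓ_nonneg hP hx.1.1) fun h => ?_
  have e := c.eq_dir hP hN hx.1.1
  rw [← h, zero_smul, add_zero] at e
  have hb := hx.2
  rw [e] at hb
  simp only [map_smul, LinearMap.smul_apply, smul_eq_mul, c.sing.2.2, mul_zero] at hb
  exact lt_irrefl _ hb

/-- The curvature near the far end of an edge. -/
lemma edge_estimate (hθ : ∀ v, H.M v c.θs c.θs = 0)
    (hΦ : ∀ v, c.σ v = 0 → c.ℓ v = 0 → v ≠ 0 → 0 < -3 * H.M c.θs v v) :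
    ∃ δ > (0 : ℝ), ∃ K : ℝ, 0 ≤ K ∧ ∀ τ, c.σ τ = 0 → c.ℓ τ = 0 → τ ≠ 0 → ‖τ‖ ≤ δ →
      0 < F (H := H) (c.θs + τ) ∧
      (∀ i j, |curv (H := H) (c.θs + τ) (Pi.single i 1) (Pi.single j 1)| ≤ K) ∧
      ∀ v, c.σ v = 0 → c.ℓ v = 0 →
        -(K * ‖τ‖ * ‖v‖ ^ 2) ≤ curv (H := H) (c.θs + τ) v v := by
  obtain ⟨μ, hμ, hbd⟩ := exists_quad_bound (fun v => -3 * H.M c.θs v v)
    ((H.continuous_M continuous_const continuous_id continuous_id).const_mul (-3 : ℝ))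
    (fun t v => by simp; ring) c.space
    (fun v hv hv0 => hΦ v (c.mem_space.1 hv).1 (c.mem_space.1 hv).2 hv0)
  set C := H.bound
  have hC : 0 < C := H.bound_pos
  set S := ‖c.θs‖ + 1 with hS
  have hSpos : 0 < S := by rw [hS]; positivity
  set K₁ : ℝ := 36 * C ^ 2 * S + 9 * C ^ 2 with hK₁
  set K₂ : ℝ := 3 * C + 6 * C ^ 2 * S / μ + K₁ / (2 * μ) with hK₂
  set K₃ : ℝ := 3 * C * S + (6 * C * S + 3 * C) ^ 2 / (2 * μ) with hK₃
  refine ⟨min 1 (μ / (2 * C)), lt_min one_pos (by positivity), max K₂ K₃, ?_,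
    fun τ hσ hℓ hτ hd => ?_⟩
  · refine le_max_of_le_right ?_
    rw [hK₃]; positivity
  set t := ‖τ‖ with ht
  have htpos : 0 < t := norm_pos_iff.2 hτ
  have ht1 : t ≤ 1 := hd.trans (min_le_left _ _)
  have htμ : C * t ≤ μ / 2 := by
    have h := hd.trans (min_le_right _ _)
    rw [le_div_iff₀ (by positivity)] at h
    linarith
  set θ := c.θs + τ with hθdef
  have hθn : ‖θ‖ ≤ S := (norm_add_le _ _).trans (by rw [hS]; linarith)
  set Φτ := -3 * H.M c.θs τ τ with hΦτ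
  have h1 : μ * t ^ 2 ≤ Φτ := hbd τ (c.mem_space.2 ⟨hσ, hℓ⟩)
  have hFe : F (H := H) θ = Φτ - H.M τ τ τ := by
    rw [F, hθdef, ← one_smul ℝ τ, H.cube_add, one_smul, hθ c.θs, hθ τ, hΦτ]
    ring
  have hc3 : |H.M τ τ τ| ≤ C * t ^ 3 := by
    refine (H.abs_M_le _ _ _).trans (le_of_eq ?_)
    ring
  have hF : μ / 2 * t ^ 2 ≤ F (H := H) θ := by
    rw [hFe]
    nlinarith [abs_le.1 hc3, mul_le_mul_of_nonneg_right htμ (sq_nonneg t)]
  have hFpos : 0 < F (H := H) θ := lt_of_lt_of_le (by positivity) hF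
  have hG : ∀ v, H.M θ θ v = 2 * H.M c.θs τ v + H.M τ τ v := by
    intro v
    rw [hθdef]
    simp only [map_add, LinearMap.add_apply]
    rw [H.swap₁₂ τ c.θs v, ← H.rot v c.θs c.θs, hθ v]
    ring
  have hG' : ∀ v, |-3 * H.M θ θ v| ≤ (6 * C * S + 3 * C) * t * ‖v‖ := by
    intro v
    rw [hG]
    have a1 := H.abs_M_le c.θs τ v
    have a2 := H.abs_M_le τ τ v
    have b1 : H.bound * ‖c.θs‖ * ‖τ‖ * ‖v‖ ≤ C * S * t * ‖v‖ := by gcongr; rw [hS]; linarith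
    have b2 : H.bound * ‖τ‖ * ‖τ‖ * ‖v‖ ≤ C * t * 1 * ‖v‖ := by gcongr
    rw [abs_mul, abs_neg, abs_of_pos (three_pos : (0 : ℝ) < 3)]
    have := abs_add_le (2 * H.M c.θs τ v) (H.M τ τ v)
    rw [abs_mul, abs_of_pos (two_pos : (0 : ℝ) < 2)] at this
    nlinarith
  have hFt : 2 * μ * t ^ 2 ≤ 4 * F (H := H) θ := by linarith
  refine ⟨hFpos, fun i j => ?_, fun v hv1 hv2 => ?_⟩
  · refine le_trans ?_ (le_max_right _ _)
    rw [curv_apply, show (4 : ℝ) * -H.M θ θ θ = 4 * F (H := H) θ from rfl]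
    refine (abs_sub _ _).trans (add_le_add ?_ ?_)
    · rw [abs_mul, abs_neg, abs_of_pos (three_pos : (0 : ℝ) < 3)]
      have := H.abs_M_le θ (Pi.single i 1) (Pi.single j 1)
      have b : H.bound * ‖θ‖ * ‖(Pi.single i 1 : Vec n)‖ * ‖(Pi.single j 1 : Vec n)‖ ≤
          C * S * 1 * 1 := by gcongr <;> apply single_norm_le
      linarith
    · rw [abs_div, abs_of_pos (by positivity : 0 < 4 * F (H := H) θ), abs_mul]
      have g : ∀ k, |-3 * H.M θ θ (Pi.single k 1)| ≤ (6 * C * S + 3 * C) * t := fun k =>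
        (hG' _).trans (by
          calc (6 * C * S + 3 * C) * t * ‖(Pi.single k 1 : Vec n)‖
              ≤ (6 * C * S + 3 * C) * t * 1 := by gcongr; apply single_norm_le
            _ = _ := mul_one _)
      calc |-3 * H.M θ θ (Pi.single i 1)| * |-3 * H.M θ θ (Pi.single j 1)| / (4 * F (H := H) θ)
          ≤ (6 * C * S + 3 * C) ^ 2 * t ^ 2 / (2 * μ * t ^ 2) := by
            refine div_le_div₀ (by positivity) ?_ (by positivity) hFt
            have := mul_le_mul (g i) (g j) (abs_nonneg _) ((abs_nonneg _).trans (g i))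
            linarith
        _ = _ := by field_simp
  · have hv := hbd v (c.mem_space.2 ⟨hv1, hv2⟩)
    set w := ‖v‖ with hw
    have hwn : 0 ≤ w := norm_nonneg v
    set Φv := -3 * H.M c.θs v v with hΦv
    set Φτv := -3 * H.M c.θs τ v with hΦτv
    have hCS : Φτv ^ 2 ≤ Φτ * Φv := by
      have hq := hbd (v + (-Φτv / Φτ) • τ)
        (c.space.add_mem (c.mem_space.2 ⟨hv1, hv2⟩) (c.space.smul_mem _ (c.mem_space.2 ⟨hσ, hℓ⟩)))
      have hnn : 0 ≤ -3 * H.M c.θs (v + (-Φτv / Φτ) • τ) (v + (-Φτv / Φτ) • τ) :=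
        le_trans (by positivity) hq
      rw [H.sq_add, H.swap₂₃ c.θs v τ] at hnn
      have hpos : 0 < Φτ := lt_of_lt_of_le (by positivity) h1
      have e : -3 * (H.M c.θs v v + 2 * (-Φτv / Φτ) * H.M c.θs τ v +
          (-Φτv / Φτ) ^ 2 * H.M c.θs τ τ) = Φv - Φτv ^ 2 / Φτ := by
        rw [hΦv, hΦτv]; field_simp; rw [hΦτ]; ring
      rw [e, sub_nonneg, div_le_iff₀ hpos] at hnn
      linarith
    have hΦvb : Φv ≤ 3 * C * S * w ^ 2 := by
      have := abs_le.1 (H.abs_M_le c.θs v v)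
      have b : H.bound * ‖c.θs‖ * w * w ≤ C * S * w * w := by gcongr; rw [hS]; linarith
      rw [hΦv]; linarith [show C * S * w * w = C * S * w ^ 2 by ring, this.1]
    have hτvb : |Φτv| ≤ 3 * C * S * t * w := by
      rw [hΦτv, abs_mul, abs_neg, abs_of_pos (three_pos : (0 : ℝ) < 3)]
      have := H.abs_M_le c.θs τ v
      have b : H.bound * ‖c.θs‖ * t * w ≤ C * S * t * w := by gcongr; rw [hS]; linarith
      linarith
    set r := -3 * H.M τ τ v with hr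
    have hrb : |r| ≤ 3 * C * t ^ 2 * w := by
      rw [hr, abs_mul, abs_neg, abs_of_pos (three_pos : (0 : ℝ) < 3)]
      have := H.abs_M_le τ τ v
      linarith [show C * t * t * w = C * t ^ 2 * w by ring]
    have hG2 : (2 * Φτv + r) ^ 2 ≤ 4 * Φτ * Φv + K₁ * t ^ 3 * w ^ 2 := by
      have p1 : Φτv * r ≤ (3 * C * S * t * w) * (3 * C * t ^ 2 * w) := by
        refine (le_abs_self _).trans ?_
        rw [abs_mul]
        exact mul_le_mul hτvb hrb (abs_nonneg _) ((abs_nonneg _).trans hτvb)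
      have p2 : r ^ 2 ≤ (3 * C * t ^ 2 * w) ^ 2 := sq_le_sq' (abs_le.1 hrb).1 (abs_le.1 hrb).2
      have p3 : 9 * C ^ 2 * t ^ 4 * w ^ 2 ≤ 9 * C ^ 2 * t ^ 3 * w ^ 2 := by
        gcongr 9 * C ^ 2 * ?_ * w ^ 2
        exact pow_le_pow_of_le_one htpos.le ht1 (by norm_num)
      have e1 : (2 * Φτv + r) ^ 2 = 4 * Φτv ^ 2 + 4 * (Φτv * r) + r ^ 2 := by ring
      have e2 : (3 * C * S * t * w) * (3 * C * t ^ 2 * w) = 9 * C ^ 2 * S * t ^ 3 * w ^ 2 := by ring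
      have e3 : (3 * C * t ^ 2 * w) ^ 2 = 9 * C ^ 2 * t ^ 4 * w ^ 2 := by ring
      have e4 : K₁ * t ^ 3 * w ^ 2 =
          4 * (9 * C ^ 2 * S * t ^ 3 * w ^ 2) + 9 * C ^ 2 * t ^ 3 * w ^ 2 := by rw [hK₁]; ring
      linarith
    have hgv : -3 * H.M θ θ v = 2 * Φτv + r := by rw [hG, hΦτv, hr]; ring
    have hθv : -3 * H.M θ v v = Φv + -3 * H.M τ v v := by
      rw [hθdef, hΦv]; simp only [map_add, LinearMap.add_apply]; ring
    rw [curv_apply, hθv, hgv, show (4 : ℝ) * -H.M θ θ θ = 4 * F (H := H) θ from rfl]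
    have hτvv : |-3 * H.M τ v v| ≤ 3 * C * t * w ^ 2 := by
      rw [abs_mul, abs_neg, abs_of_pos (three_pos : (0 : ℝ) < 3)]
      have := H.abs_M_le τ v v
      linarith [show C * t * w * w = C * t * w ^ 2 by ring]
    have hΦ0 : 0 ≤ Φv := le_trans (by positivity) hv
    have hq := curvature_bound hμ hC hSpos htpos (by rw [hK₁]; positivity) hF
      (show Φτ ≤ F (H := H) θ + C * t ^ 3 by rw [hFe]; linarith [(abs_le.1 hc3).2]) hΦ0 hΦvb hG2
    have hmax : K₂ * t * w ^ 2 ≤ max K₂ K₃ * t * w ^ 2 := by gcongr; exact le_max_left _ _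
    have hsplit : K₂ * t * w ^ 2 =
        3 * C * t * w ^ 2 + (6 * C ^ 2 * S / μ + K₁ / (2 * μ)) * t * w ^ 2 := by rw [hK₂]; ring
    linarith [(abs_le.1 hτvv).1]

/-- Both directions close to the far end of an edge. -/
lemma edge_cell (hP : H.Pointed) (hN : H.Nodal) (hθ : ∀ v, H.M v c.θs c.θs = 0)
    (hΦ : ∀ v, c.σ v = 0 → c.ℓ v = 0 → v ≠ 0 → 0 < -3 * H.M c.θs v v) {ρ₀ : ℝ} (hρ : 0 ≤ ρ₀) :
    ∃ ε > (0 : ℝ), SOSOn
      {a ∈ H.bdry | 0 < c.σ a ∧ |c.slope a - ρ₀| ≤ ε ∧ ‖c.slope a • (c.dir a - c.θs)‖ ≤ ε}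
      {x ∈ H.smoothPts | 0 < c.σ x ∧ ‖c.dir x - c.θs‖ ≤ ε}
      (fun a x => H.M a x x) := by
  obtain ⟨η, hη, hA⟩ := c.exists_A_bound hN
  obtain ⟨δ, hδ, K, hK, hest⟩ := c.edge_estimate hθ hΦ
  obtain ⟨ε, hε, hcell⟩ := c.node_cell hP hN (ρ₀ := ρ₀) (η := η / 2) (K := K) (half_pos hη)
  set ε' : ℝ := min (min 1 δ) (min (ε / (ρ₀ + 1)) (η / (2 * (ρ₀ * K + 1)))) with hε'
  have hε'pos : 0 < ε' := by
    have : 0 < η / (2 * (ρ₀ * K + 1)) := by positivity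
    have : 0 < ε / (ρ₀ + 1) := by positivity
    rw [hε']
    exact lt_min (lt_min one_pos hδ) (lt_min ‹_› ‹_›)
  have h1 : ε' ≤ 1 := (min_le_left _ _).trans (min_le_left _ _)
  have h2 : ε' ≤ δ := (min_le_left _ _).trans (min_le_right _ _)
  have h3 : ε' ≤ ε / (ρ₀ + 1) := (min_le_right _ _).trans (min_le_left _ _)
  have h4 : ε' ≤ η / (2 * (ρ₀ * K + 1)) := (min_le_right _ _).trans (min_le_right _ _)
  have h3' : (ρ₀ + 1) * ε' ≤ ε := by
    rwa [le_div_iff₀ (by positivity), mul_comm] at h3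
  have hεε : ε' ≤ ε := by nlinarith
  refine ⟨ε', hε'pos, ?_⟩
  set A' := {a ∈ H.bdry | 0 < c.σ a ∧ |c.slope a - ρ₀| ≤ ε' ∧
    ‖c.slope a • (c.dir a - c.θs)‖ ≤ ε'}
  set X' := {x ∈ H.smoothPts | 0 < c.σ x ∧ ‖c.dir x - c.θs‖ ≤ ε'}
  refine sosOn_glue (fun _ : Bool => A')
    (fun b : Bool => if b then X' ∩ {x | c.dir x = c.θs} else X' ∩ {x | c.dir x ≠ c.θs}) ?_ ?_
  · intro a ha x hx
    by_cases h : c.dir x = c.θs
    · exact ⟨true, ha, by simp [hx, h]⟩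
    · exact ⟨false, ha, by simp [hx, h]⟩
  intro b
  cases b with
  | true =>
    simp only [if_true]
    refine sosOn_congr (sosOn_prod (fun a => H.M a c.s c.θs) (fun x => 2 * c.σ x * c.ℓ x)
      (fun a ha => ?_) (fun x hx => ?_)) fun a _ x hx => ?_
    · have e := c.eq_dir hP hN ha.1.1
      rw [e]
      have q : H.M c.s c.s c.θs = 0 := by rw [← H.rot c.θs c.s c.s]; exact c.M_ss _
      simp only [map_add, map_smul, LinearMap.add_apply, LinearMap.smul_apply, smul_eq_mul, q,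
        mul_zero, zero_add]
      rw [H.rot (c.dir a) c.s c.θs]
      have hl := c.ℓ_nonneg hP ha.1.1
      rcases eq_or_lt_of_le hl with h0 | h0
      · rw [← h0]; simp
      have hAA := c.A_dir_nonneg hP hN ha.1.1 h0
      have hneg := c.neg_A (v := c.dir a - c.θs) (by simp [c.ℓ_dir, c.ℓ_θs])
      have q2 : H.M c.s c.θs c.θs = 0 := hθ _
      simp only [map_sub, LinearMap.sub_apply, H.swap₂₃ c.s (c.dir a) c.θs, q2] at hneg
      nlinarith
    · have hl := c.smooth_ℓ_pos hP hN hx.1.1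
      have := hx.1.2.1
      positivity
    · have e := c.eq_dir hP hN hx.1.1.1.1
      rw [show c.dir x = c.θs from hx.2] at e
      conv_lhs => rw [e]
      simp only [map_add, map_smul, LinearMap.add_apply, LinearMap.smul_apply, smul_eq_mul, c.M_ss,
        hθ, H.swap₂₃ a c.θs c.s]
      ring
  | false =>
    simp only [Bool.false_eq_true, if_false]
    refine hcell A' _ (ρ₀ + 1) ε' (by linarith) hε'pos.le (by linarith) ?_ ?_
    · rintro a ⟨hab, hσ, hsl, hd⟩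
      refine ⟨hab.1, hab.2.2, hσ, hsl.trans hεε, hd.trans hεε, ?_⟩
      linarith [(abs_le.1 hsl).2]
    · rintro x ⟨⟨hxs, hσ, hd⟩, hne⟩
      set τ := c.dir x - c.θs with hτ
      have e : c.dir x = c.θs + τ := by rw [hτ]; abel
      have hσ' : c.σ τ = 0 := by simp [hτ, c.σ_dir, c.σ_θ]
      have hℓ' : c.ℓ τ = 0 := by simp [hτ, c.ℓ_dir, c.ℓ_θs]
      obtain ⟨hF, hb, hlow⟩ := hest τ hσ' hℓ' (sub_ne_zero.2 hne) (hd.trans h2)
      rw [← e] at hF hb hlow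
      refine ⟨hxs.1.1, hxs.1.2.2, hσ, c.smooth_ℓ_pos hP hN hxs, hF, hd, hb, fun v hv1 hv2 => ?_⟩
      have k1 := hA v hv1 hv2
      have k2 := mul_le_mul_of_nonneg_left (hlow v hv1 hv2) hρ
      have k3 : ρ₀ * (K * ‖τ‖ * ‖v‖ ^ 2) ≤ η / 2 * ‖v‖ ^ 2 := by
        have h5 : ρ₀ * K * ε' ≤ η / 2 := by
          rw [le_div_iff₀ (by positivity)] at h4
          nlinarith
        calc ρ₀ * (K * ‖τ‖ * ‖v‖ ^ 2) = ρ₀ * K * ‖τ‖ * ‖v‖ ^ 2 := by ring
          _ ≤ ρ₀ * K * ε' * ‖v‖ ^ 2 := by gcongr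
          _ ≤ _ := by gcongr
      linarith

end Chart

end Vale.Agent.P256
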