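import Vale.Agent.P256.EdgeCell

namespace Vale.Agent.P256

open Filter Topology
open scoped BigOperators

variable {n : ℕ}

/-- Compactness in an auxiliary space, near a point on the second side. -/
lemma sosOn_of_local_pair {α β γ : Type*} [TopologicalSpace α] [TopologicalSpace β]
    [TopologicalSpace γ] {A : Set α} {B : Set β} {a₀ : α} {b₀ : β} {S : α → β → ℝ} {C : Set γ}
    (hC : IsCompact C) (φ : β → γ) (hφ : ∀ b ∈ B, φ b ∈ C)
    (h : ∀ c ∈ C, ∃ U ∈ 𝓝 a₀, ∃ W ∈ 𝓝 b₀, ∃ V ∈ 𝓝 c, SOSOn (U ∩ A) (W ∩ B ∩ φ ⁻¹' V) S) :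
    ∃ U ∈ 𝓝 a₀, ∃ W ∈ 𝓝 b₀, SOSOn (U ∩ A) (W ∩ B) S := by
  classical
  choose! U hU W hW V hV hS using h
  obtain ⟨t, ht, hcov⟩ := hC.elim_nhds_subcover V hV
  refine ⟨⋂ c ∈ t, U c, (biInter_finset_mem t).2 fun c hc => hU c (ht c hc),
    ⋂ c ∈ t, W c, (biInter_finset_mem t).2 fun c hc => hW c (ht c hc), ?_⟩
  refine sosOn_glue (fun _ : t => (⋂ c ∈ t, U c) ∩ A)
    (fun c : t => (⋂ c ∈ t, W c) ∩ B ∩ φ ⁻¹' V c.1) ?_ ?_
  · intro a ha b hb
    have := hcov (hφ b hb.2)
    simp only [Set.mem_iUnion] at this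
    obtain ⟨c, hc, hmem⟩ := this
    exact ⟨⟨c, hc⟩, ha, hb, hmem⟩
  · intro c
    exact sosOn_mono (hS c.1 (ht c.1 c.2))
      (Set.inter_subset_inter_left _ (Set.biInter_subset_of_mem c.2))
      (Set.inter_subset_inter_left _ (Set.inter_subset_inter_left _
        (Set.biInter_subset_of_mem c.2)))

namespace Chart

variable {H : HCubic n} (c : Chart H)

lemma dir_of_ne {y : Vec n} (hy : c.ℓ y ≠ 0) : c.dir y = (c.ℓ y)⁻¹ • (y - c.σ y • c.s) :=
  if_neg hy

lemma slope_smul_dir (hP : H.Pointed) (hN : H.Nodal) {a : Vec n} (ha : a ∈ H.cone)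
    (hσ : c.σ a ≠ 0) : c.slope a • (c.dir a - c.θs) =
      (c.σ a)⁻¹ • (a - c.σ a • c.s) - c.slope a • c.θs := by
  have e : a - c.σ a • c.s = c.ℓ a • c.dir a := by
    rw [sub_eq_iff_eq_add, add_comm]; exact c.eq_dir hP hN ha
  rw [smul_sub, e, smul_smul]
  congr 1
  rw [slope]
  congr 1
  field_simp

lemma continuous_σ : Continuous c.σ := LinearMap.continuous_of_finiteDimensional _

lemma continuous_ℓ : Continuous c.ℓ := LinearMap.continuous_of_finiteDimensional _

lemma continuousAt_slope {y : Vec n} (hy : c.σ y ≠ 0) : ContinuousAt c.slope y :=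
  c.continuous_ℓ.continuousAt.div c.continuous_σ.continuousAt hy

/-- The linear change of a direction between two charts at the same point. -/
lemma dir_change (d : Chart H) (hs : d.s = c.s) {y : Vec n} (hy : c.ℓ y ≠ 0) :
    d.dir y = c.dir y - d.σ (c.dir y) • c.s := by
  have hl : d.ℓ = c.ℓ := by unfold Chart.ℓ; rw [hs]
  have h1 : d.σ c.s = 1 := by rw [← hs]; exact d.σ_s
  rw [d.dir_of_ne (by rwa [hl]), c.dir_of_ne hy, hl, hs]
  simp only [map_smul, map_sub, h1, smul_eq_mul, mul_one]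
  module

end Chart

namespace HCubic

variable (H : HCubic n)

lemma Sing.mem_bdry {H : HCubic n} {s : Vec n} (h : H.Sing s) : s ∈ H.bdry :=
  ⟨h.1, h.2.1, H.singular_zero h.1 h.2.2 s⟩

lemma Sing.self_e {H : HCubic n} {s : Vec n} (h : H.Sing s) : H.M s H.e s = 0 := by
  rw [H.swap₁₂]; exact h.2.2

/-- The chart with the slice as hyperplane at infinity. -/
noncomputable def sliceChart (s θ : Vec n) (hs : H.Sing s) (h1 : H.M H.e H.e θ = 0)
    (h2 : H.M s H.e θ = 1) : Chart H where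
  s := s
  σ := H.M H.e H.e
  θs := θ
  sing := hs
  σ_s := hs.2.1
  σ_θ := h1
  ℓ_θ := h2

/-- The basic chart at a singular point. -/
noncomputable def baseChart (s : Vec n) (hs : H.Sing s) : Chart H :=
  H.sliceChart s (H.e - s) hs (by simp [H.norm, hs.2.1]) (by
    rw [map_sub, hs.self_e, sub_zero, H.rot]; exact hs.2.1)

lemma pair_pos (hP : H.Pointed) (hN : H.Nodal) {s b : Vec n} (hs : H.Sing s) (hb : H.Sing b)
    (hne : s ≠ b) : 0 < H.M s H.e b := by
  refine lt_of_le_of_ne ((H.baseChart s hs).ℓ_nonneg hP hb.1) fun h => hne ?_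
  have e := (H.baseChart s hs).eq_dir hP hN hb.1
  have h' : (H.baseChart s hs).ℓ b = 0 := h.symm
  rw [h', zero_smul, add_zero] at e
  rw [e]
  show s = H.M H.e H.e b • s
  rw [hb.2.1, one_smul]

/-- The chart adapted to an edge. -/
noncomputable def edgeChart (s b : Vec n) (hs : H.Sing s) (hb : H.Sing b)
    (h : 0 < H.M s H.e b) : Chart H where
  s := s
  σ := (H.M s H.e b)⁻¹ • H.M b H.e
  θs := (H.M s H.e b)⁻¹ • b
  sing := hs
  σ_s := by
    simp only [LinearMap.smul_apply, smul_eq_mul]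
    rw [show H.M b H.e s = H.M s H.e b from H.swap₁₃ b H.e s, inv_mul_cancel₀ h.ne']
  σ_θ := by simp [hb.self_e]
  ℓ_θ := by simp [inv_mul_cancel₀ h.ne']

lemma edge_σ_pos (hP : H.Pointed) (hN : H.Nodal) {s b : Vec n} (hs : H.Sing s) (hb : H.Sing b)
    (h : 0 < H.M s H.e b) {x : Vec n} (hx : x ∈ H.smoothPts) :
    0 < (H.edgeChart s b hs hb h).σ x := by
  have := (H.baseChart b hb).smooth_ℓ_pos hP hN hx
  have h' : 0 < H.M b H.e x := this
  show 0 < ((H.M s H.e b)⁻¹ • H.M b H.e) x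
  simp only [LinearMap.smul_apply, smul_eq_mul]
  positivity

lemma edge_phi (hN : H.Nodal) {s b : Vec n} (hs : H.Sing s) (hb : H.Sing b)
    (h : 0 < H.M s H.e b) :
    (∀ v, H.M v (H.edgeChart s b hs hb h).θs (H.edgeChart s b hs hb h).θs = 0) ∧
    ∀ v, (H.edgeChart s b hs hb h).σ v = 0 → (H.edgeChart s b hs hb h).ℓ v = 0 → v ≠ 0 →
      0 < -3 * H.M (H.edgeChart s b hs hb h).θs v v := by
  constructor
  · intro v
    simp [edgeChart, H.singular_zero hb.1 hb.2.2 v]
  · intro v h1 h2 hv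
    have h1' : (H.baseChart b hb).ℓ v = 0 := by
      have : ((H.M s H.e b)⁻¹ • H.M b H.e) v = 0 := h1
      simp only [LinearMap.smul_apply, smul_eq_mul, mul_eq_zero, inv_eq_zero] at this
      exact this.resolve_left h.ne'
    have key : 0 < -H.M b v v := by
      by_contra hcon
      obtain ⟨t, ht⟩ := (H.baseChart b hb).radical hN h1'
        (show (0 : ℝ) ≤ H.M b v v by linarith)
      have h2' : H.M s H.e v = 0 := h2
      have ht' : v = t • b := ht
      rw [ht', map_smul, smul_eq_mul, mul_eq_zero] at h2'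
      exact hv (by rw [ht', h2'.resolve_right h.ne', zero_smul])
    simp only [edgeChart, map_smul, LinearMap.smul_apply, smul_eq_mul]
    have := mul_pos (inv_pos.2 h) key
    linarith

lemma edge_pair (hP : H.Pointed) (hN : H.Nodal) {s b : Vec n} (hs : H.Sing s) (hb : H.Sing b)
    (hne : s ≠ b) {μ ν : ℝ} (hμ : μ < 1) (hμ0 : 0 < μ) (hν : 0 < ν) :
    ∃ U ∈ 𝓝 ((1 - μ) • s + μ • b), ∃ V ∈ 𝓝 ((1 - ν) • s + ν • b),
      SOSOn (U ∩ H.bdry) (V ∩ H.smoothPts) (fun a x => H.M a x x) := by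
  have h := H.pair_pos hP hN hs hb hne
  set c := H.edgeChart s b hs hb h with hc
  obtain ⟨hθ, hΦ⟩ := H.edge_phi hN hs hb h
  set t := H.M s H.e b with ht
  have σb : c.σ b = 0 := by
    show ((H.M s H.e b)⁻¹ • H.M b H.e) b = 0
    simp [hb.self_e]
  have σs : c.σ s = 1 := c.σ_s
  have ℓb : c.ℓ b = t := rfl
  have ℓs : c.ℓ s = 0 := c.ℓ_s
  have hρ : 0 ≤ μ * t / (1 - μ) := div_nonneg (by positivity) (by linarith)
  obtain ⟨ε, hε, hcell⟩ := c.edge_cell hP hN hθ hΦ hρ
  set a₀ := (1 - μ) • s + μ • b with ha₀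
  set x₀ := (1 - ν) • s + ν • b with hx₀
  have σa : c.σ a₀ = 1 - μ := by simp [ha₀, σb, σs]
  have ℓa : c.ℓ a₀ = μ * t := by simp [ha₀, ℓb, ℓs]
  have ℓx : c.ℓ x₀ = ν * t := by simp [hx₀, ℓb, ℓs]
  have σx : c.σ x₀ = 1 - ν := by simp [hx₀, σb, σs]
  have slope_a : c.slope a₀ = μ * t / (1 - μ) := by rw [Chart.slope, ℓa, σa]
  have hσne : c.σ a₀ ≠ 0 := by rw [σa]; linarith
  have hU : ∀ᶠ a in 𝓝 a₀, 0 < c.σ a ∧ |c.slope a - μ * t / (1 - μ)| ≤ ε ∧
      ‖(c.σ a)⁻¹ • (a - c.σ a • s) - c.slope a • c.θs‖ ≤ ε := by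
    have c1 : ContinuousAt (fun a => |c.slope a - μ * t / (1 - μ)|) a₀ :=
      ((c.continuousAt_slope hσne).sub continuousAt_const).abs
    have c2 : ContinuousAt (fun a => ‖(c.σ a)⁻¹ • (a - c.σ a • s) - c.slope a • c.θs‖) a₀ :=
      (((c.continuous_σ.continuousAt.inv₀ hσne).smul
        (continuousAt_id.sub (c.continuous_σ.continuousAt.smul continuousAt_const))).sub
        ((c.continuousAt_slope hσne).smul continuousAt_const)).norm
    have z2 : ‖(c.σ a₀)⁻¹ • (a₀ - c.σ a₀ • s) - c.slope a₀ • c.θs‖ = 0 := by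
      rw [norm_eq_zero, σa, slope_a, show c.θs = t⁻¹ • b from rfl, ha₀]
      have h1 : (1 - μ) ≠ 0 := by linarith
      rw [add_sub_cancel_left, smul_smul, smul_smul, sub_eq_zero]
      congr 1
      field_simp
    exact (c.continuous_σ.continuousAt.eventually (lt_mem_nhds (by rw [σa]; linarith))).and
      ((c1.eventually (Iic_mem_nhds (by simp only [slope_a]; simpa using hε))).and
        (c2.eventually (Iic_mem_nhds (by simp only [z2]; exact hε))))
  have hV : ∀ᶠ x in 𝓝 x₀, ‖c.dir x - c.θs‖ ≤ ε := by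
    have hne' : c.ℓ x₀ ≠ 0 := by rw [ℓx]; positivity
    refine ((c.continuousAt_dir hne').sub continuousAt_const).norm.eventually
      (Iic_mem_nhds ?_)
    simp only [Pi.sub_apply]
    rw [c.dir_of_ne hne', ℓx, σx, show c.θs = t⁻¹ • b from rfl,
      show c.s = s from rfl, hx₀, add_sub_cancel_left, smul_smul]
    have : (ν * t)⁻¹ * ν = t⁻¹ := by field_simp
    rw [this, sub_self, norm_zero]
    exact hε
  refine ⟨_, hU, _, hV, sosOn_mono hcell ?_ ?_⟩
  · rintro a ⟨⟨h1, h2, h3⟩, hab⟩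
    refine ⟨hab, h1, h2, ?_⟩
    rw [c.slope_smul_dir hP hN hab.1 h1.ne']
    exact h3
  · rintro x ⟨h1, hxs⟩
    exact ⟨hxs, H.edge_σ_pos hP hN hs hb h hxs, h1⟩

lemma edge_any (hP : H.Pointed) (hN : H.Nodal) {s b : Vec n} (hs : H.Sing s) (hb : H.Sing b)
    (hne : s ≠ b) {μ ν : ℝ} (hμ : μ < 1) (hμ0 : 0 < μ) (hν : 0 ≤ ν) :
    ∃ U ∈ 𝓝 ((1 - μ) • s + μ • b), ∃ V ∈ 𝓝 ((1 - ν) • s + ν • b),
      SOSOn (U ∩ H.bdry) (V ∩ H.smoothPts) (fun a x => H.M a x x) := by
  rcases eq_or_lt_of_le hν with h | h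
  · have := H.edge_pair hP hN hb hs hne.symm (μ := 1 - μ) (ν := 1) (by linarith) (by linarith)
      one_pos
    have e1 : (1 - (1 - μ)) • b + (1 - μ) • s = (1 - μ) • s + μ • b := by module
    have e2 : (1 - (1 : ℝ)) • b + (1 : ℝ) • s = (1 - ν) • s + ν • b := by
      rw [← h]; simp
    rwa [e1, e2] at this
  · exact H.edge_pair hP hN hs hb hne hμ hμ0 h

lemma link_compact (hP : H.Pointed) (hN : H.Nodal) {s : Vec n} (hs : H.Sing s) :
    ∃ C : Set (Vec n), IsCompact C ∧
      (∀ x ∈ H.smoothPts, (H.baseChart s hs).dir x ∈ C) ∧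
      ∀ θ ∈ C, H.M H.e H.e θ = 0 ∧ H.M s H.e θ = 1 ∧ 0 ≤ H.M s θ θ ∧
        (H.M θ θ θ < 0 ∨ (H.M θ θ θ = 0 ∧ H.M s θ θ = 0)) := by
  set c := H.baseChart s hs with hc
  obtain ⟨R, hR⟩ := (H.isCompact_bdry hP).bddAbove_image c.continuous_ℓ.continuousOn
  obtain ⟨η, hη, hA⟩ := c.exists_A_bound hN
  set C₀ : Set (Vec n) := ({θ | H.M H.e H.e θ = 0} ∩ {θ | H.M s H.e θ = 1}) ∩
    (({θ | 0 ≤ H.M s θ θ} ∩ {θ | 0 ≤ -H.M θ θ θ}) ∩
      {θ | 3 * H.M s θ θ ≤ R * -H.M θ θ θ}) with hC₀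
  have hclosed : IsClosed C₀ := by
    refine ((isClosed_eq (H.continuous_M continuous_const continuous_const continuous_id)
      continuous_const).inter (isClosed_eq (H.continuous_M continuous_const continuous_const
        continuous_id) continuous_const)).inter ?_
    refine ((isClosed_le continuous_const (H.continuous_M continuous_const continuous_id
      continuous_id)).inter (isClosed_le continuous_const (H.continuous_M continuous_id
        continuous_id continuous_id).neg)).inter ?_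
    exact isClosed_le ((H.continuous_M continuous_const continuous_id continuous_id).const_mul 3)
      ((H.continuous_M continuous_id continuous_id continuous_id).neg.const_mul R)
  set θ₀ := H.e - s
  set c₁ : ℝ := 6 * (H.bound * ‖s‖ * ‖θ₀‖) with hc₁
  set c₂ : ℝ := 9 * (H.bound * ‖s‖ * ‖θ₀‖ * ‖θ₀‖) with hc₂
  refine ⟨C₀, (isCompact_closedBall θ₀ (max 1 ((c₁ + c₂) / η))).of_isClosed_subset hclosed ?_,
    ?_, ?_⟩
  · rintro θ ⟨⟨h1, h2⟩, ⟨h3, -⟩, -⟩
    rw [Metric.mem_closedBall, dist_eq_norm]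
    set d := ‖θ - θ₀‖ with hd
    rcases le_or_gt d 1 with hd1 | hd1
    · exact le_max_of_le_left hd1
    refine le_max_of_le_right ?_
    rw [le_div_iff₀' hη]
    have hb := hA (θ - θ₀) (by
        show c.σ (θ - θ₀) = 0
        have : c.σ θ₀ = 0 := c.σ_θ
        have h1' : c.σ θ = 0 := h1
        rw [map_sub, this, h1', sub_zero])
      (by
        show c.ℓ (θ - θ₀) = 0
        have : c.ℓ θ₀ = 1 := c.ℓ_θs
        have h2' : c.ℓ θ = 1 := h2
        rw [map_sub, this, h2', sub_self])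
    change η * d ^ 2 ≤ -3 * H.M s (θ - θ₀) (θ - θ₀) at hb
    simp only [map_sub, LinearMap.sub_apply] at hb
    rw [H.swap₂₃ s θ₀ θ] at hb
    have a1 := H.abs_M_le s θ θ₀
    have a2 := H.abs_M_le s θ₀ θ₀
    have hθ : ‖θ‖ ≤ d + ‖θ₀‖ := by
      rw [hd]; simpa using norm_add_le (θ - θ₀) θ₀
    have a3 : H.bound * ‖s‖ * ‖θ‖ * ‖θ₀‖ ≤ H.bound * ‖s‖ * (d + ‖θ₀‖) * ‖θ₀‖ := by
      have := H.bound_pos.le
      gcongr
    have hd0 : 0 < d := by linarith
    have key : η * d ^ 2 ≤ c₁ * d + c₂ := by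
      have a0 : 0 ≤ H.M s θ θ := h3
      rw [hc₁, hc₂]
      linarith [(abs_le.1 a1).2, (abs_le.1 a2).1,
        show H.bound * ‖s‖ * (d + ‖θ₀‖) * ‖θ₀‖ =
          H.bound * ‖s‖ * ‖θ₀‖ * d + H.bound * ‖s‖ * ‖θ₀‖ * ‖θ₀‖ by ring]
    have hc₂0 : 0 ≤ c₂ := by
      have := H.bound_pos.le
      rw [hc₂]; positivity
    have : c₂ ≤ c₂ * d := le_mul_of_one_le_right hc₂0 hd1.le
    nlinarith
  · intro x hx
    have hℓ := c.smooth_ℓ_pos hP hN hx
    have hA0 := c.A_dir_nonneg hP hN hx.1.1 hℓ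
    refine ⟨⟨c.σ_dir x, c.ℓ_dir x⟩, ?_⟩
    have e := c.eq_dir hP hN hx.1.1
    have hσ : c.σ x = 1 := hx.1.2.1
    rw [hσ, one_smul] at e
    have hp := hx.1.2.2
    rw [e, H.cube_add] at hp
    rw [c.M_ss, c.M_ss] at hp
    set A := H.M c.s (c.dir x) (c.dir x)
    set P := H.M (c.dir x) (c.dir x) (c.dir x)
    set l := c.ℓ x with hl
    have hF : 3 * A = l * -P := by
      have h2 : l ^ 2 ≠ 0 := pow_ne_zero 2 hℓ.ne'
      refine mul_left_cancel₀ h2 ?_
      linear_combination hp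
    have hP' : 0 ≤ -P := by
      by_contra hcon
      push Not at hcon
      nlinarith [mul_neg_of_pos_of_neg hℓ hcon]
    have hlR : l ≤ R := hR ⟨x, hx.1, rfl⟩
    refine ⟨⟨hA0, hP'⟩, ?_⟩
    show 3 * A ≤ R * -P
    rw [hF]
    exact mul_le_mul_of_nonneg_right hlR hP'
  · rintro θ ⟨⟨h1, h2⟩, ⟨h3, h4⟩, h5⟩
    refine ⟨h1, h2, h3, ?_⟩
    rcases eq_or_lt_of_le (show H.M θ θ θ ≤ 0 from neg_nonneg.1 h4) with h | h
    · refine Or.inr ⟨h, le_antisymm ?_ h3⟩
      have h5' : 3 * H.M s θ θ ≤ R * -H.M θ θ θ := h5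
      rw [h, neg_zero, mul_zero] at h5'
      linarith
    · exact Or.inl h

lemma second_end (hP : H.Pointed) {s θ : Vec n} (hs : H.Sing s) (h1 : H.M H.e H.e θ = 0)
    (h2 : H.M s H.e θ = 1) (h3 : H.M s θ θ = 0) (h4 : H.M θ θ θ = 0) :
    H.M H.e θ θ < 0 ∧ H.Sing (s + (-2 / H.M H.e θ θ) • θ) := by
  have hn : H.M H.e θ θ < 0 := lt_of_le_of_ne (H.traceless θ h1) fun h => by
    rw [hP θ h1 h] at h2; simp at h2
  set t := -2 / H.M H.e θ θ with ht
  have a1 : H.M H.e H.e (s + t • θ) = 1 := by simp [hs.2.1, h1]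
  have a2 : H.M H.e (s + t • θ) (s + t • θ) = 0 := by
    rw [H.sq_add, hs.2.2, H.swap₁₂ H.e s θ, h2, ht]
    field_simp
    ring
  have a3 : H.M (s + t • θ) (s + t • θ) (s + t • θ) = 0 := by
    rw [H.cube_add, H.singular_zero hs.1 hs.2.2, H.singular_zero hs.1 hs.2.2, h3, h4]; ring
  exact ⟨hn, ⟨by rw [a1]; exact zero_le_one, a2.ge, a3.ge⟩, a1, a2⟩

/-- All pairs whose first point is near a given singular point. -/
lemma apex_cell (hP : H.Pointed) (hN : H.Nodal) {s : Vec n} (hs : H.Sing s) :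
    ∃ U ∈ 𝓝 s, SOSOn (U ∩ H.bdry) H.smoothPts (fun a x => H.M a x x) := by
  obtain ⟨C, hC, hmap, hprop⟩ := H.link_compact hP hN hs
  refine sosOn_of_local_right hC (H.baseChart s hs).dir hmap fun θ hθ => ?_
  obtain ⟨h1, h2, h3, h4⟩ := hprop θ hθ
  rcases h4 with h4 | ⟨h4, h5⟩
  · -- the direction does not point to another singular point
    set c := H.sliceChart s θ hs h1 h2 with hc
    obtain ⟨η, hη, hA⟩ := c.exists_A_bound hN
    set K := 1 + ∑ i, ∑ j,
      |Chart.curv (H := H) θ (Pi.single i 1) (Pi.single j 1)| with hK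
    obtain ⟨ε, hε, hcell⟩ := c.node_cell hP hN (ρ₀ := 0) (η := η) (K := K) hη
    have hσs : c.σ s = 1 := c.σ_s
    have hℓs : c.ℓ s = 0 := c.ℓ_s
    have hU : ∀ᶠ a in 𝓝 s, |c.slope a| ≤ ε ∧
        ‖(c.σ a)⁻¹ • (a - c.σ a • s) - c.slope a • θ‖ ≤ ε := by
      have hne : c.σ s ≠ 0 := by rw [hσs]; exact one_ne_zero
      have s0 : c.slope s = 0 := by rw [Chart.slope, hℓs, zero_div]
      refine ((c.continuousAt_slope hne).abs.eventually (Iic_mem_nhds ?_)).and
        (((((c.continuous_σ.continuousAt.inv₀ hne).smul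
          (continuousAt_id.sub (c.continuous_σ.continuousAt.smul continuousAt_const))).sub
          ((c.continuousAt_slope hne).smul continuousAt_const)).norm).eventually
            (Iic_mem_nhds ?_))
      · simp [s0, hε]
      · simp [hσs, s0, hε]
    have hV : ∀ᶠ θ' in 𝓝 θ, H.M θ' θ' θ' < 0 ∧ ‖θ' - θ‖ ≤ 1 ∧
        ∀ i j, |Chart.curv (H := H) θ' (Pi.single i 1) (Pi.single j 1)| ≤ K := by
      refine ((H.continuous_M continuous_id continuous_id continuous_id).continuousAt.eventually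
        (gt_mem_nhds h4)).and (Filter.Eventually.and ?_ ?_)
      · filter_upwards [Metric.closedBall_mem_nhds θ one_pos] with z hz
        simpa [dist_eq_norm] using hz
      · rw [eventually_all]
        intro i
        rw [eventually_all]
        intro j
        have hcont : ContinuousAt
            (fun z => |Chart.curv (H := H) z (Pi.single i 1) (Pi.single j 1)|) θ := by
          simp only [Chart.curv_apply]
          have g1 := ((H.continuous_M continuous_id (continuous_const (y := (Pi.single i 1 : Vec n)))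
            (continuous_const (y := (Pi.single j 1 : Vec n)))).const_mul (-3 : ℝ))
          have g2 := fun k => ((H.continuous_M continuous_id continuous_id
            (continuous_const (y := (Pi.single k 1 : Vec n)))).const_mul (-3 : ℝ))
          exact (g1.continuousAt.sub (((g2 i).mul (g2 j)).continuousAt.div
            ((H.continuous_M continuous_id continuous_id continuous_id).neg.const_mul
              (4 : ℝ)).continuousAt (by
                show (4 : ℝ) * -H.M θ θ θ ≠ 0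
                linarith))).abs
        refine hcont.eventually (Iic_mem_nhds ?_)
        have k1 := Finset.single_le_sum
          (f := fun j => |Chart.curv (H := H) θ (Pi.single i 1) (Pi.single j 1)|)
          (fun _ _ => abs_nonneg _) (Finset.mem_univ j)
        have k2 := Finset.single_le_sum
          (f := fun i => ∑ j, |Chart.curv (H := H) θ (Pi.single i 1) (Pi.single j 1)|)
          (fun _ _ => Finset.sum_nonneg fun _ _ => abs_nonneg _) (Finset.mem_univ i)
        rw [hK]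
        linarith
    refine ⟨_, hU, _, hV, hcell _ _ ε 1 hε.le zero_le_one (by simp) ?_ ?_⟩
    · rintro a ⟨⟨k1, k2⟩, hab⟩
      have hσa : c.σ a = 1 := hab.2.1
      refine ⟨hab.1, hab.2.2, by rw [hσa]; exact one_pos, by rwa [sub_zero], ?_,
        (le_abs_self _).trans k1⟩
      rw [c.slope_smul_dir hP hN hab.1 (by rw [hσa]; exact one_ne_zero)]
      exact k2
    · rintro x ⟨hxs, k1, k2, k3⟩
      have hℓ := c.smooth_ℓ_pos hP hN hxs
      have hℓ0 : (H.baseChart s hs).ℓ x ≠ 0 := ((H.baseChart s hs).smooth_ℓ_pos hP hN hxs).ne'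
      have e : c.dir x = (H.baseChart s hs).dir x := by
        rw [c.dir_of_ne hℓ.ne', (H.baseChart s hs).dir_of_ne hℓ0]; rfl
      rw [e]
      refine ⟨hxs.1.1, hxs.1.2.2, ?_, hℓ, neg_pos.2 k1, k2, k3, fun v hv1 hv2 => ?_⟩
      · have : c.σ x = 1 := hxs.1.2.1
        rw [this]; exact one_pos
      · have := hA v hv1 hv2
        simpa using this
  · -- an edge
    obtain ⟨hn, hb⟩ := H.second_end hP hs h1 h2 h5 h4
    set t := -2 / H.M H.e θ θ with ht
    set b := s + t • θ with hbdef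
    have htpos : 0 < t := div_pos_of_neg_of_neg (by norm_num) hn
    have hsb : H.M s H.e b = t := by simp [hbdef, hs.self_e, h2]
    have hpos : 0 < H.M s H.e b := by rw [hsb]; exact htpos
    set c := H.edgeChart s b hs hb hpos with hc
    obtain ⟨hθs, hΦ⟩ := H.edge_phi hN hs hb hpos
    obtain ⟨ε, hε, hcell⟩ := c.edge_cell hP hN hθs hΦ le_rfl
    have hσs : c.σ s = 1 := c.σ_s
    have hℓs : c.ℓ s = 0 := c.ℓ_s
    have hU : ∀ᶠ a in 𝓝 s, 0 < c.σ a ∧ |c.slope a - 0| ≤ ε ∧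
        ‖(c.σ a)⁻¹ • (a - c.σ a • s) - c.slope a • c.θs‖ ≤ ε := by
      have hne : c.σ s ≠ 0 := by rw [hσs]; exact one_ne_zero
      have s0 : c.slope s = 0 := by rw [Chart.slope, hℓs, zero_div]
      refine (c.continuous_σ.continuousAt.eventually (lt_mem_nhds (by rw [hσs]; exact one_pos))).and
        ((((c.continuousAt_slope hne).sub continuousAt_const).abs.eventually (Iic_mem_nhds ?_)).and
        (((((c.continuous_σ.continuousAt.inv₀ hne).smul
          (continuousAt_id.sub (c.continuous_σ.continuousAt.smul continuousAt_const))).sub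
          ((c.continuousAt_slope hne).smul continuousAt_const)).norm).eventually
            (Iic_mem_nhds ?_)))
      · simp [s0, hε]
      · simp [hσs, s0, hε]
    have hV : ∀ᶠ θ' in 𝓝 θ, ‖θ' - c.σ θ' • s - c.θs‖ ≤ ε := by
      have hcont : Continuous (fun z => ‖z - c.σ z • s - c.θs‖) :=
        ((continuous_id.sub (c.continuous_σ.smul continuous_const)).sub continuous_const).norm
      refine hcont.continuousAt.eventually (Iic_mem_nhds ?_)
      have hb1 : H.M b H.e θ = -1 := by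
        rw [hbdef]
        simp only [map_add, map_smul, LinearMap.add_apply, LinearMap.smul_apply, smul_eq_mul, h2]
        rw [H.swap₁₂ θ H.e θ, ht, div_mul_cancel₀ _ hn.ne]
        norm_num
      have e : c.σ θ = -t⁻¹ := by
        show ((H.M s H.e b)⁻¹ • H.M b H.e) θ = _
        rw [LinearMap.smul_apply, smul_eq_mul, hb1, hsb]
        ring
      beta_reduce
      rw [e, show c.θs = (H.M s H.e b)⁻¹ • b from rfl, hsb, hbdef, smul_add, smul_smul,
        inv_mul_cancel₀ htpos.ne', one_smul, neg_smul, sub_neg_eq_add, add_comm θ (t⁻¹ • s),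
        sub_self, norm_zero]
      exact hε
    refine ⟨_, hU, _, hV, sosOn_mono hcell ?_ ?_⟩
    · rintro a ⟨⟨k1, k2, k3⟩, hab⟩
      refine ⟨hab, k1, k2, ?_⟩
      rw [c.slope_smul_dir hP hN hab.1 k1.ne']
      exact k3
    · rintro x ⟨hxs, k1⟩
      refine ⟨hxs, H.edge_σ_pos hP hN hs hb hpos hxs, ?_⟩
      rw [(H.baseChart s hs).dir_change c rfl
        ((H.baseChart s hs).smooth_ℓ_pos hP hN hxs).ne']
      exact k1

/-- Pairs near a smooth first point and a singular second point. -/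
lemma singular_cell (hP : H.Pointed) (hN : H.Nodal) {a₀ s : Vec n} (ha : a₀ ∈ H.smoothPts)
    (hs : H.Sing s) :
    ∃ U ∈ 𝓝 a₀, ∃ V ∈ 𝓝 s,
      SOSOn (U ∩ H.bdry) (V ∩ H.smoothPts) (fun a x => H.M a x x) := by
  obtain ⟨C, hC, hmap, hprop⟩ := H.link_compact hP hN hs
  set c₀ := H.baseChart s hs with hc₀
  refine sosOn_of_local_pair hC c₀.dir hmap fun θ hθ => ?_
  obtain ⟨h1, h2, h3, -⟩ := hprop θ hθ
  have hla := c₀.smooth_ℓ_pos hP hN ha
  set la := c₀.ℓ a₀ with hla'
  set θa := c₀.dir a₀ with hθa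
  have ea : a₀ = s + la • θa := by
    have e := c₀.eq_dir hP hN ha.1.1
    have h : c₀.σ a₀ = 1 := ha.1.2.1
    rw [h, one_smul] at e
    exact e
  have hAa : 0 ≤ H.M s θa θa := c₀.A_dir_nonneg hP hN ha.1.1 hla
  have hdiff : c₀.σ (θa - θ) = 0 ∧ c₀.ℓ (θa - θ) = 0 := by
    constructor
    · have : c₀.σ θ = 0 := h1
      rw [map_sub, hθa, c₀.σ_dir, this, sub_zero]
    · have : c₀.ℓ θ = 1 := h2
      rw [map_sub, hθa, c₀.ℓ_dir, this, sub_self]
  have hneg : H.M s (θa - θ) (θa - θ) ≤ 0 := c₀.neg_A hdiff.2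
  have hexp : H.M s (θa - θ) (θa - θ) = H.M s θa θa - 2 * H.M s θa θ + H.M s θ θ := by
    simp only [map_sub, LinearMap.sub_apply, H.swap₂₃ s θ θa]; ring
  have hval : H.M a₀ s θ = la * H.M s θa θ := by
    rw [ea]
    simp only [map_add, map_smul, LinearMap.add_apply, LinearMap.smul_apply, smul_eq_mul,
      H.swap₁₂ θa s θ]
    rw [← H.rot θ s s, H.singular_zero hs.1 hs.2.2]
    ring
  by_cases hzero : H.M s θa θ = 0
  · have z1 : H.M s θa θa = 0 := by linarith
    have z3 : θa = θ := by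
      by_contra hne
      have := c₀.A_pos hN hdiff.1 hdiff.2 (sub_ne_zero.2 hne)
      rw [show c₀.s = s from rfl] at this
      linarith
    have z4 : H.M θ θ θ = 0 := by
      have hp := ha.1.2.2
      rw [ea, H.cube_add, H.singular_zero hs.1 hs.2.2, H.singular_zero hs.1 hs.2.2, z1, z3] at hp
      have : la ^ 3 * H.M θ θ θ = 0 := by linarith
      exact (mul_eq_zero.1 this).resolve_left (pow_ne_zero 3 hla.ne')
    obtain ⟨hn, hb⟩ := H.second_end hP hs h1 h2 (z3 ▸ z1) z4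
    set t := -2 / H.M H.e θ θ with ht
    have htpos : 0 < t := div_pos_of_neg_of_neg (by norm_num) hn
    have hlt : la < t := by
      have hb0 := ha.2
      rw [ea, z3, H.sq_add, hs.2.2, H.swap₁₂ H.e s θ, h2] at hb0
      rw [ht, lt_div_iff_of_neg hn]
      nlinarith
    have hne : s ≠ s + t • θ := by
      intro h
      have : t • θ = 0 := left_eq_add.1 h
      rcases smul_eq_zero.1 this with h' | h'
      · linarith
      · rw [h'] at h2; simp at h2
    obtain ⟨U, hU, V, hV, hUV⟩ := H.edge_any hP hN hs hb hne (μ := la / t) (ν := 0)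
      (by rw [div_lt_one htpos]; exact hlt) (div_pos hla htpos) le_rfl
    have e1 : (1 - la / t) • s + (la / t) • (s + t • θ) = a₀ := by
      rw [ea, z3, smul_add, smul_smul, div_mul_cancel₀ _ htpos.ne']
      module
    have e2 : (1 - (0 : ℝ)) • s + (0 : ℝ) • (s + t • θ) = s := by simp
    rw [e1] at hU
    rw [e2] at hV
    exact ⟨U, hU, V, hV, Set.univ, univ_mem,
      sosOn_mono hUV Set.Subset.rfl Set.inter_subset_left⟩
  · -- positive to first order
    have hpos : 0 < H.M a₀ s θ := by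
      rw [hval]
      refine mul_pos hla (lt_of_le_of_ne ?_ (Ne.symm hzero))
      linarith
    set v := H.M a₀ s θ with hv
    set S := ‖θ‖ + 1 with hS
    set D : ℝ := n * (2 * (H.bound * ‖s‖ * S)) + n * ((‖a₀‖ + 1) * (H.bound * S * S)) + 1 with hD
    have hBp := H.bound_pos
    have hSpos : 0 < S := by rw [hS]; positivity
    have hDpos : 0 < D := by rw [hD]; positivity
    set ε := min 1 (v / D) with hε
    have hεpos : 0 < ε := lt_min one_pos (div_pos hpos hDpos)
    have hU : ∀ᶠ a in 𝓝 a₀, ‖a - a₀‖ ≤ ε := by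
      filter_upwards [Metric.closedBall_mem_nhds a₀ hεpos] with z hz
      simpa [dist_eq_norm] using hz
    have hW : ∀ᶠ x in 𝓝 s, |c₀.ℓ x| ≤ ε := by
      refine c₀.continuous_ℓ.abs.continuousAt.eventually (Iic_mem_nhds ?_)
      beta_reduce
      rw [show c₀.ℓ s = 0 from c₀.ℓ_s, abs_zero]
      exact hεpos
    have hV : ∀ᶠ z in 𝓝 θ, ‖z - θ‖ ≤ 1 ∧ v / 2 ≤ H.M a₀ s z := by
      refine Filter.Eventually.and ?_ ?_
      · filter_upwards [Metric.closedBall_mem_nhds θ one_pos] with z hz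
        simpa [dist_eq_norm] using hz
      · exact (H.continuous_M continuous_const continuous_const continuous_id).continuousAt.eventually
          (Ici_mem_nhds (by show v / 2 < v; linarith))
    refine ⟨_, hU, _, hW, _, hV, ?_⟩
    set A' := {a | ‖a - a₀‖ ≤ ε} ∩ H.bdry
    set X' := {x | |c₀.ℓ x| ≤ ε} ∩ H.smoothPts ∩
      c₀.dir ⁻¹' {z | ‖z - θ‖ ≤ 1 ∧ v / 2 ≤ H.M a₀ s z}
    have hz : ∀ x ∈ X', ‖c₀.dir x‖ ≤ S := fun x hx => by
      have := norm_add_le (c₀.dir x - θ) θ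
      rw [sub_add_cancel] at this
      linarith [hx.2.1]
    have hk : ∀ (x : Vec n) (k : Fin n), |H.M (Pi.single k 1) s x| ≤ H.bound * ‖s‖ * ‖x‖ := by
      intro x k
      refine (H.abs_M_le _ _ _).trans ?_
      calc H.bound * ‖(Pi.single k 1 : Vec n)‖ * ‖s‖ * ‖x‖ ≤ H.bound * 1 * ‖s‖ * ‖x‖ := by
            gcongr; apply single_norm_le
        _ = _ := by ring
    have T1 : Bdd A' X' (∑ _k : Fin n, ε * (2 * (H.bound * ‖s‖ * S)))
        (fun a x => ∑ k, (a - a₀) k * (2 * H.M (Pi.single k 1) s (c₀.dir x))) := by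
      refine bdd_fintype _ _ _ _ (fun _ => hεpos.le) (fun _ => by positivity) (fun a ha k => ?_)
        (fun x hx k => ?_)
      · have h := norm_le_pi_norm (a - a₀) k
        rw [Real.norm_eq_abs] at h
        exact h.trans ha.1
      · rw [abs_mul, abs_two]
        gcongr
        refine (hk _ _).trans ?_
        gcongr
        exact hz x hx
    have T2 : Bdd A' X' (∑ _k : Fin n, (‖a₀‖ + 1) * (ε * (H.bound * S * S)))
        (fun a x => ∑ k, a k * (c₀.ℓ x * H.M (Pi.single k 1) (c₀.dir x) (c₀.dir x))) := by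
      refine bdd_fintype _ _ _ _ (fun _ => by positivity) (fun _ => by positivity)
        (fun a ha k => ?_) (fun x hx k => ?_)
      · have h := norm_le_pi_norm a k
        rw [Real.norm_eq_abs] at h
        have := norm_add_le (a - a₀) a₀
        rw [sub_add_cancel] at this
        linarith [ha.1.trans (min_le_left 1 (v / D))]
      · rw [abs_mul]
        refine mul_le_mul hx.1.1 ((H.abs_M_le _ _ _).trans ?_) (abs_nonneg _) hεpos.le
        calc H.bound * ‖(Pi.single k 1 : Vec n)‖ * ‖c₀.dir x‖ * ‖c₀.dir x‖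
            ≤ H.bound * 1 * S * S := by
              gcongr
              · apply single_norm_le
              · exact hz x hx
              · exact hz x hx
          _ = _ := by ring
    have hT := (T1.add T2).mono (ε' := v) (by
      simp only [Finset.sum_const, Finset.card_univ, Fintype.card_fin, nsmul_eq_mul]
      have h := min_le_right (1 : ℝ) (v / D)
      rw [← hε, le_div_iff₀ hDpos] at h
      rw [hD] at h
      linarith)
    refine sosOn_congr ((sosOn_prod (fun _ => (1 : ℝ)) (fun x => c₀.ℓ x)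
      (fun _ _ => zero_le_one) (fun x hx => (c₀.smooth_ℓ_pos hP hN hx.1.2).le)).mul
      (sosOn_scalar (fun x => 2 * H.M a₀ s (c₀.dir x)) _ (fun x hx => by linarith [hx.2.2]) hT))
      fun a _ x hx => ?_
    have e := c₀.eq_dir hP hN hx.1.2.1.1
    have h : c₀.σ x = 1 := hx.1.2.1.2.1
    rw [h, one_smul] at e
    have l1 : ∑ k, (a - a₀) k * (2 * H.M (Pi.single k 1) s (c₀.dir x)) =
        2 * H.M (a - a₀) s (c₀.dir x) := by
      rw [show H.M (a - a₀) s (c₀.dir x) = (H.M.flip s).flip (c₀.dir x) (a - a₀) from rfl,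
        lin_eq_sum _ (a - a₀), Finset.mul_sum]
      refine Finset.sum_congr rfl fun k _ => ?_
      show _ = 2 * ((a - a₀) k * H.M (Pi.single k 1) s (c₀.dir x))
      ring
    have l2 : ∑ k, a k * (c₀.ℓ x * H.M (Pi.single k 1) (c₀.dir x) (c₀.dir x)) =
        c₀.ℓ x * H.M a (c₀.dir x) (c₀.dir x) := by
      rw [show H.M a (c₀.dir x) (c₀.dir x) = (H.M.flip (c₀.dir x)).flip (c₀.dir x) a from rfl,
        lin_eq_sum _ a, Finset.mul_sum]
      refine Finset.sum_congr rfl fun k _ => ?_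
      show _ = c₀.ℓ x * (a k * H.M (Pi.single k 1) (c₀.dir x) (c₀.dir x))
      ring
    rw [l1, l2]
    conv_lhs => rw [e]
    rw [H.sq_add, show c₀.s = s from rfl, H.singular_zero hs.1 hs.2.2]
    simp only [map_sub, LinearMap.sub_apply]
    ring

/-- The tangent kernel on the whole normalised boundary is a finite sum of squares. -/
theorem sosOn_bdry (hP : H.Pointed) (hN : H.Nodal) :
    SOSOn H.bdry H.smoothPts (fun a x => H.M a x x) := by
  refine sosOn_of_local (H.isCompact_bdry hP) (H.isCompact_bdry hP) Set.Subset.rfl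
    H.smoothPts_subset fun a₀ ha x₀ hx => ?_
  by_cases hab : H.M H.e a₀ a₀ = 0
  · obtain ⟨U, hU, hS⟩ := H.apex_cell hP hN ⟨ha.1, ha.2.1, hab⟩
    exact ⟨U, hU, Set.univ, univ_mem, sosOn_mono hS Set.Subset.rfl Set.inter_subset_right⟩
  have has : a₀ ∈ H.smoothPts := ⟨ha, lt_of_le_of_ne ha.1.2.1 (Ne.symm hab)⟩
  by_cases hxb : H.M H.e x₀ x₀ = 0
  · exact H.singular_cell hP hN has ⟨hx.1, hx.2.1, hxb⟩
  have hxs : x₀ ∈ H.smoothPts := ⟨hx, lt_of_le_of_ne hx.1.2.1 (Ne.symm hxb)⟩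
  rcases eq_or_lt_of_le (H.psi_nonneg ha.1 hx.1) with hz | hz
  swap
  · have hnice : NiceAt a₀ x₀ (fun a x => H.M a x x) := by
      refine niceAt_congr (niceAt_fintype (fun (k : Fin n) a => a k)
        (fun k x => H.M (Pi.single k 1) x x) (fun k => (continuous_apply k).continuousAt)
        (fun k => (H.continuous_M continuous_const continuous_id continuous_id).continuousAt))
        fun a x => ?_
      rw [show H.M a x x = (H.M.flip x).flip x a from rfl, lin_eq_sum _ a]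
      rfl
    obtain ⟨U, hU, V, hV, hS⟩ := hnice.sos_of_pos hz
    exact ⟨U, hU, V, hV, sosOn_mono hS Set.inter_subset_left Set.inter_subset_left⟩
  have viaEdge : ∀ w, w ≠ 0 → H.M H.e H.e w = 0 → H.M w x₀ x₀ = 0 → H.M x₀ w w = 0 →
      ∀ r : ℝ, a₀ = x₀ + r • w → ∃ U ∈ 𝓝 a₀, ∃ V ∈ 𝓝 x₀,
        SOSOn (U ∩ H.bdry) (V ∩ H.smoothPts) (fun a x => H.M a x x) := by
    intro w hw0 hw1 hw2 hw3 r hr
    obtain ⟨t₁, t₂, n1, n2, S1, S2, hint⟩ :=
      H.edge hP hx.1 hx.2.1 hx.2.2 hxs.2 hw0 hw1 hw2 hw3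
    obtain ⟨-, -, hstrict⟩ := hint r (by rw [← hr]; exact ha.1)
    obtain ⟨r1, r2⟩ := hstrict (by rw [← hr]; exact has.2)
    have hd : 0 < t₂ - t₁ := by linarith
    have hne : x₀ + t₁ • w ≠ x₀ + t₂ • w := by
      intro h
      have : (t₂ - t₁) • w = 0 := by rw [sub_smul, sub_eq_zero]; exact (add_left_cancel h).symm
      exact hw0 ((smul_eq_zero.1 this).resolve_left hd.ne')
    obtain ⟨U, hU, V, hV, hUV⟩ := H.edge_any hP hN S1 S2 hne
      (μ := (r - t₁) / (t₂ - t₁)) (ν := -t₁ / (t₂ - t₁))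
      (by rw [div_lt_one hd]; linarith) (div_pos (by linarith) hd)
      (div_nonneg (by linarith) hd.le)
    have conv : ∀ q : ℝ, (1 - (q - t₁) / (t₂ - t₁)) • (x₀ + t₁ • w) +
        ((q - t₁) / (t₂ - t₁)) • (x₀ + t₂ • w) = x₀ + q • w := fun q => by
      match_scalars <;> field_simp <;> ring
    have e1 := conv r
    have e2 := conv 0
    rw [zero_sub, zero_smul, add_zero] at e2
    rw [e1, ← hr] at hU
    rw [e2] at hV
    exact ⟨U, hU, V, hV, hUV⟩
  by_cases hax : a₀ = x₀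
  · subst hax
    by_cases hflat : ∀ w, H.M H.e H.e w = 0 → H.M w a₀ a₀ = 0 → H.M a₀ w w = 0 → w = 0
    · obtain ⟨U, hU, hS⟩ := H.strict_cell hP hxs hflat
      exact ⟨U, hU, U, hU, hS⟩
    · push Not at hflat
      obtain ⟨w, w1, w2, w3, w0⟩ := hflat
      exact viaEdge w w0 w1 w2 w3 0 (by simp)
  · have hfz := H.flat_of_zero hP ha.1 hx.1 ha.2.2 hx.2.2 hxs.2 hz.symm
    refine viaEdge (a₀ - x₀) (sub_ne_zero.2 hax) (by simp [ha.2.1, hx.2.1])
      (by simp [← hz, hx.2.2]) ?_ 1 (by simp)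
    simp only [map_sub, LinearMap.sub_apply, hx.2.2, hfz]
    rw [← H.rot a₀ x₀ x₀, ← H.swap₁₂ a₀ x₀ x₀, ← hz]
    ring

end HCubic

end Vale.Agent.P256
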