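import Vale.Agent.P256.Defs
import Vale.Agent.P256.Local

namespace Vale.Agent.P256

open scoped BigOperators MatrixOrder

variable {n : ℕ}

lemma posSemidef_blockDiag {ι κ : Type*} [Fintype ι] [Fintype κ] (A : Matrix ι ι ℝ)
    (D : Matrix κ κ ℝ) :
    (Matrix.fromBlocks A 0 0 D).PosSemidef ↔ A.PosSemidef ∧ D.PosSemidef := by
  constructor
  · intro h
    have e1 : (Matrix.fromBlocks A 0 0 D).submatrix Sum.inl Sum.inl = A := by ext; rfl
    have e2 : (Matrix.fromBlocks A 0 0 D).submatrix Sum.inr Sum.inr = D := by ext; rfl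
    exact ⟨e1 ▸ h.submatrix (Sum.inl : ι → ι ⊕ κ), e2 ▸ h.submatrix (Sum.inr : κ → ι ⊕ κ)⟩
  · rintro ⟨hA, hD⟩
    refine Matrix.PosSemidef.of_dotProduct_mulVec_nonneg ?_ fun v => ?_
    · exact Matrix.IsHermitian.fromBlocks hA.1 (by simp) hD.1
    · have h1 := hA.dotProduct_mulVec_nonneg (v ∘ Sum.inl)
      have h2 := hD.dotProduct_mulVec_nonneg (v ∘ Sum.inr)
      rw [← Sum.elim_comp_inl_inr v, Matrix.fromBlocks_mulVec]
      simp only [star_trivial, dotProduct, Fintype.sum_sum_type, Sum.elim_inl, Sum.elim_inr,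
        Matrix.zero_mulVec, add_zero, zero_add, Function.comp_apply] at *
      exact add_nonneg h1 h2

/-- A linear matrix inequality with symmetric values describes a shadow. -/
lemma shadow_of_lmi {ι κ : Type*} [Fintype ι] [Fintype κ] [DecidableEq κ]
    (L₁ : Vec n →ₗ[ℝ] Matrix ι ι ℝ) (L₂ : (κ → ℝ) →ₗ[ℝ] Matrix ι ι ℝ)
    (h₁ : ∀ x, (L₁ x).IsSymm) (h₂ : ∀ u, (L₂ u).IsSymm) {K : Set (Vec n)}
    (hK : ∀ x, x ∈ K ↔ ∃ u, (L₁ x + L₂ u).PosSemidef) : IsSpectrahedralShadow K := by
  classical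
  set eι := Fintype.equivFin ι
  set eκ := Fintype.equivFin κ
  refine ⟨Fintype.card ι, Fintype.card κ, 0,
    fun i => (L₁ (Pi.single i 1)).submatrix eι.symm eι.symm,
    fun j => (L₂ (Pi.single (eκ.symm j) 1)).submatrix eι.symm eι.symm,
    Matrix.isSymm_zero, fun i => (h₁ _).submatrix _, fun j => (h₂ _).submatrix _, ?_⟩
  have key : ∀ x (u : κ → ℝ), (0 : Matrix (Fin (Fintype.card ι)) (Fin (Fintype.card ι)) ℝ) +
      ∑ i, x i • (L₁ (Pi.single i 1)).submatrix eι.symm eι.symm +
      ∑ j, u (eκ.symm j) • (L₂ (Pi.single (eκ.symm j) 1)).submatrix eι.symm eι.symm =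
      (L₁ x + L₂ u).submatrix eι.symm eι.symm := by
    intro x u
    rw [eκ.symm.sum_comp (fun k => u k • (L₂ (Pi.single k 1)).submatrix eι.symm eι.symm)]
    conv_rhs => rw [pi_eq_sum_univ' x, pi_eq_sum_univ' u, map_sum, map_sum]
    simp only [map_smul]
    ext a b
    simp [Matrix.sum_apply]
  ext x
  rw [hK, Set.mem_ofPred_eq]
  constructor
  · rintro ⟨u, hu⟩
    exact ⟨fun j => u (eκ.symm j), by rw [key]; exact hu.submatrix _⟩
  · rintro ⟨v, hv⟩
    have hvu : v = fun j => (fun k => v (eκ k)) (eκ.symm j) := by funext j; simp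
    rw [hvu, key x (fun k => v (eκ k)), Matrix.posSemidef_submatrix_equiv] at hv
    exact ⟨_, hv⟩

/-- The preimage of a shadow under a linear map is a shadow. -/
lemma IsSpectrahedralShadow.preimage {m : ℕ} (f : Vec n →ₗ[ℝ] Vec m) {K : Set (Vec m)}
    (hK : IsSpectrahedralShadow K) : IsSpectrahedralShadow (f ⁻¹' K) := by
  obtain ⟨N, a, A₀, A, B, h0, hA, hB, rfl⟩ := hK
  refine ⟨N, a, A₀, fun i => ∑ k, f (Pi.single i 1) k • A k, B, h0,
    fun i => ?_, hB, ?_⟩
  · refine Matrix.IsSymm.ext fun r c => ?_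
    simp [Matrix.sum_apply, (hA _).apply]
  · ext x
    have e : ∀ k, f x k = ∑ i, x i * f (Pi.single i 1) k := fun k =>
      lin_eq_sum ((LinearMap.proj k).comp f) x
    have : ∑ k, f x k • A k = ∑ i, x i • ∑ k, f (Pi.single i 1) k • A k := by
      simp_rw [Finset.smul_sum, smul_smul, e, Finset.sum_smul]
      exact Finset.sum_comm
    simp only [Set.mem_preimage, Set.mem_ofPred_eq, this]

/-- From sums of squares to positive semidefinite factors. -/
lemma exists_psd_factor {α β : Type*} {A : Set α} {B : Set β} {S : α → β → ℝ}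
    (h : SOSOn A B S) : ∃ (r : ℕ) (U : α → Matrix (Fin r) (Fin r) ℝ)
      (V : β → Matrix (Fin r) (Fin r) ℝ), (∀ a, (U a).PosSemidef) ∧ (∀ b, (V b).PosSemidef) ∧
      ∀ a ∈ A, ∀ b ∈ B, S a b = ∑ i, ∑ j, U a i j * V b i j := by
  classical
  obtain ⟨N, G, hG, hS⟩ := h
  choose r f g hfg using hG
  let ι := Σ k : Fin N, Fin (r k)
  let eι := Fintype.equivFin ι
  let F : Fin N → α → Fin (Fintype.card ι) → ℝ := fun k a p =>
    if (eι.symm p).1 = k then f (eι.symm p).1 (eι.symm p).2 a else 0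
  let G' : Fin N → β → Fin (Fintype.card ι) → ℝ := fun k b p =>
    if (eι.symm p).1 = k then g (eι.symm p).1 (eι.symm p).2 b else 0
  refine ⟨Fintype.card ι, fun a => ∑ k, Matrix.vecMulVec (F k a) (F k a),
    fun b => ∑ k, Matrix.vecMulVec (G' k b) (G' k b), fun a => ?_, fun b => ?_, fun a ha b hb => ?_⟩
  · exact Matrix.posSemidef_sum _ fun k _ => by
      simpa using Matrix.posSemidef_vecMulVec_self_star (F k a)
  · exact Matrix.posSemidef_sum _ fun k _ => by
      simpa using Matrix.posSemidef_vecMulVec_self_star (G' k b)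
  have inner : ∀ k l, ∑ p, F k a p * G' l b p = if k = l then G k a b else 0 := by
    intro k l
    simp only [F, G']
    rw [eι.symm.sum_comp (fun q : ι => (if q.1 = k then f q.1 q.2 a else 0) *
      (if q.1 = l then g q.1 q.2 b else 0)), Fintype.sum_sigma]
    dsimp only
    rw [Finset.sum_eq_single k (fun m _ hm => by simp [hm]) (by simp)]
    by_cases hkl : k = l
    · subst hkl; simp [hfg]
    · simp [hkl]
  have step : ∑ i, ∑ j, (∑ k, Matrix.vecMulVec (F k a) (F k a)) i j *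
      (∑ k, Matrix.vecMulVec (G' k b) (G' k b)) i j =
      ∑ k, ∑ l, (∑ p, F k a p * G' l b p) ^ 2 := by
    simp only [Matrix.sum_apply, Matrix.vecMulVec_apply, sq, Finset.sum_mul_sum]
    rw [eq_comm, Finset.sum_comm_cycle]
    refine Finset.sum_congr rfl fun i _ => ?_
    rw [Finset.sum_comm_cycle]
    exact Finset.sum_congr rfl fun j _ => Finset.sum_congr rfl fun k _ =>
      Finset.sum_congr rfl fun l _ => by ring
  rw [step, hS a ha b hb]
  refine Finset.sum_congr rfl fun k _ => ?_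
  rw [Finset.sum_eq_single k (fun l _ hl => by simp [inner, Ne.symm hl]) (by simp), inner,
    if_pos rfl]

namespace HCubic

variable (H : HCubic n)

/-- The bilinear form of the Lorentz cone `M(e,e,·) ≥ 0, M(e,·,·) ≥ 0`. -/
def lorentz : Vec n →ₗ[ℝ] Vec n →ₗ[ℝ] ℝ :=
  (H.M H.e H.e).smulRight (H.M H.e H.e) - H.M H.e

lemma lorentz_apply (u v : Vec n) :
    H.lorentz u v = H.M H.e H.e u * H.M H.e H.e v - H.M H.e u v := by
  simp [lorentz]

lemma exists_sqrt : ∃ R : Matrix (Fin n) (Fin n) ℝ,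
    ∀ x, ∑ k, (R.mulVec x) k ^ 2 = H.M H.e H.e x ^ 2 - H.M H.e x x := by
  classical
  set S : Matrix (Fin n) (Fin n) ℝ := Matrix.of fun i j => H.lorentz (Pi.single i 1) (Pi.single j 1) with hS
  have hq : ∀ x, ∑ i, ∑ j, S i j * x i * x j = H.M H.e H.e x ^ 2 - H.M H.e x x := fun x => by
    simp only [hS, Matrix.of_apply]
    rw [← bilin_eq_sum, lorentz_apply]; ring
  have hpsd : S.PosSemidef := by
    refine Matrix.PosSemidef.of_dotProduct_mulVec_nonneg ?_ fun x => ?_
    · rw [Matrix.IsHermitian, Matrix.conjTranspose_eq_transpose_of_trivial]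
      ext i j
      simp only [Matrix.transpose_apply, hS, Matrix.of_apply, lorentz_apply]
      rw [H.swap₂₃ H.e (Pi.single j 1) (Pi.single i 1)]; ring
    · simp only [star_trivial, dotProduct, Matrix.mulVec, Finset.mul_sum]
      have e : ∑ i, ∑ j, x i * (S i j * x j) = ∑ i, ∑ j, S i j * x i * x j :=
        Finset.sum_congr rfl fun i _ => Finset.sum_congr rfl fun j _ => by ring
      rw [e, hq]
      linarith [H.b_le_sq x]
  obtain ⟨R, hR⟩ := CStarAlgebra.nonneg_iff_eq_star_mul_self.1 hpsd.nonneg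
  refine ⟨R, fun x => ?_⟩
  rw [← hq, hR]
  have e : ∀ k, (R.mulVec x) k ^ 2 = ∑ i, ∑ j, (R k i * x i) * (R k j * x j) := fun k => by
    rw [sq, Matrix.mulVec, dotProduct, Finset.sum_mul_sum]
  simp only [e, Matrix.mul_apply, Matrix.star_apply, star_trivial, Finset.sum_mul]
  rw [Finset.sum_comm]
  refine Finset.sum_congr rfl fun i _ => ?_
  rw [Finset.sum_comm]
  exact Finset.sum_congr rfl fun j _ => Finset.sum_congr rfl fun k _ => by ring

end HCubic

/-- The arrow matrix. -/
def arrow (a : ℝ) (v : Vec n) : Matrix (Unit ⊕ Fin n) (Unit ⊕ Fin n) ℝ :=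
  Matrix.fromBlocks (Matrix.of fun _ _ => a) (Matrix.of fun _ j => v j) (Matrix.of fun i _ => v i) (a • 1)

lemma arrow_isSymm (a : ℝ) (v : Vec n) : (arrow a v).IsSymm :=
  Matrix.IsSymm.fromBlocks (Matrix.IsSymm.ext fun _ _ => rfl) rfl (Matrix.isSymm_one.smul a)

lemma arrow_form (a : ℝ) (v : Vec n) (ξ : Unit ⊕ Fin n → ℝ) :
    dotProduct ξ ((arrow a v).mulVec ξ) = a * ξ (Sum.inl ()) ^ 2 +
      2 * ξ (Sum.inl ()) * ∑ i, v i * ξ (Sum.inr i) + a * ∑ i, ξ (Sum.inr i) ^ 2 := by
  simp only [dotProduct, Matrix.mulVec, Fintype.sum_sum_type, arrow, Matrix.fromBlocks_apply₁₁,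
    Matrix.fromBlocks_apply₁₂, Matrix.fromBlocks_apply₂₁, Matrix.fromBlocks_apply₂₂, Matrix.of_apply,
    Finset.univ_unique, Finset.sum_singleton, Matrix.smul_apply, Matrix.one_apply, smul_eq_mul,
    mul_ite, mul_one, mul_zero, ite_mul, zero_mul, Finset.sum_ite_eq, Finset.mem_univ, if_true,
    mul_add, Finset.sum_add_distrib, Finset.mul_sum]
  have e1 : ∑ x, ξ (Sum.inr x) * (a * ξ (Sum.inr x)) = ∑ x, a * ξ (Sum.inr x) ^ 2 :=
    Finset.sum_congr rfl fun x _ => by ring
  have e2 : ∑ x, ξ (Sum.inr x) * (v x * ξ (Sum.inl ())) =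
      ∑ x, ξ (Sum.inl ()) * (v x * ξ (Sum.inr x)) :=
    Finset.sum_congr rfl fun x _ => by ring
  have e3 : ∑ x, 2 * ξ (Sum.inl ()) * (v x * ξ (Sum.inr x)) =
      2 * ∑ x, ξ (Sum.inl ()) * (v x * ξ (Sum.inr x)) := by
    rw [Finset.mul_sum]; exact Finset.sum_congr rfl fun x _ => by ring
  rw [show (default : Unit) = () from rfl, e1, e2, e3]
  ring

lemma arrow_psd (a : ℝ) (v : Vec n) :
    (arrow a v).PosSemidef ↔ 0 ≤ a ∧ ∑ i, v i ^ 2 ≤ a ^ 2 := by
  constructor
  · intro h
    have h0 := h.dotProduct_mulVec_nonneg (Sum.elim (fun _ => (1 : ℝ)) (fun _ => 0))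
    simp [arrow_form] at h0
    refine ⟨h0, ?_⟩
    rcases eq_or_lt_of_le h0 with ha | ha
    · have h1 := h.dotProduct_mulVec_nonneg (Sum.elim (fun _ => (1 : ℝ)) (fun i => -v i))
      simp [arrow_form, ← ha, ← sq] at h1
      rw [← ha]
      nlinarith [Finset.sum_nonneg fun i (_ : i ∈ (Finset.univ : Finset (Fin n))) => sq_nonneg (v i)]
    · have h1 := h.dotProduct_mulVec_nonneg (Sum.elim (fun _ => -a) (fun i => v i))
      simp only [star_trivial, arrow_form, Sum.elim_inl, Sum.elim_inr, ← sq] at h1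
      nlinarith
  · rintro ⟨ha, hv⟩
    refine Matrix.PosSemidef.of_dotProduct_mulVec_nonneg ?_ fun ξ => ?_
    · rw [Matrix.IsHermitian, Matrix.conjTranspose_eq_transpose_of_trivial]
      exact arrow_isSymm a v
    rw [star_trivial, arrow_form]
    set c := ξ (Sum.inl ())
    set w : Fin n → ℝ := fun i => ξ (Sum.inr i)
    have hcs := Finset.sum_mul_sq_le_sq_mul_sq Finset.univ v w
    have hW : 0 ≤ ∑ i, w i ^ 2 := Finset.sum_nonneg fun i _ => sq_nonneg _
    have h2 : (∑ i, v i * w i) ^ 2 ≤ a ^ 2 * ∑ i, w i ^ 2 :=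
      hcs.trans (mul_le_mul_of_nonneg_right hv hW)
    rcases eq_or_lt_of_le ha with ha' | ha'
    · rw [← ha'] at h2 ⊢
      have : ∑ i, v i * w i = 0 := by nlinarith [sq_nonneg (∑ i, v i * w i)]
      simp only [w] at this
      rw [this]; simp
    · have := sq_nonneg (a * c + ∑ i, v i * w i)
      simp only [w] at *
      nlinarith

namespace HCubic

variable (H : HCubic n)

/-- Membership in the cone from the tangent functionals. -/
lemma mem_cone_of_tangents {a : Vec n} (ha : 0 ≤ H.M H.e H.e a)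
    (hb : 0 ≤ H.M H.e a a) (h : ∀ x ∈ H.smoothPts, 0 ≤ H.M a x x) : a ∈ H.cone := by
  refine ⟨ha, hb, ?_⟩
  by_contra hcon
  push Not at hcon
  obtain ⟨x, hx, hpx, hbx, hneg⟩ := H.escape ha hb hcon
  have hax : 0 < H.M H.e H.e x := by nlinarith [H.b_le_sq x, hx.1]
  set t := (H.M H.e H.e x)⁻¹ with ht
  have htpos : 0 < t := inv_pos.2 hax
  have hmem : t • x ∈ H.smoothPts := by
    refine ⟨⟨H.smul_mem hx htpos.le, ?_, ?_⟩, ?_⟩
    · simp [ht, inv_mul_cancel₀ hax.ne']
    · simp [hpx]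
    · simp only [map_smul, LinearMap.smul_apply, smul_eq_mul]; positivity
  have := h _ hmem
  simp only [map_smul, LinearMap.smul_apply, smul_eq_mul] at this
  nlinarith [mul_pos htpos htpos]

/-- A pointed nondegenerate cubic cone is a shadow. -/
theorem shadow_pointed (hP : H.Pointed) (hN : H.Nodal) : IsSpectrahedralShadow H.cone := by
  classical
  have hext : SOSOn (H.bdry ∪ {H.e}) H.smoothPts (fun a x => H.M a x x) := by
    refine sosOn_glue (fun b : Bool => if b then H.bdry else {H.e}) (fun _ => H.smoothPts) ?_ ?_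
    · rintro a (ha | ha) x hx
      · exact ⟨true, ha, hx⟩
      · exact ⟨false, ha, hx⟩
    · rintro (_ | _)
      · simp only [Bool.false_eq_true, if_false]
        refine sosOn_congr (sosOn_prod (fun _ => (1 : ℝ)) (fun x => H.M H.e x x)
          (fun _ _ => zero_le_one) (fun x hx => hx.2.le)) fun a ha x _ => ?_
        rw [Set.mem_singleton_iff] at ha
        rw [ha, one_mul]
      · simpa using H.sosOn_bdry hP hN
  obtain ⟨r, U, V, hU, hV, hUV⟩ := exists_psd_factor hext
  have hVsym : ∀ x i j, V x i j = V x j i := fun x i j => by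
    have := (hV x).1.apply i j
    simpa using this.symm
  obtain ⟨R, hR⟩ := H.exists_sqrt
  let Sol : Submodule ℝ (Vec n × Matrix (Fin r) (Fin r) ℝ) :=
    { carrier := {q | ∀ x ∈ H.smoothPts, H.M q.1 x x = ∑ i, ∑ j, q.2 i j * V x i j}
      zero_mem' := by intro x _; simp
      add_mem' := by
        intro p q hp hq x hx
        simp [hp x hx, hq x hx, add_mul, Finset.sum_add_distrib]
      smul_mem' := by
        intro c q hq x hx
        simp [hq x hx, Finset.mul_sum, mul_assoc] }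
  let φ : (Fin (Module.finrank ℝ Sol) → ℝ) →ₗ[ℝ] Vec n × Matrix (Fin r) (Fin r) ℝ :=
    Sol.subtype.comp (Module.finBasis ℝ Sol).equivFun.symm.toLinearMap
  have φmem : ∀ u, φ u ∈ Sol := fun u => ((Module.finBasis ℝ Sol).equivFun.symm u).2
  have φsur : ∀ q ∈ Sol, ∃ u, φ u = q := fun q hq =>
    ⟨(Module.finBasis ℝ Sol).equivFun ⟨q, hq⟩, by simp [φ]⟩
  let L₁ : Vec n →ₗ[ℝ] Matrix ((Unit ⊕ Fin n) ⊕ (Fin r ⊕ (Fin n ⊕ Fin n))) ((Unit ⊕ Fin n) ⊕ (Fin r ⊕ (Fin n ⊕ Fin n))) ℝ :=
    { toFun := fun x => Matrix.fromBlocks (arrow (H.M H.e H.e x) (R.mulVec x)) 0 0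
        (Matrix.fromBlocks 0 0 0 (Matrix.fromBlocks (Matrix.diagonal x) 0 0 (Matrix.diagonal (-x))))
      map_add' := fun x y => by
        ext i j
        rcases i with (i | i) | i | i | i <;> rcases j with (j | j) | j | j | j <;>
          simp [arrow, Matrix.mulVec_add, Matrix.diagonal, Matrix.one_apply] <;>
            (try split_ifs) <;> (try simp) <;> (try ring)
      map_smul' := fun c x => by
        ext i j
        rcases i with (i | i) | i | i | i <;> rcases j with (j | j) | j | j | j <;>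
          simp [arrow, Matrix.mulVec_smul, Matrix.diagonal, Matrix.one_apply] }
  let L₂ : (Fin (Module.finrank ℝ Sol) → ℝ) →ₗ[ℝ] Matrix ((Unit ⊕ Fin n) ⊕ (Fin r ⊕ (Fin n ⊕ Fin n))) ((Unit ⊕ Fin n) ⊕ (Fin r ⊕ (Fin n ⊕ Fin n))) ℝ :=
    { toFun := fun u => Matrix.fromBlocks 0 0 0
        (Matrix.fromBlocks ((φ u).2 + (φ u).2.transpose) 0 0
          (Matrix.fromBlocks (Matrix.diagonal (-(φ u).1)) 0 0 (Matrix.diagonal (φ u).1)))
      map_add' := fun x y => by
        ext i j
        rcases i with (i | i) | i | i | i <;> rcases j with (j | j) | j | j | j <;>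
          simp [map_add, Matrix.diagonal] <;> (try split_ifs) <;> (try simp) <;> (try ring)
      map_smul' := fun c x => by
        ext i j
        rcases i with (i | i) | i | i | i <;> rcases j with (j | j) | j | j | j <;>
          simp [map_smul, Matrix.diagonal, mul_add] }
  have sym₂ : ∀ u : Matrix (Fin r) (Fin r) ℝ, (u + u.transpose).IsSymm := fun u => by
    rw [Matrix.IsSymm, Matrix.transpose_add, Matrix.transpose_transpose, add_comm]
  refine shadow_of_lmi L₁ L₂ (fun x => ?_) (fun u => ?_) fun x => ?_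
  · exact (arrow_isSymm _ _).fromBlocks (by simp) (Matrix.isSymm_zero.fromBlocks (by simp)
      ((Matrix.isSymm_diagonal _).fromBlocks (by simp) (Matrix.isSymm_diagonal _)))
  · exact Matrix.isSymm_zero.fromBlocks (by simp) ((sym₂ _).fromBlocks (by simp)
      ((Matrix.isSymm_diagonal _).fromBlocks (by simp) (Matrix.isSymm_diagonal _)))
  have hsplit : ∀ u, (L₁ x + L₂ u).PosSemidef ↔
      ((0 ≤ H.M H.e H.e x ∧ 0 ≤ H.M H.e x x) ∧ ((φ u).2 + (φ u).2.transpose).PosSemidef ∧
        (φ u).1 = x) := by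
    intro u
    have eq : L₁ x + L₂ u = Matrix.fromBlocks (arrow (H.M H.e H.e x) (R.mulVec x)) 0 0
        (Matrix.fromBlocks ((φ u).2 + (φ u).2.transpose) 0 0
          (Matrix.fromBlocks (Matrix.diagonal (x - (φ u).1)) 0 0
            (Matrix.diagonal ((φ u).1 - x)))) := by
      ext i j
      rcases i with i | i | i | i <;> rcases j with j | j | j | j <;>
        simp [L₁, L₂, Matrix.diagonal] <;> (try split_ifs) <;> (try simp) <;> (try ring)
    rw [eq]
    simp only [posSemidef_blockDiag, arrow_psd, Matrix.posSemidef_diagonal_iff, Pi.sub_apply, hR]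
    constructor
    · rintro ⟨⟨h1, h2⟩, h3, h4, h5⟩
      exact ⟨⟨h1, by linarith⟩, h3, funext fun i => by linarith [h4 i, h5 i]⟩
    · rintro ⟨⟨h1, h2⟩, h3, h4⟩
      refine ⟨⟨h1, by linarith⟩, h3, fun i => ?_, fun i => ?_⟩ <;> simp [h4]
  simp only [hsplit]
  constructor
  · intro hx
    obtain ⟨t, ht, b, hb, hpb, hxb⟩ := H.decompose hx
    -- the boundary part
    obtain ⟨W, hW, hWeq⟩ : ∃ W : Matrix (Fin r) (Fin r) ℝ, W.PosSemidef ∧
        ∀ y ∈ H.smoothPts, H.M b y y = ∑ i, ∑ j, W i j * V y i j := by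
      rcases eq_or_lt_of_le hb.1 with h0 | h0
      · rw [H.eq_zero_of hP h0.symm hb.2.1]
        exact ⟨0, Matrix.PosSemidef.zero, fun y _ => by simp⟩
      · set s := H.M H.e H.e b with hs
        have hb1 : s⁻¹ • b ∈ H.bdry ∪ {H.e} := by
          refine Or.inl ⟨H.smul_mem hb (inv_pos.2 h0).le, ?_, by simp [hpb]⟩
          rw [map_smul, smul_eq_mul, ← hs, inv_mul_cancel₀ h0.ne']
        refine ⟨s • U (s⁻¹ • b), (hU _).smul h0.le, fun y hy => ?_⟩
        have := hUV _ hb1 y hy
        simp only [map_smul, LinearMap.smul_apply, smul_eq_mul] at this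
        simp only [Matrix.smul_apply, smul_eq_mul, mul_assoc, ← Finset.mul_sum, ← this]
        field_simp
    have hq : ((b + t • H.e, W + t • U H.e) : Vec n × Matrix (Fin r) (Fin r) ℝ) ∈ Sol := by
      intro y hy
      have he := hUV H.e (Or.inr rfl) y hy
      simp [hWeq y hy, he, add_mul, Finset.sum_add_distrib, Finset.mul_sum, mul_assoc]
    obtain ⟨u, hu⟩ := φsur _ hq
    refine ⟨u, ⟨hx.1, hx.2.1⟩, ?_, by rw [hu, hxb]⟩
    rw [hu]
    have hs := hW.add ((hU H.e).smul ht)
    exact hs.add hs.transpose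
  · rintro ⟨u, ⟨h1, h2⟩, h3, h4⟩
    refine H.mem_cone_of_tangents h1 h2 fun y hy => ?_
    have e := φmem u y hy
    rw [h4] at e
    set W := (φ u).2
    have e2 : ∑ i, ∑ j, (W + W.transpose) i j * V y i j = 2 * ∑ i, ∑ j, W i j * V y i j := by
      simp only [Matrix.add_apply, Matrix.transpose_apply, add_mul, Finset.sum_add_distrib]
      have : ∑ i, ∑ j, W j i * V y i j = ∑ i, ∑ j, W i j * V y i j := by
        rw [Finset.sum_comm]
        exact Finset.sum_congr rfl fun i _ => Finset.sum_congr rfl fun j _ => by rw [hVsym y j i]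
      rw [this]; ring
    obtain ⟨T, hT⟩ := CStarAlgebra.nonneg_iff_eq_star_mul_self.1 (hV y).nonneg
    have hpos : 0 ≤ ∑ i, ∑ j, (W + W.transpose) i j * V y i j := by
      have e3 : ∑ i, ∑ j, (W + W.transpose) i j * V y i j =
          ∑ k, ∑ i, ∑ j, T k i * ((W + W.transpose) i j * T k j) := by
        conv_rhs => rw [Finset.sum_comm]
        refine Finset.sum_congr rfl fun i _ => ?_
        conv_rhs => rw [Finset.sum_comm]
        refine Finset.sum_congr rfl fun j _ => ?_
        rw [hT, Matrix.mul_apply, Finset.mul_sum]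
        exact Finset.sum_congr rfl fun k _ => by simp [Matrix.star_apply]; ring
      rw [e3]
      refine Finset.sum_nonneg fun k _ => ?_
      have := h3.dotProduct_mulVec_nonneg (T k)
      simpa [dotProduct, Matrix.mulVec, Finset.mul_sum] using this
    rw [e]
    linarith

end HCubic

end Vale.Agent.P256
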