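import Mathlib

namespace Vale.Agent.P256

open Filter Topology
open scoped BigOperators

variable {α β : Type*}

/-- A kernel of finite rank: a finite sum of products of one-sided functions. -/
def FinRank (S : α → β → ℝ) : Prop :=
  ∃ (r : ℕ) (f : Fin r → α → ℝ) (g : Fin r → β → ℝ), ∀ a b, S a b = ∑ j, f j a * g j b

lemma finRank_congr {S T : α → β → ℝ} (h : FinRank S) (e : ∀ a b, T a b = S a b) : FinRank T := by
  obtain ⟨r, f, g, hS⟩ := h
  exact ⟨r, f, g, fun a b => by rw [e, hS]⟩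

lemma finRank_fintype {ι : Type*} [Fintype ι] (f : ι → α → ℝ) (g : ι → β → ℝ) :
    FinRank (fun a b => ∑ j, f j a * g j b) :=
  ⟨Fintype.card ι, fun j => f ((Fintype.equivFin ι).symm j),
    fun j => g ((Fintype.equivFin ι).symm j), fun a b =>
      ((Fintype.equivFin ι).symm.sum_comp (fun j => f j a * g j b)).symm⟩

lemma finRank_prod (f : α → ℝ) (g : β → ℝ) : FinRank (fun a b => f a * g b) :=
  ⟨1, fun _ => f, fun _ => g, fun a b => by simp⟩

lemma finRank_left (f : α → ℝ) : FinRank (fun a (_ : β) => f a) :=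
  finRank_congr (finRank_prod f (fun _ => 1)) (by simp)

lemma finRank_right (g : β → ℝ) : FinRank (fun (_ : α) b => g b) :=
  finRank_congr (finRank_prod (fun _ => 1) g) (by simp)

lemma FinRank.add {S T : α → β → ℝ} (hS : FinRank S) (hT : FinRank T) :
    FinRank (fun a b => S a b + T a b) := by
  obtain ⟨r, f, g, hS⟩ := hS
  obtain ⟨s, f', g', hT⟩ := hT
  refine finRank_congr (finRank_fintype (Sum.elim f f') (Sum.elim g g')) fun a b => ?_
  simp [hS, hT, Fintype.sum_sum_type]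

lemma FinRank.mul {S T : α → β → ℝ} (hS : FinRank S) (hT : FinRank T) :
    FinRank (fun a b => S a b * T a b) := by
  obtain ⟨r, f, g, hS⟩ := hS
  obtain ⟨s, f', g', hT⟩ := hT
  refine finRank_congr (finRank_fintype (fun p : Fin r × Fin s => fun a => f p.1 a * f' p.2 a)
    (fun p b => g p.1 b * g' p.2 b)) fun a b => ?_
  rw [hS, hT, Fintype.sum_prod_type, Finset.sum_mul_sum]
  exact Finset.sum_congr rfl fun i _ => Finset.sum_congr rfl fun j _ => by ring

lemma FinRank.neg {S : α → β → ℝ} (hS : FinRank S) : FinRank (fun a b => -S a b) :=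
  finRank_congr ((finRank_left (fun _ => (-1 : ℝ))).mul hS) (by simp)

lemma FinRank.sub {S T : α → β → ℝ} (hS : FinRank S) (hT : FinRank T) :
    FinRank (fun a b => S a b - T a b) :=
  finRank_congr (hS.add hT.neg) (by intros; ring)

/-- On the rectangle `A × B` the kernel is a finite sum of squares of finite rank kernels. -/
def SOSOn (A : Set α) (B : Set β) (S : α → β → ℝ) : Prop :=
  ∃ (N : ℕ) (G : Fin N → α → β → ℝ), (∀ k, FinRank (G k)) ∧
    ∀ a ∈ A, ∀ b ∈ B, S a b = ∑ k, (G k a b) ^ 2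

lemma sosOn_fintype {ι : Type*} [Fintype ι] {A : Set α} {B : Set β} {S : α → β → ℝ}
    (G : ι → α → β → ℝ) (hG : ∀ k, FinRank (G k))
    (h : ∀ a ∈ A, ∀ b ∈ B, S a b = ∑ k, (G k a b) ^ 2) : SOSOn A B S :=
  ⟨Fintype.card ι, fun k => G ((Fintype.equivFin ι).symm k), fun _ => hG _, fun a ha b hb => by
    rw [h a ha b hb]; exact ((Fintype.equivFin ι).symm.sum_comp (fun k => (G k a b) ^ 2)).symm⟩

lemma sosOn_sq {A : Set α} {B : Set β} {G : α → β → ℝ} (hG : FinRank G) :
    SOSOn A B (fun a b => (G a b) ^ 2) :=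
  ⟨1, fun _ => G, fun _ => hG, fun a _ b _ => by simp⟩

lemma sosOn_zero {A : Set α} {B : Set β} : SOSOn A B (fun (_ : α) (_ : β) => (0 : ℝ)) :=
  ⟨0, Fin.elim0, fun k => k.elim0, fun a _ b _ => by simp⟩

lemma sosOn_congr {A : Set α} {B : Set β} {S T : α → β → ℝ} (h : SOSOn A B S)
    (e : ∀ a ∈ A, ∀ b ∈ B, T a b = S a b) : SOSOn A B T := by
  obtain ⟨N, G, hG, hS⟩ := h
  exact ⟨N, G, hG, fun a ha b hb => by rw [e a ha b hb, hS a ha b hb]⟩

lemma sosOn_mono {A A' : Set α} {B B' : Set β} {S : α → β → ℝ} (h : SOSOn A B S)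
    (hA : A' ⊆ A) (hB : B' ⊆ B) : SOSOn A' B' S := by
  obtain ⟨N, G, hG, hS⟩ := h
  exact ⟨N, G, hG, fun a ha b hb => hS a (hA ha) b (hB hb)⟩

lemma SOSOn.add {A : Set α} {B : Set β} {S T : α → β → ℝ} (hS : SOSOn A B S)
    (hT : SOSOn A B T) : SOSOn A B (fun a b => S a b + T a b) := by
  obtain ⟨r, G, hG, hS⟩ := hS
  obtain ⟨s, H, hH, hT⟩ := hT
  refine sosOn_fintype (Sum.elim G H) (fun k => by cases k <;> simp [hG, hH]) fun a ha b hb => ?_
  simp [hS a ha b hb, hT a ha b hb, Fintype.sum_sum_type]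

lemma SOSOn.mul {A : Set α} {B : Set β} {S T : α → β → ℝ} (hS : SOSOn A B S)
    (hT : SOSOn A B T) : SOSOn A B (fun a b => S a b * T a b) := by
  obtain ⟨r, G, hG, hS⟩ := hS
  obtain ⟨s, H, hH, hT⟩ := hT
  refine sosOn_fintype (fun p : Fin r × Fin s => fun a b => G p.1 a b * H p.2 a b)
    (fun p => (hG _).mul (hH _)) fun a ha b hb => ?_
  rw [hS a ha b hb, hT a ha b hb, Fintype.sum_prod_type, Finset.sum_mul_sum]
  exact Finset.sum_congr rfl fun i _ => Finset.sum_congr rfl fun j _ => by ring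

lemma sosOn_sum {ι : Type*} (s : Finset ι) {A : Set α} {B : Set β} {S : ι → α → β → ℝ}
    (h : ∀ i ∈ s, SOSOn A B (S i)) : SOSOn A B (fun a b => ∑ i ∈ s, S i a b) := by
  classical
  induction s using Finset.induction_on with
  | empty => exact sosOn_congr sosOn_zero (by simp)
  | insert i s hi ih =>
    refine sosOn_congr ((h i (Finset.mem_insert_self i s)).add
      (ih fun j hj => h j (Finset.mem_insert_of_mem hj))) fun a _ b _ => ?_
    simp [Finset.sum_insert hi]

/-- A product of nonnegative one-sided functions is a square. -/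
lemma sosOn_prod {A : Set α} {B : Set β} (f : α → ℝ) (g : β → ℝ)
    (hf : ∀ a ∈ A, 0 ≤ f a) (hg : ∀ b ∈ B, 0 ≤ g b) : SOSOn A B (fun a b => f a * g b) :=
  sosOn_congr (sosOn_sq (finRank_prod (fun a => Real.sqrt (f a)) (fun b => Real.sqrt (g b))))
    fun a ha b hb => by rw [mul_pow, Real.sq_sqrt (hf a ha), Real.sq_sqrt (hg b hb)]

lemma sosOn_const {A : Set α} {B : Set β} {c : ℝ} (hc : 0 ≤ c) :
    SOSOn A B (fun (_ : α) (_ : β) => c) :=
  sosOn_congr (sosOn_prod (fun _ => c) (fun _ => 1) (fun _ _ => hc) (fun _ _ => zero_le_one))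
    (by simp)

lemma SOSOn.scale {A : Set α} {B : Set β} {S : α → β → ℝ} (hS : SOSOn A B S)
    (f : α → ℝ) (g : β → ℝ) (hf : ∀ a ∈ A, 0 ≤ f a) (hg : ∀ b ∈ B, 0 ≤ g b) :
    SOSOn A B (fun a b => f a * g b * S a b) :=
  (sosOn_prod f g hf hg).mul hS

/-- Dividing by positive one-sided functions. -/
lemma SOSOn.of_scale {A : Set α} {B : Set β} {S : α → β → ℝ}
    (f : α → ℝ) (g : β → ℝ) (hf : ∀ a ∈ A, 0 < f a) (hg : ∀ b ∈ B, 0 < g b)
    (h : SOSOn A B (fun a b => f a * g b * S a b)) : SOSOn A B S :=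
  sosOn_congr (h.scale (fun a => (f a)⁻¹) (fun b => (g b)⁻¹)
    (fun a ha => (inv_pos.2 (hf a ha)).le) (fun b hb => (inv_pos.2 (hg b hb)).le))
    fun a ha b hb => by
      have := (hf a ha).ne'
      have := (hg b hb).ne'
      field_simp

/-- Finitely many rectangles can be glued: the cells are arbitrary sets. -/
lemma sosOn_glue {ι : Type*} [Fintype ι] (U : ι → Set α) (V : ι → Set β) {A : Set α} {B : Set β}
    {S : α → β → ℝ} (hcov : ∀ a ∈ A, ∀ b ∈ B, ∃ i, a ∈ U i ∧ b ∈ V i)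
    (h : ∀ i, SOSOn (U i) (V i) S) : SOSOn A B S := by
  classical
  let cu : α → Finset ι := fun a => Finset.univ.filter fun i => a ∈ U i
  let cv : β → Finset ι := fun b => Finset.univ.filter fun i => b ∈ V i
  have key : ∀ P : Finset ι × Finset ι, SOSOn A B
      (fun a b => (if cu a = P.1 then (1 : ℝ) else 0) * (if cv b = P.2 then (1 : ℝ) else 0)
        * S a b) := by
    intro P
    by_cases hP : (P.1 ∩ P.2).Nonempty
    · obtain ⟨i, hi⟩ := hP
      obtain ⟨hi1, hi2⟩ := Finset.mem_inter.1 hi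
      obtain ⟨N, G, hG, hS⟩ := h i
      refine ⟨N, fun k a b => (if cu a = P.1 then (1 : ℝ) else 0) *
        (if cv b = P.2 then (1 : ℝ) else 0) * G k a b,
        fun k => (finRank_prod _ _).mul (hG k), fun a ha b hb => ?_⟩
      by_cases h1 : cu a = P.1
      · by_cases h2 : cv b = P.2
        · have ha' : a ∈ U i := by rw [← h1] at hi1; simpa [cu] using hi1
          have hb' : b ∈ V i := by rw [← h2] at hi2; simpa [cv] using hi2
          simp [h1, h2, hS a ha' b hb']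
        · simp [h2]
      · simp [h1]
    · refine sosOn_congr sosOn_zero fun a ha b hb => ?_
      by_cases h1 : cu a = P.1
      · by_cases h2 : cv b = P.2
        · obtain ⟨i, hia, hib⟩ := hcov a ha b hb
          exact absurd ⟨i, Finset.mem_inter.2 ⟨by rw [← h1]; simpa [cu] using hia,
            by rw [← h2]; simpa [cv] using hib⟩⟩ hP
        · simp [h2]
      · simp [h1]
  refine sosOn_congr (sosOn_sum Finset.univ fun P _ => key P) fun a _ b _ => ?_
  rw [Fintype.sum_prod_type, Finset.sum_eq_single (cu a) (fun x _ hx => by simp [Ne.symm hx])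
    (by simp), Finset.sum_eq_single (cv b) (fun x _ hx => by simp [Ne.symm hx]) (by simp)]
  simp

section Topo

variable [TopologicalSpace α] [TopologicalSpace β]

/-- Compactness: local decompositions give a global one. `B'` may be non-closed. -/
lemma sosOn_of_local {A : Set α} {B : Set β} {A' : Set α} {B' : Set β} {S : α → β → ℝ}
    (hA : IsCompact A) (hB : IsCompact B) (hA' : A' ⊆ A) (hB' : B' ⊆ B)
    (h : ∀ a ∈ A, ∀ b ∈ B, ∃ U ∈ 𝓝 a, ∃ V ∈ 𝓝 b, SOSOn (U ∩ A') (V ∩ B') S) :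
    SOSOn A' B' S := by
  classical
  choose! U hU V hV hUV using h
  have hnh : ∀ p ∈ A ×ˢ B, U p.1 p.2 ×ˢ V p.1 p.2 ∈ 𝓝 p := fun p hp =>
    prod_mem_nhds (hU _ hp.1 _ hp.2) (hV _ hp.1 _ hp.2)
  obtain ⟨t, ht, hcov⟩ := (hA.prod hB).elim_nhds_subcover _ hnh
  refine sosOn_glue (fun i : t => U i.1.1 i.1.2 ∩ A') (fun i : t => V i.1.1 i.1.2 ∩ B') ?_
    fun i => hUV _ (ht _ i.2).1 _ (ht _ i.2).2
  intro a ha b hb
  have := hcov (Set.mk_mem_prod (hA' ha) (hB' hb))
  simp only [Set.mem_iUnion] at this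
  obtain ⟨p, hp, hmem⟩ := this
  exact ⟨⟨p, hp⟩, ⟨hmem.1, ha⟩, ⟨hmem.2, hb⟩⟩

/-- A finite rank kernel whose factors are continuous at the given points. -/
def NiceAt (a₀ : α) (b₀ : β) (S : α → β → ℝ) : Prop :=
  ∃ (r : ℕ) (f : Fin r → α → ℝ) (g : Fin r → β → ℝ), (∀ j, ContinuousAt (f j) a₀) ∧
    (∀ j, ContinuousAt (g j) b₀) ∧ ∀ a b, S a b = ∑ j, f j a * g j b

variable {a₀ : α} {b₀ : β}

lemma NiceAt.finRank {S : α → β → ℝ} (h : NiceAt a₀ b₀ S) : FinRank S := by
  obtain ⟨r, f, g, _, _, hS⟩ := h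
  exact ⟨r, f, g, hS⟩

lemma niceAt_congr {S T : α → β → ℝ} (h : NiceAt a₀ b₀ S) (e : ∀ a b, T a b = S a b) :
    NiceAt a₀ b₀ T := by
  obtain ⟨r, f, g, hf, hg, hS⟩ := h
  exact ⟨r, f, g, hf, hg, fun a b => by rw [e, hS]⟩

lemma niceAt_fintype {ι : Type*} [Fintype ι] (f : ι → α → ℝ) (g : ι → β → ℝ)
    (hf : ∀ j, ContinuousAt (f j) a₀) (hg : ∀ j, ContinuousAt (g j) b₀) :
    NiceAt a₀ b₀ (fun a b => ∑ j, f j a * g j b) :=
  ⟨Fintype.card ι, fun j => f ((Fintype.equivFin ι).symm j),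
    fun j => g ((Fintype.equivFin ι).symm j), fun _ => hf _, fun _ => hg _, fun a b =>
      ((Fintype.equivFin ι).symm.sum_comp (fun j => f j a * g j b)).symm⟩

lemma niceAt_prod {f : α → ℝ} {g : β → ℝ} (hf : ContinuousAt f a₀) (hg : ContinuousAt g b₀) :
    NiceAt a₀ b₀ (fun a b => f a * g b) :=
  ⟨1, fun _ => f, fun _ => g, fun _ => hf, fun _ => hg, fun a b => by simp⟩

lemma niceAt_left {f : α → ℝ} (hf : ContinuousAt f a₀) :
    NiceAt a₀ b₀ (fun a (_ : β) => f a) :=
  niceAt_congr (niceAt_prod hf (g := fun _ => 1) continuousAt_const) (by simp)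

lemma niceAt_right {g : β → ℝ} (hg : ContinuousAt g b₀) :
    NiceAt a₀ b₀ (fun (_ : α) b => g b) :=
  niceAt_congr (niceAt_prod (f := fun _ => 1) continuousAt_const hg) (by simp)

lemma niceAt_const (c : ℝ) : NiceAt a₀ b₀ (fun (_ : α) (_ : β) => c) :=
  niceAt_left continuousAt_const

lemma NiceAt.add {S T : α → β → ℝ} (hS : NiceAt a₀ b₀ S) (hT : NiceAt a₀ b₀ T) :
    NiceAt a₀ b₀ (fun a b => S a b + T a b) := by
  obtain ⟨r, f, g, hf, hg, hS⟩ := hS
  obtain ⟨s, f', g', hf', hg', hT⟩ := hT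
  refine niceAt_congr (niceAt_fintype (Sum.elim f f') (Sum.elim g g')
    (fun j => by cases j <;> simp [hf, hf']) (fun j => by cases j <;> simp [hg, hg'])) fun a b => ?_
  simp [hS, hT, Fintype.sum_sum_type]

lemma NiceAt.mul {S T : α → β → ℝ} (hS : NiceAt a₀ b₀ S) (hT : NiceAt a₀ b₀ T) :
    NiceAt a₀ b₀ (fun a b => S a b * T a b) := by
  obtain ⟨r, f, g, hf, hg, hS⟩ := hS
  obtain ⟨s, f', g', hf', hg', hT⟩ := hT
  refine niceAt_congr (niceAt_fintype (fun p : Fin r × Fin s => fun a => f p.1 a * f' p.2 a)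
    (fun p b => g p.1 b * g' p.2 b) (fun p => (hf _).mul (hf' _))
    (fun p => (hg _).mul (hg' _))) fun a b => ?_
  rw [hS, hT, Fintype.sum_prod_type, Finset.sum_mul_sum]
  exact Finset.sum_congr rfl fun i _ => Finset.sum_congr rfl fun j _ => by ring

lemma NiceAt.neg {S : α → β → ℝ} (hS : NiceAt a₀ b₀ S) : NiceAt a₀ b₀ (fun a b => -S a b) :=
  niceAt_congr ((niceAt_const (-1)).mul hS) (by simp)

lemma NiceAt.sub {S T : α → β → ℝ} (hS : NiceAt a₀ b₀ S) (hT : NiceAt a₀ b₀ T) :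
    NiceAt a₀ b₀ (fun a b => S a b - T a b) :=
  niceAt_congr (hS.add hT.neg) (by intros; ring)

lemma niceAt_sum {ι : Type*} (s : Finset ι) {S : ι → α → β → ℝ}
    (h : ∀ i ∈ s, NiceAt a₀ b₀ (S i)) : NiceAt a₀ b₀ (fun a b => ∑ i ∈ s, S i a b) := by
  classical
  induction s using Finset.induction_on with
  | empty => exact niceAt_congr (niceAt_const 0) (by simp)
  | insert i s hi ih =>
    refine niceAt_congr ((h i (Finset.mem_insert_self i s)).add
      (ih fun j hj => h j (Finset.mem_insert_of_mem hj))) fun a b => ?_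
    simp [Finset.sum_insert hi]

/-- A nice kernel positive at the base point is a sum of squares nearby. -/
lemma NiceAt.sos_of_pos {S : α → β → ℝ} (hS : NiceAt a₀ b₀ S) (hpos : 0 < S a₀ b₀) :
    ∃ U ∈ 𝓝 a₀, ∃ V ∈ 𝓝 b₀, SOSOn U V S := by
  obtain ⟨r, f, g, hf, hg, hS⟩ := hS
  set c := S a₀ b₀ with hc
  -- centred factors
  let F : Fin r ⊕ (Fin r ⊕ Fin r) → α → ℝ :=
    Sum.elim (fun j a => f j a - f j a₀) (Sum.elim (fun j a => f j a - f j a₀) (fun j _ => f j a₀))
  let G : Fin r ⊕ (Fin r ⊕ Fin r) → β → ℝ :=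
    Sum.elim (fun j b => g j b - g j b₀) (Sum.elim (fun j _ => g j b₀) (fun j b => g j b - g j b₀))
  have hexp : ∀ a b, S a b = c + ∑ j, F j a * G j b := by
    intro a b
    rw [hc, hS, hS]
    simp only [F, G, Fintype.sum_sum_type, Sum.elim_inl, Sum.elim_inr, ← Finset.sum_add_distrib]
    exact Finset.sum_congr rfl fun j _ => by ring
  -- bound for the constant factors
  set K : ℝ := 1 + ∑ j, (|f j a₀| + |g j b₀|) with hK
  have hKpos : 0 < K := by
    have : 0 ≤ ∑ j, (|f j a₀| + |g j b₀|) := Finset.sum_nonneg fun j _ => by positivity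
    rw [hK]; linarith
  set δ : ℝ := min 1 (c / ((3 * r + 1) * K)) with hδ
  have hδpos : 0 < δ := lt_min one_pos (by positivity)
  have hU : ∀ᶠ a in 𝓝 a₀, ∀ j, |f j a - f j a₀| ≤ δ := by
    rw [eventually_all]
    intro j
    have := Metric.tendsto_nhds.1 (hf j) δ hδpos
    filter_upwards [this] with a ha using le_of_lt (by simpa [Real.dist_eq] using ha)
  have hV : ∀ᶠ b in 𝓝 b₀, ∀ j, |g j b - g j b₀| ≤ δ := by
    rw [eventually_all]
    intro j
    have := Metric.tendsto_nhds.1 (hg j) δ hδpos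
    filter_upwards [this] with b hb using le_of_lt (by simpa [Real.dist_eq] using hb)
  refine ⟨_, hU, _, hV, ?_⟩
  -- scales
  let p : Fin r ⊕ (Fin r ⊕ Fin r) → ℝ := Sum.elim (fun _ => δ) (Sum.elim (fun _ => δ) (fun _ => K))
  let q : Fin r ⊕ (Fin r ⊕ Fin r) → ℝ := Sum.elim (fun _ => δ) (Sum.elim (fun _ => K) (fun _ => δ))
  have hKf : ∀ j, |f j a₀| ≤ K ∧ |g j b₀| ≤ K := by
    intro j
    have := Finset.single_le_sum (f := fun j => |f j a₀| + |g j b₀|)
      (fun j _ => by positivity) (Finset.mem_univ j)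
    have h1 := abs_nonneg (f j a₀)
    have h2 := abs_nonneg (g j b₀)
    constructor <;> (rw [hK]; linarith)
  have hsum : ∑ j, p j * q j ≤ c := by
    have h1 : δ * δ ≤ δ * K := by
      apply mul_le_mul_of_nonneg_left _ hδpos.le
      calc δ ≤ 1 := min_le_left _ _
        _ ≤ K := by
          have : 0 ≤ ∑ j, (|f j a₀| + |g j b₀|) := Finset.sum_nonneg fun j _ => by positivity
          rw [hK]; linarith
    have h2 : δ ≤ c / ((3 * r + 1) * K) := min_le_right _ _
    rw [le_div_iff₀ (by positivity)] at h2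
    simp [p, q, Fintype.sum_sum_type]
    nlinarith [mul_le_mul_of_nonneg_left h1 (Nat.cast_nonneg (α := ℝ) r), mul_pos hδpos hKpos]
  have hterm : ∀ j, SOSOn {a | ∀ j, |f j a - f j a₀| ≤ δ} {b | ∀ j, |g j b - g j b₀| ≤ δ}
      (fun a b => p j * q j + F j a * G j b) := by
    intro j
    have hF : ∀ a ∈ {a | ∀ j, |f j a - f j a₀| ≤ δ}, |F j a| ≤ p j := by
      intro a ha
      rcases j with j | j | j <;> simp only [F, p, Sum.elim_inl, Sum.elim_inr]
      · exact ha j
      · exact ha j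
      · exact (hKf j).1
    have hG : ∀ b ∈ {b | ∀ j, |g j b - g j b₀| ≤ δ}, |G j b| ≤ q j := by
      intro b hb
      rcases j with j | j | j <;> simp only [G, q, Sum.elim_inl, Sum.elim_inr]
      · exact hb j
      · exact (hKf j).2
      · exact hb j
    refine sosOn_congr
      ((sosOn_prod (fun a => (p j + F j a) / 2) (fun b => q j + G j b)
          (fun a ha => by have := abs_le.1 (hF a ha); linarith)
          (fun b hb => by have := abs_le.1 (hG b hb); linarith)).add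
        (sosOn_prod (fun a => (p j - F j a) / 2) (fun b => q j - G j b)
          (fun a ha => by have := abs_le.1 (hF a ha); linarith)
          (fun b hb => by have := abs_le.1 (hG b hb); linarith))) fun a _ b _ => by ring
  refine sosOn_congr ((sosOn_const (c := c - ∑ j, p j * q j) (by linarith)).add
    (sosOn_sum Finset.univ fun j _ => hterm j)) fun a _ b _ => ?_
  rw [hexp, Finset.sum_add_distrib]
  ring

end Topo

end Vale.Agent.P256
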