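import Vale.Agent.P256.Bound

namespace Vale.Agent.P256

open Filter Topology
open scoped BigOperators

variable {n : ℕ}

/-- The completion identity at a singular point, in scalar form. -/
lemma node_identity (σa σ₁ ℓ₁ r A₁₁ A₁₂ A₂₂ m₁₁₁ m₁₁₂ m₂₂₂ : ℝ) (hF : m₁₁₁ ≠ 0) (hσ : σ₁ ≠ 0)
    (hx : 3 * σ₁ * A₁₁ + ℓ₁ * m₁₁₁ = 0) (ha : 3 * r * A₂₂ + r ^ 2 * m₂₂₂ = 0) :
    σa * (ℓ₁ ^ 2 * A₁₁ + r * (2 * σ₁ * ℓ₁ * A₁₂ + ℓ₁ ^ 2 * m₁₁₂)) =
      σa * (σ₁ * ℓ₁ / (3 * -m₁₁₁)) *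
        ((3 * A₁₁ - r * (2 * -m₁₁₁ + -3 * (m₁₁₂ - m₁₁₁)) / 2) ^ 2 +
          r * -m₁₁₁ * (-3 * (A₁₁ - 2 * A₁₂ + A₂₂) + r * ((-m₂₂₂ + 3 * m₁₁₂ - 2 * m₁₁₁) -
            (-3 * (m₁₁₂ - m₁₁₁)) ^ 2 / (4 * -m₁₁₁)))) := by
  have hA : A₁₁ = -(ℓ₁ * m₁₁₁) / (3 * σ₁) := by field_simp; linarith
  subst hA
  field_simp
  linear_combination (16 * σa * ℓ₁ * m₁₁₁ * σ₁ ^ 2) * ha

/-- A chart at a singular point. -/
structure Chart (H : HCubic n) where
  s : Vec n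
  σ : Vec n →ₗ[ℝ] ℝ
  θs : Vec n
  sing : H.Sing s
  σ_s : σ s = 1
  σ_θ : σ θs = 0
  ℓ_θ : H.M s H.e θs = 1

namespace Chart

variable {H : HCubic n} (c : Chart H)

/-- The height above the singular ray. -/
def ℓ : Vec n →ₗ[ℝ] ℝ := H.M c.s H.e

/-- The direction seen from the singular point. -/
noncomputable def dir (y : Vec n) : Vec n :=
  if c.ℓ y = 0 then c.θs else (c.ℓ y)⁻¹ • (y - c.σ y • c.s)

/-- The reciprocal slope. -/
noncomputable def slope (y : Vec n) : ℝ := c.ℓ y / c.σ y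

lemma ℓ_s : c.ℓ c.s = 0 := by
  show H.M c.s H.e c.s = 0
  rw [H.swap₁₂]; exact c.sing.2.2

lemma ℓ_θs : c.ℓ c.θs = 1 := c.ℓ_θ

lemma M_ss (v : Vec n) : H.M v c.s c.s = 0 := H.singular_zero c.sing.1 c.sing.2.2 v

lemma M_see : H.M c.s H.e H.e = 1 := by rw [H.rot]; exact c.sing.2.1

lemma neg_A {v : Vec n} (hv : c.ℓ v = 0) : H.M c.s v v ≤ 0 := by
  have := H.revCS c.sing.1 v
  rw [c.M_see, show H.M c.s H.e v = 0 from hv] at this
  linarith

lemma ne_zero : c.s ≠ 0 := fun h => by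
  have := c.sing.2.1
  rw [h] at this; simp at this

lemma radical (hN : H.Nodal) {v : Vec n} (hv : c.ℓ v = 0) (hA : 0 ≤ H.M c.s v v) :
    ∃ t : ℝ, v = t • c.s := by
  have h0 : H.M c.s v v = 0 := le_antisymm (c.neg_A hv) hA
  refine hN _ c.sing.1 c.ne_zero c.sing.2.2 v fun w => ?_
  set u := w - c.ℓ w • H.e with hu
  have hℓe : c.ℓ H.e = 1 := c.M_see
  have huℓ : c.ℓ u = 0 := by simp [hu, hℓe]
  have hquad : ∀ t : ℝ, 2 * t * H.M c.s v u + t ^ 2 * H.M c.s u u ≤ 0 := fun t => by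
    have := c.neg_A (v := v + t • u) (by simp [hv, huℓ])
    rw [H.sq_add, h0] at this
    linarith
  have hvu : H.M c.s v u = 0 := by
    set q := H.M c.s u u
    set m := H.M c.s v u
    have hq : q ≤ 0 := c.neg_A huℓ
    have := hquad (m / (1 - q))
    have h1 : (0 : ℝ) < 1 - q := by linarith
    field_simp at this
    nlinarith [sq_nonneg m]
  have hve : H.M c.s v H.e = 0 := by rw [H.swap₂₃]; exact hv
  rw [hu] at hvu
  simp only [map_sub, map_smul, smul_eq_mul, hve] at hvu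
  linarith

lemma eq_dir (hP : H.Pointed) (hN : H.Nodal) {y : Vec n} (hy : y ∈ H.cone) :
    y = c.σ y • c.s + c.ℓ y • c.dir y := by
  by_cases h : c.ℓ y = 0
  · obtain ⟨t, ht⟩ := c.radical hN h (H.psi_nonneg c.sing.1 hy)
    rw [h, ht]
    simp [c.σ_s]
  · rw [dir, if_neg h, smul_smul, mul_inv_cancel₀ h, one_smul]
    abel

lemma σ_dir (y : Vec n) : c.σ (c.dir y) = 0 := by
  unfold dir; split
  · exact c.σ_θ
  · simp [c.σ_s]

lemma ℓ_dir (y : Vec n) : c.ℓ (c.dir y) = 1 := by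
  unfold dir; split
  · exact c.ℓ_θs
  · rename_i h; simp [c.ℓ_s, h]

lemma ℓ_nonneg (hP : H.Pointed) {y : Vec n} (hy : y ∈ H.cone) : 0 ≤ c.ℓ y := by
  show 0 ≤ H.M c.s H.e y
  rw [H.swap₁₂]
  exact H.e_uv_nonneg hP c.sing.1 hy

/-- The value of minus the cubic at the direction. -/
noncomputable def F (θ : Vec n) : ℝ := -H.M θ θ θ

/-- Its derivative. -/
noncomputable def grad (θ : Vec n) : Vec n →ₗ[ℝ] ℝ := (-3 : ℝ) • H.M θ θ

/-- The Hessian corrected by the gradient. -/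
noncomputable def curv (θ : Vec n) : Vec n →ₗ[ℝ] Vec n →ₗ[ℝ] ℝ :=
  (-3 : ℝ) • H.M θ - (4 * F (H := H) θ)⁻¹ • (grad (H := H) θ).smulRight (grad (H := H) θ)

lemma curv_apply (θ u v : Vec n) : curv (H := H) θ u v =
    -3 * H.M θ u v - (-3 * H.M θ θ u) * (-3 * H.M θ θ v) / (4 * -H.M θ θ θ) := by
  simp only [curv, grad, F, LinearMap.sub_apply, LinearMap.smul_apply, LinearMap.smulRight_apply,
    smul_eq_mul]
  ring

/-- The projection to the chart's difference space. -/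
def proj : Vec n →ₗ[ℝ] Vec n :=
  LinearMap.id - c.σ.smulRight c.s - c.ℓ.smulRight c.θs

lemma σ_proj (v : Vec n) : c.σ (c.proj v) = 0 := by simp [proj, c.σ_s, c.σ_θ]

lemma ℓ_proj (v : Vec n) : c.ℓ (c.proj v) = 0 := by simp [proj, c.ℓ_s, c.ℓ_θs]

lemma proj_of {v : Vec n} (h1 : c.σ v = 0) (h2 : c.ℓ v = 0) : c.proj v = v := by
  simp [proj, h1, h2]

/-- The kernel near a singular point, on cells described by inequalities. -/
lemma node_cell (hP : H.Pointed) (hN : H.Nodal) {ρ₀ η K : ℝ} (hη : 0 < η) :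
    ∃ ε > (0 : ℝ), ∀ (A' X' : Set (Vec n)) (Ra Rx : ℝ), 0 ≤ Ra → 0 ≤ Rx → Ra * Rx ≤ ε →
      (∀ a ∈ A', a ∈ H.cone ∧ H.M a a a = 0 ∧ 0 < c.σ a ∧ |c.slope a - ρ₀| ≤ ε ∧
        ‖c.slope a • (c.dir a - c.θs)‖ ≤ ε ∧ c.slope a ≤ Ra) →
      (∀ x ∈ X', x ∈ H.cone ∧ H.M x x x = 0 ∧ 0 < c.σ x ∧ 0 < c.ℓ x ∧
        0 < F (H := H) (c.dir x) ∧ ‖c.dir x - c.θs‖ ≤ Rx ∧
        (∀ i j, |curv (H := H) (c.dir x) (Pi.single i 1) (Pi.single j 1)| ≤ K) ∧
        ∀ v, c.σ v = 0 → c.ℓ v = 0 →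
          η * ‖v‖ ^ 2 ≤ -3 * H.M c.s v v + ρ₀ * curv (H := H) (c.dir x) v v) →
      SOSOn A' X' (fun a x => H.M a x x) := by
  classical
  set η' : ℝ := min η 1 / (2 * (n + 1)) with hη'
  have hη'pos : 0 < η' := div_pos (lt_min hη one_pos) (by positivity)
  set KK : ℝ := |K| + 2 * n * H.bound + 1 with hKK
  have hKKpos : 0 < KK := by
    have := mul_nonneg (mul_nonneg (by norm_num : (0 : ℝ) ≤ 2) (Nat.cast_nonneg n)) H.bound_pos.le
    have := abs_nonneg K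
    rw [hKK]; linarith
  refine ⟨η' / ((n + 1) * KK), by positivity, ?_⟩
  intro A' X' Ra Rx hRa hRx hRR hA hX
  set ε := η' / ((n + 1) * KK) with hε
  have hεpos : 0 < ε := by positivity
  -- the vector of differences
  let Δ : Fin n → Vec n → Vec n → ℝ := fun i a x => c.dir a i - c.dir x i
  have hΔ : ∀ i, FinRank (Δ i) := fun i =>
    (finRank_left (fun a => c.dir a i)).sub (finRank_right (fun x => c.dir x i))
  -- the part depending on the second variable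
  let Cx : Vec n → Matrix (Fin n) (Fin n) ℝ := fun x i j =>
    (-3 * H.M c.s (c.proj (Pi.single i 1)) (c.proj (Pi.single j 1)) +
      ρ₀ * curv (H := H) (c.dir x) (c.proj (Pi.single i 1)) (c.proj (Pi.single j 1))) +
    ∑ k, (Pi.single i (1 : ℝ) - c.proj (Pi.single i 1) : Vec n) k *
      (Pi.single j (1 : ℝ) - c.proj (Pi.single j 1) : Vec n) k
  let corr : Fin n → Fin n → Vec n → Vec n → ℝ := fun i j a x =>
    (c.slope a - ρ₀) * curv (H := H) (c.dir x) (Pi.single i 1) (Pi.single j 1) +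
      (-(c.slope a • (c.dir a - c.θs)) |> fun w => H.M w (Pi.single i 1) (Pi.single j 1)) +
      c.slope a * H.M (c.dir x - c.θs) (Pi.single i 1) (Pi.single j 1)
  have hCq : ∀ x (ξ : Fin n → ℝ), ∑ i, ∑ j, Cx x i j * ξ i * ξ j =
      -3 * H.M c.s (c.proj ξ) (c.proj ξ) + ρ₀ * curv (H := H) (c.dir x) (c.proj ξ) (c.proj ξ) +
        ∑ k, (ξ - c.proj ξ) k ^ 2 := by
    intro x ξ
    have e1 : ∀ B : Vec n →ₗ[ℝ] Vec n →ₗ[ℝ] ℝ, ∑ i, ∑ j,
        B (c.proj (Pi.single i 1)) (c.proj (Pi.single j 1)) * ξ i * ξ j =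
        B (c.proj ξ) (c.proj ξ) := fun B => (bilin_eq_sum (B.compl₁₂ c.proj c.proj) ξ ξ).symm
    have e2 : ∀ k, (ξ - c.proj ξ) k =
        ∑ i, ξ i * (Pi.single i (1 : ℝ) - c.proj (Pi.single i 1) : Vec n) k := fun k =>
      lin_eq_sum ((LinearMap.proj k).comp (LinearMap.id - c.proj)) ξ
    simp only [Cx, add_mul, Finset.sum_add_distrib, mul_assoc (-3 : ℝ), mul_assoc ρ₀,
      ← Finset.mul_sum]
    congr 1
    · congr 1
      · rw [← e1]
      · rw [← e1]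
    · have e3 : ∀ k, (ξ - c.proj ξ) k ^ 2 = ∑ i, ∑ j,
          (ξ i * (Pi.single i (1 : ℝ) - c.proj (Pi.single i 1) : Vec n) k) *
            (ξ j * (Pi.single j (1 : ℝ) - c.proj (Pi.single j 1) : Vec n) k) := fun k => by
        rw [e2, sq, Finset.sum_mul_sum]
      simp only [e3, Finset.sum_mul]
      conv_rhs => rw [Finset.sum_comm]
      refine Finset.sum_congr rfl fun i _ => ?_
      conv_rhs => rw [Finset.sum_comm]
      exact Finset.sum_congr rfl fun j _ => Finset.sum_congr rfl fun k _ => by ring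
  have hsymm : ∀ x ∈ X', (Cx x).IsSymm := fun x _ => by
    refine Matrix.IsSymm.ext fun i j => ?_
    simp only [Cx, curv_apply]
    rw [H.swap₂₃ c.s, H.swap₂₃ (c.dir x) (c.proj (Pi.single j 1))]
    congr 1
    · ring
    · exact Finset.sum_congr rfl fun k _ => mul_comm _ _
  have hlow : ∀ x ∈ X', ∀ ξ : Fin n → ℝ,
      η' * ∑ i, ξ i ^ 2 ≤ ∑ i, ∑ j, Cx x i j * ξ i * ξ j := by
    intro x hx ξ
    rw [hCq]
    have h1 := (hX x hx).2.2.2.2.2.2.2 (c.proj ξ) (c.σ_proj ξ) (c.ℓ_proj ξ)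
    set P := c.proj ξ
    have h2 : ∑ i, ξ i ^ 2 ≤ 2 * ∑ i, P i ^ 2 + 2 * ∑ i, (ξ - P) i ^ 2 := by
      rw [Finset.mul_sum, Finset.mul_sum, ← Finset.sum_add_distrib]
      refine Finset.sum_le_sum fun i _ => ?_
      have : ξ i = P i + (ξ - P) i := by simp
      rw [this]
      nlinarith [sq_nonneg (P i - (ξ - P) i)]
    have h3 := sum_sq_le_norm P
    have hm1 := min_le_left η 1
    have hm2 := min_le_right η 1
    have e : η' * (2 * (n + 1)) = min η 1 := by rw [hη']; field_simp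
    have hn0 : (0 : ℝ) ≤ n := Nat.cast_nonneg n
    have hW : 0 ≤ ∑ i, (ξ - P) i ^ 2 := Finset.sum_nonneg fun i _ => sq_nonneg _
    have b0 : η' * (2 * n) ≤ η := by nlinarith
    have b1 : η' * (2 * ∑ i, P i ^ 2) ≤ η * ‖P‖ ^ 2 := by
      nlinarith [mul_le_mul_of_nonneg_left h3 hη'pos.le,
        mul_le_mul_of_nonneg_right b0 (sq_nonneg ‖P‖)]
    have b2 : η' * (2 * ∑ i, (ξ - P) i ^ 2) ≤ ∑ i, (ξ - P) i ^ 2 := by
      have : 2 * η' ≤ 1 := by nlinarith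
      nlinarith [mul_le_mul_of_nonneg_right this hW]
    nlinarith [mul_le_mul_of_nonneg_left h2 hη'pos.le]
  -- the small part
  have hunit : ∀ i : Fin n, ‖(Pi.single i 1 : Vec n)‖ ≤ 1 := single_norm_le
  have hb3 : ∀ i j k, |H.M (Pi.single k 1) (Pi.single i 1) (Pi.single j 1)| ≤ H.bound := by
    intro i j k
    refine (H.abs_M_le _ _ _).trans ?_
    have := H.bound_pos.le
    calc H.bound * ‖(Pi.single k 1 : Vec n)‖ * ‖(Pi.single i 1 : Vec n)‖ *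
          ‖(Pi.single j 1 : Vec n)‖ ≤ H.bound * 1 * 1 * 1 := by gcongr <;> apply hunit
      _ = H.bound := by ring
  have hcorr : ∀ i j, Bdd A' X' (η' / (n + 1)) (corr i j) := by
    intro i j
    have c1 : Bdd A' X' (ε * |K|) (fun a x => (c.slope a - ρ₀) *
        curv (H := H) (c.dir x) (Pi.single i 1) (Pi.single j 1)) :=
      bdd_prod _ _ hεpos.le (abs_nonneg _) (fun a ha => (hA a ha).2.2.2.1)
        (fun x hx => ((hX x hx).2.2.2.2.2.2.1 i j).trans (le_abs_self _))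
    have c2 : Bdd A' X' (∑ k : Fin n, ε * H.bound) (fun a (_ : Vec n) =>
        ∑ k, (-(c.slope a • (c.dir a - c.θs))) k *
          H.M (Pi.single k 1) (Pi.single i 1) (Pi.single j 1)) := by
      refine bdd_fintype _ _ _ _ (fun _ => hεpos.le) (fun _ => H.bound_pos.le) (fun a ha k => ?_)
        (fun x _ k => hb3 i j k)
      have h := norm_le_pi_norm (-(c.slope a • (c.dir a - c.θs))) k
      rw [norm_neg, Real.norm_eq_abs] at h
      exact h.trans (hA a ha).2.2.2.2.1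
    have c3 : Bdd A' X' (∑ k : Fin n, Ra * (Rx * H.bound)) (fun a x =>
        ∑ k, c.slope a * ((c.dir x - c.θs) k *
          H.M (Pi.single k 1) (Pi.single i 1) (Pi.single j 1))) := by
      refine bdd_fintype _ _ _ _ (fun _ => hRa) (fun _ => mul_nonneg hRx H.bound_pos.le)
        (fun a ha k => ?_) (fun x hx k => ?_)
      · obtain ⟨hac, _, hσ, _, _, hle⟩ := hA a ha
        rwa [abs_of_nonneg (show (0 : ℝ) ≤ c.slope a from div_nonneg (c.ℓ_nonneg hP hac) hσ.le)]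
      · have h := norm_le_pi_norm (c.dir x - c.θs) k
        rw [Real.norm_eq_abs] at h
        rw [abs_mul]
        exact mul_le_mul (h.trans (hX x hx).2.2.2.2.2.1) (hb3 i j k) (abs_nonneg _) hRx
    refine (bdd_congr ((c1.add c2).add c3) fun a x => ?_).mono ?_
    · have l : ∀ w : Vec n, H.M w (Pi.single i 1) (Pi.single j 1) =
          ∑ k, w k * H.M (Pi.single k 1) (Pi.single i 1) (Pi.single j 1) := fun w =>
        lin_eq_sum ((H.M.flip (Pi.single i 1)).flip (Pi.single j 1)) w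
      simp only [corr]
      rw [l, l, Finset.mul_sum]
    · simp only [Finset.sum_const, Finset.card_univ, Fintype.card_fin, nsmul_eq_mul]
      have e : ε * KK = η' / (n + 1) := by rw [hε]; field_simp
      rw [← e, hKK]
      nlinarith [mul_le_mul_of_nonneg_left hRR (mul_nonneg (Nat.cast_nonneg (α := ℝ) n)
        H.bound_pos.le)]
  have hquad := sosOn_quadForm Δ hΔ Cx η' hsymm hlow corr hcorr (by
    rw [Fintype.card_fin, mul_div, div_le_iff₀ (by positivity)]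
    nlinarith)
  -- the first square
  have hu : FinRank (fun a x => 3 * H.M c.s (c.dir x) (c.dir x) -
      c.slope a * (2 * -H.M (c.dir x) (c.dir x) (c.dir x) +
        -3 * (H.M (c.dir x) (c.dir x) (c.dir a) - H.M (c.dir x) (c.dir x) (c.dir x))) / 2) := by
    refine finRank_congr ((finRank_right (fun x => 3 * H.M c.s (c.dir x) (c.dir x))).add
      ((finRank_prod (fun a => -c.slope a / 2) (fun x => H.M (c.dir x) (c.dir x) (c.dir x))).add
        (finRank_fintype (fun k a => 3 * c.slope a / 2 * c.dir a k)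
          (fun k x => H.M (c.dir x) (c.dir x) (Pi.single k 1))))) fun a x => ?_
    have e := lin_eq_sum (H.M (c.dir x) (c.dir x)) (c.dir a)
    simp only [mul_assoc, ← Finset.mul_sum, ← e]
    ring
  have hslope : ∀ a ∈ A', 0 ≤ c.slope a := fun a ha =>
    div_nonneg (c.ℓ_nonneg hP (hA a ha).1) (hA a ha).2.2.1.le
  have key := ((sosOn_prod (fun a => c.σ a)
      (fun x => c.σ x * c.ℓ x / (3 * F (H := H) (c.dir x)))
      (fun a ha => (hA a ha).2.2.1.le) (fun x hx => by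
        obtain ⟨_, _, h1, h2, h3, _⟩ := hX x hx; positivity)).mul
    ((sosOn_sq hu).add (hquad.scale (fun a => c.slope a) (fun x => F (H := H) (c.dir x))
      hslope (fun x hx => (hX x hx).2.2.2.2.1.le))))
  refine sosOn_congr key fun a ha x hx => ?_
  obtain ⟨hac, hpa, hσa, _⟩ := hA a ha
  obtain ⟨hxc, hpx, hσx, hℓx, hFx, _⟩ := hX x hx
  set θ₁ := c.dir x with hθ₁
  set θ₂ := c.dir a with hθ₂
  set r := c.slope a with hr
  have ea := c.eq_dir hP hN hac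
  have ex := c.eq_dir hP hN hxc
  rw [← hθ₂] at ea
  rw [← hθ₁] at ex
  have hrl : c.ℓ a = r * c.σ a := by rw [hr, slope]; field_simp
  have ea' : a = c.σ a • (c.s + r • θ₂) := by
    rw [smul_add, smul_smul, mul_comm, ← hrl]; exact ea
  have hsp : ∀ (p q : ℝ) (θ : Vec n), H.M (p • c.s + q • θ) (p • c.s + q • θ) (p • c.s + q • θ) =
      3 * p * q ^ 2 * H.M c.s θ θ + q ^ 3 * H.M θ θ θ := by
    intro p q θ
    rw [H.cube_add]
    simp only [map_smul, LinearMap.smul_apply, smul_eq_mul, c.M_ss]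
    ring
  have hxrel : 3 * c.σ x * H.M c.s θ₁ θ₁ + c.ℓ x * H.M θ₁ θ₁ θ₁ = 0 := by
    have := hpx
    rw [ex, hsp] at this
    have h2 : c.ℓ x ^ 2 ≠ 0 := pow_ne_zero 2 hℓx.ne'
    refine mul_left_cancel₀ h2 ?_
    linear_combination this
  have harel : 3 * r * H.M c.s θ₂ θ₂ + r ^ 2 * H.M θ₂ θ₂ θ₂ = 0 := by
    have := hpa
    rw [ea', smul_add, smul_smul, hsp] at this
    rcases eq_or_ne r 0 with h0 | h0
    · simp [h0]
    · have h2 : c.σ a ^ 3 * r ≠ 0 := mul_ne_zero (pow_ne_zero 3 hσa.ne') h0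
      refine mul_left_cancel₀ h2 ?_
      linear_combination this
  have hS : H.M a x x = c.σ a * (c.ℓ x ^ 2 * H.M c.s θ₁ θ₁ +
      r * (2 * c.σ x * c.ℓ x * H.M c.s θ₁ θ₂ + c.ℓ x ^ 2 * H.M θ₁ θ₁ θ₂)) := by
    conv_lhs => rw [ea', ex]
    have q1 : H.M c.s c.s θ₁ = 0 := by rw [← H.rot θ₁ c.s c.s]; exact c.M_ss θ₁
    have q2 : H.M c.s θ₁ c.s = 0 := by rw [H.swap₂₃]; exact q1
    have q3 : H.M θ₂ c.s θ₁ = H.M c.s θ₁ θ₂ := H.rot θ₂ c.s θ₁
    have q4 : H.M θ₂ θ₁ c.s = H.M c.s θ₁ θ₂ := by rw [H.swap₂₃ θ₂ θ₁ c.s, q3]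
    have q5 : H.M θ₂ θ₁ θ₁ = H.M θ₁ θ₁ θ₂ := H.rot θ₂ θ₁ θ₁
    simp only [map_add, map_smul, LinearMap.add_apply, LinearMap.smul_apply, smul_eq_mul, c.M_ss,
      q1, q2, q3, q4, q5]
    ring
  have hF : H.M θ₁ θ₁ θ₁ ≠ 0 := by
    intro h; simp [F, h] at hFx
  rw [hS, node_identity (c.σ a) (c.σ x) (c.ℓ x) r _ _ (H.M c.s θ₂ θ₂) _ _ (H.M θ₂ θ₂ θ₂)
    hF hσx.ne' hxrel harel]
  have hd : ∀ i, Δ i a x = (θ₂ - θ₁) i := fun i => rfl
  have hσd : c.σ (θ₂ - θ₁) = 0 := by simp [hθ₁, hθ₂, c.σ_dir]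
  have hℓd : c.ℓ (θ₂ - θ₁) = 0 := by simp [hθ₁, hθ₂, c.ℓ_dir]
  have hsum : ∑ i, ∑ j, (Cx x i j + corr i j a x) * Δ i a x * Δ j a x =
      -3 * H.M c.s (θ₂ - θ₁) (θ₂ - θ₁) + r * curv (H := H) θ₁ (θ₂ - θ₁) (θ₂ - θ₁) -
        r * H.M (θ₂ - θ₁) (θ₂ - θ₁) (θ₂ - θ₁) := by
    simp only [hd, add_mul, Finset.sum_add_distrib]
    rw [hCq, c.proj_of hσd hℓd, sub_self]
    simp only [corr, add_mul, Finset.sum_add_distrib, mul_assoc (r - ρ₀), mul_assoc r,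
      ← Finset.mul_sum, ← hθ₁, ← hθ₂, ← hr]
    rw [← bilin_eq_sum (curv (H := H) θ₁), ← bilin_eq_sum (H.M (-(r • (θ₂ - c.θs)))),
      ← bilin_eq_sum (H.M (θ₁ - c.θs))]
    simp only [Pi.zero_apply, map_sub, map_neg, map_smul, LinearMap.sub_apply, LinearMap.neg_apply,
      LinearMap.smul_apply, smul_eq_mul]
    simp
    ring
  simp only [hsum, F, ← hθ₁, ← hθ₂, ← hr]
  rw [curv_apply]
  simp only [map_sub, LinearMap.sub_apply]
  rw [H.swap₂₃ c.s θ₂ θ₁, H.swap₁₂ θ₂ θ₁ θ₁, H.swap₂₃ θ₁ θ₂ θ₁, H.swap₂₃ θ₂ θ₂ θ₁,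
    H.swap₁₂ θ₂ θ₁ θ₂]
  ring

end Chart

end Vale.Agent.P256
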