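import Vale.Agent.P256.Shadow

namespace Vale.Agent.P256

open scoped BigOperators

variable {n : ℕ}

namespace HCubic

variable (H : HCubic n)

/-- The lineality space. -/
def lineality : Submodule ℝ (Vec n) where
  carrier := {x | H.M H.e H.e x = 0 ∧ H.M H.e x x = 0}
  zero_mem' := by simp
  add_mem' := by
    rintro x y ⟨hx, hx'⟩ ⟨hy, hy'⟩
    have hxy : H.M H.e x y = 0 := by
      have h : ∀ t : ℝ, H.M H.e (x + t • y) (x + t • y) ≤ 0 := fun t =>
        H.traceless _ (by simp [hx, hy])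
      have h1 := h 1
      have h2 := h (-1)
      rw [H.sq_add, hx', hy'] at h1 h2
      linarith
    refine ⟨by simp [hx, hy], ?_⟩
    have e := H.sq_add H.e x y 1
    rw [one_smul] at e
    rw [e, hx', hy', hxy]; ring
  smul_mem' := by
    rintro c x ⟨hx, hx'⟩
    simp [hx, hx']

lemma mem_lineality {x : Vec n} : x ∈ H.lineality ↔ H.M H.e H.e x = 0 ∧ H.M H.e x x = 0 := Iff.rfl

lemma lineality_mem_cone {l : Vec n} (hl : l ∈ H.lineality) : l ∈ H.cone := by
  obtain ⟨r₀, r₁, r₂, e1, e2, e3⟩ := H.roots l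
  rw [hl.1] at e1
  rw [hl.2] at e2
  have h0 : r₀ = 0 := by nlinarith [sq_nonneg r₁, sq_nonneg r₂, sq_nonneg r₀]
  refine ⟨hl.1.ge, hl.2.ge, ?_⟩
  rw [e3, h0]; simp

lemma lineality_M {l : Vec n} (hl : l ∈ H.lineality) (v w : Vec n) : H.M l v w = 0 := by
  have key : ∀ c ∈ H.core, H.M l c c = 0 := fun c hc => by
    have h1 := H.psi_nonneg (H.lineality_mem_cone hl) (H.core_subset hc)
    have h2 := H.psi_nonneg (H.lineality_mem_cone (H.lineality.neg_mem hl)) (H.core_subset hc)
    simp only [map_neg, LinearMap.neg_apply] at h2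
    linarith
  have hquad : ∀ z, H.M l z z = 0 := fun z => by
    obtain ⟨ε, hε, c1, c2⟩ := H.core_room H.e_mem_core z
    have k0 := key _ H.e_mem_core
    have k1 := key _ c1
    have k2 := key _ c2
    rw [H.sq_add] at k1
    rw [sub_eq_add_neg, ← neg_smul, H.sq_add] at k2
    have : ε ^ 2 * H.M l z z = 0 := by linear_combination k1 / 2 + k2 / 2 - k0
    exact (mul_eq_zero.1 this).resolve_left (pow_ne_zero 2 hε.ne')
  have e := H.sq_add l v w 1
  rw [one_smul, hquad, hquad, hquad] at e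
  linarith

lemma mem_lineality_of_cone {x : Vec n} (h1 : x ∈ H.cone) (h2 : -x ∈ H.cone) :
    x ∈ H.lineality := by
  have a := h2.1
  simp only [map_neg] at a
  have ha : H.M H.e H.e x = 0 := le_antisymm (by linarith) h1.1
  exact ⟨ha, le_antisymm (H.traceless x ha) h1.2.1⟩

/-- Nondegeneracy of singular rays modulo lineality. -/
def NodalModLineality : Prop := ∀ b ∈ H.cone, -b ∉ H.cone → H.M H.e b b = 0 →
  ∀ v, (∀ w, H.M b v w = 0) → ∃ c : ℝ, v - c • b ∈ H.lineality

theorem shadow (hN : H.NodalModLineality) : IsSpectrahedralShadow H.cone := by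
  classical
  obtain ⟨W, hW⟩ := Submodule.exists_isCompl H.lineality
  let φ := (Module.finBasis ℝ W).equivFun
  let ι : Vec (Module.finrank ℝ W) →ₗ[ℝ] Vec n := W.subtype.comp φ.symm.toLinearMap
  let π : Vec n →ₗ[ℝ] Vec (Module.finrank ℝ W) :=
    φ.toLinearMap.comp (W.projectionOnto H.lineality hW.symm)
  have hπι : ∀ y, π (ι y) = y := fun y => by
    simp [π, ι, Submodule.projectionOnto_apply_left hW.symm]
  have hdiff : ∀ x, x - ι (π x) ∈ H.lineality := fun x => by
    rw [← Submodule.projectionOnto_apply_eq_zero_iff hW.symm, map_sub]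
    simp [π, ι, Submodule.projectionOnto_projection hW.symm]
  have hι : ∀ y, ι y ∈ H.lineality → y = 0 := fun y hy => by
    have hmem : ι y ∈ W := by simp [ι]
    have h0 : ι y = 0 := (Submodule.disjoint_def.1 hW.disjoint) _ hy hmem
    rw [← hπι y, h0, map_zero]
  have first : ∀ u v w, H.M (ι (π u)) v w = H.M u v w := fun u v w => by
    have := H.lineality_M (hdiff u) v w
    simp only [map_sub, LinearMap.sub_apply] at this
    linarith
  have all : ∀ u v w, H.M (ι (π u)) (ι (π v)) (ι (π w)) = H.M u v w := fun u v w => by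
    rw [first, H.swap₁₂ u, first, H.swap₁₃ v u, first, H.swap₁₃ w u v, H.swap₁₂ v u w]
  have he : ∀ y z, H.M (ι (π H.e)) (ι y) (ι z) = H.M H.e (ι y) (ι z) := fun y z => first _ _ _
  have hee : ∀ z, H.M (ι (π H.e)) (ι (π H.e)) (ι z) = H.M H.e H.e (ι z) := fun z => by
    conv_lhs => rw [← hπι z]
    rw [all]
  let H' : HCubic (Module.finrank ℝ W) :=
    { e := π H.e
      M := ((H.M.compl₁₂ ι ι)).compr₂ ι.dualMap
      swap₁₂ := fun u v w => H.swap₁₂ _ _ _
      swap₂₃ := fun u v w => H.swap₂₃ _ _ _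
      norm := (all H.e H.e H.e).trans H.norm
      hyp := fun x z hz => H.hyp (ι x) z (by
        rw [← hee, ← he]
        exact hz) }
  have Mdef : ∀ u v w, H'.M u v w = H.M (ι u) (ι v) (ι w) := fun u v w => rfl
  have acone : ∀ x, H.M H.e H.e x = H'.M H'.e H'.e (π x) ∧
      H.M H.e x x = H'.M H'.e (π x) (π x) ∧ H.M x x x = H'.M (π x) (π x) (π x) := fun x =>
    ⟨(all H.e H.e x).symm, (all H.e x x).symm, (all x x x).symm⟩
  have hcone : H.cone = π ⁻¹' H'.cone := by
    ext x
    obtain ⟨a, b, c⟩ := acone x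
    simp only [cone, Set.mem_preimage, Set.mem_ofPred_eq, a, b, c]
  rw [hcone]
  refine IsSpectrahedralShadow.preimage π (H'.shadow_pointed ?_ ?_)
  · intro y ha hb
    refine hι y ⟨?_, ?_⟩
    · rw [← hee]; exact ha
    · rw [← he]; exact hb
  · intro b hb hb0 hsing v hv
    have hbc : ι b ∈ H.cone := by
      rw [hcone, Set.mem_preimage, hπι]; exact hb
    have hnot : -ι b ∉ H.cone := fun h => hb0 (hι b (H.mem_lineality_of_cone hbc h))
    have hs : H.M H.e (ι b) (ι b) = 0 := by rw [← he]; exact hsing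
    obtain ⟨c, hc⟩ := hN (ι b) hbc hnot hs (ι v) (fun w => by
      have := hv (π w)
      rw [Mdef] at this
      rw [H.swap₁₃ (ι b) (ι v), ← first w, H.swap₁₃ (ι (π w)) (ι v) (ι b)]
      exact this)
    refine ⟨c, sub_eq_zero.1 (hι (v - c • b) ?_)⟩
    rwa [map_sub, map_smul]

end HCubic

end Vale.Agent.P256
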